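import Vale.Agent.P204.Full.Smooth.Red

/-!
Square integrable bounds for averaging operators and their derivatives.
-/

open scoped ContDiff Topology
open MeasureTheory Set Metric

noncomputable section

namespace Vale.Agent.P204.Full.Smooth

/-- The squared norm of the `j`-th derivative. -/
def sqn {V : Type} [NormedAddCommGroup V] [NormedSpace ℝ V] (j : ℕ) (f : R4 → V) : ℝ :=
  ∫ y, ‖iteratedFDeriv ℝ j f y‖ ^ 2

theorem sqn_nonneg {V : Type} [NormedAddCommGroup V] [NormedSpace ℝ V] (j : ℕ) (f : R4 → V) :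
    0 ≤ sqn j f :=
  integral_nonneg fun _ => sq_nonneg _

theorem sqn_zero {V : Type} [NormedAddCommGroup V] [NormedSpace ℝ V] (f : R4 → V) :
    sqn 0 f = ∫ y, ‖f y‖ ^ 2 := by
  simp [sqn]

theorem sqn_succ {V : Type} [NormedAddCommGroup V] [NormedSpace ℝ V] (j : ℕ) (f : R4 → V) :
    sqn (j + 1) f = sqn j (fderiv ℝ f) := by
  simp [sqn, norm_iteratedFDeriv_fderiv]

theorem integrable_sq_deriv {V : Type} [NormedAddCommGroup V] [NormedSpace ℝ V] (j : ℕ)
    {f : R4 → V} (hf : ContDiff ℝ ∞ f) (hs : HasCompactSupport f) :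
    Integrable fun y => ‖iteratedFDeriv ℝ j f y‖ ^ 2 := by
  have hc : Continuous (iteratedFDeriv ℝ j f) := hf.continuous_iteratedFDeriv (mod_cast le_top)
  refine (hc.norm.pow 2).integrable_of_hasCompactSupport (HasCompactSupport.intro hs fun y hy => ?_)
  have h : y ∉ Function.support (iteratedFDeriv ℝ j f) := fun h =>
    hy (support_iteratedFDeriv_subset j h)
  simp only [Function.mem_support, not_not] at h
  simp [h]

theorem sqn_add_le {V : Type} [NormedAddCommGroup V] [NormedSpace ℝ V] (j : ℕ) {f g : R4 → V}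
    (hf : ContDiff ℝ ∞ f) (hg : ContDiff ℝ ∞ g) (hfs : HasCompactSupport f)
    (hgs : HasCompactSupport g) : sqn j (f + g) ≤ 2 * sqn j f + 2 * sqn j g := by
  rw [sqn, sqn, sqn, ← integral_const_mul, ← integral_const_mul,
    ← integral_add ((integrable_sq_deriv j hf hfs).const_mul 2)
      ((integrable_sq_deriv j hg hgs).const_mul 2)]
  refine integral_mono_of_nonneg (ae_of_all _ fun _ => sq_nonneg _)
    (((integrable_sq_deriv j hf hfs).const_mul 2).add ((integrable_sq_deriv j hg hgs).const_mul 2))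
    (ae_of_all _ fun y => ?_)
  dsimp only
  rw [iteratedFDeriv_add_apply (hf.of_le (mod_cast le_top)).contDiffAt
    (hg.of_le (mod_cast le_top)).contDiffAt]
  have := norm_add_le (iteratedFDeriv ℝ j f y) (iteratedFDeriv ℝ j g y)
  nlinarith [sq_nonneg (‖iteratedFDeriv ℝ j f y‖ - ‖iteratedFDeriv ℝ j g y‖),
    norm_nonneg (iteratedFDeriv ℝ j f y + iteratedFDeriv ℝ j g y)]

theorem sqn_smul {V : Type} [NormedAddCommGroup V] [NormedSpace ℝ V] (j : ℕ) (c : ℝ) {f : R4 → V}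
    (hf : ContDiff ℝ ∞ f) : sqn j (c • f) = c ^ 2 * sqn j f := by
  rw [sqn, sqn, ← integral_const_mul]
  refine integral_congr_ae (ae_of_all _ fun y => ?_)
  dsimp only
  rw [iteratedFDeriv_const_smul_apply (hf.of_le (mod_cast le_top)).contDiffAt, norm_smul,
    mul_pow, Real.norm_eq_abs, sq_abs]

variable {W : Type} [NormedAddCommGroup W] [NormedSpace ℝ W] [FiniteDimensional ℝ W] {Φ : Fam W}

theorem Fam.exists_det_lower (Φ : Fam W) :
    ∃ c : ℝ, 0 < c ∧ ∀ y ∈ Φ.K, ∀ u : W, ‖u‖ ≤ Φ.rad → c ≤ |(Φ.Dy (y, u)).det| := by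
  obtain he | he := (Φ.K ×ˢ closedBall (0 : W) Φ.rad).eq_empty_or_nonempty
  · exact ⟨1, one_pos, fun y hy u hu =>
      absurd (show (y, u) ∈ Φ.K ×ˢ closedBall (0 : W) Φ.rad from ⟨hy, by simpa using hu⟩)
        (by simp [he])⟩
  obtain ⟨p, hp, hmin⟩ := (Φ.K_compact.prod (isCompact_closedBall (0 : W) Φ.rad)).exists_isMinOn he
    (f := fun q => |(Φ.Dy q).det|)
    ((ContinuousLinearMap.continuous_det.comp Φ.Dy_smooth.continuous).abs.continuousOn)
  refine ⟨|(Φ.Dy p).det|, abs_pos.2 (Φ.det_ne p.1 hp.1 p.2 (by simpa using hp.2)), fun y hy u hu => ?_⟩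
  exact hmin (show (y, u) ∈ Φ.K ×ˢ closedBall (0 : W) Φ.rad from ⟨hy, by simpa using hu⟩)

theorem sq_setIntegral_le {Z : Type} [MeasurableSpace Z] {ν : Measure Z} {S : Set Z}
    (hSm : MeasurableSet S) (hSfin : ν S ≠ ⊤) {h : Z → ℝ} (i1 : IntegrableOn h S ν)
    (i2 : IntegrableOn (fun z => h z ^ 2) S ν) :
    (∫ z in S, h z ∂ν) ^ 2 ≤ ν.real S * ∫ z in S, h z ^ 2 ∂ν := by
  obtain h0 | h0 := (measureReal_nonneg (μ := ν) (s := S)).eq_or_lt
  · have : ν S = 0 := by
      rcases (ENNReal.toReal_eq_zero_iff _).1 h0.symm with h | h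
      · exact h
      · exact absurd h hSfin
    simp [setIntegral_measure_zero _ this]
  have key : ∀ t : ℝ, 2 * t * (∫ z in S, h z ∂ν) ≤ t ^ 2 * ν.real S + ∫ z in S, h z ^ 2 ∂ν := by
    intro t
    have hc' : IntegrableOn (fun _ => t ^ 2) S ν := integrableOn_const hSfin
    have hmono : ∫ z in S, 2 * t * h z ∂ν ≤ ∫ z in S, (t ^ 2 + h z ^ 2) ∂ν :=
      setIntegral_mono_on (i1.const_mul _) (hc'.add i2) hSm fun z _ => two_mul_le_add_sq t (h z)
    rw [integral_const_mul, integral_add hc' i2, setIntegral_const] at hmono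
    simpa [smul_eq_mul, mul_comm] using hmono
  have hk := key ((∫ z in S, h z ∂ν) / ν.real S)
  field_simp at hk
  nlinarith [hk]

/-- Change of variables at a fixed parameter. -/
theorem Fam.exists_comp_le (Φ : Fam W) :
    ∃ C : ℝ, 0 ≤ C ∧ ∀ g : R4 → ℝ, Continuous g → HasCompactSupport g → ∀ v : W, ‖v‖ ≤ Φ.rad →
      ∫ y in Φ.K, g (Φ.F (y, v)) ^ 2 ≤ C * ∫ x, g x ^ 2 := by
  obtain ⟨c, hc, hdet⟩ := Φ.exists_det_lower
  refine ⟨c⁻¹, inv_nonneg.2 hc.le, fun g hg hgs v hv => ?_⟩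
  have hd : ∀ y ∈ Φ.K, HasFDerivWithinAt (fun y => Φ.F (y, v)) (Φ.Dy (y, v)) Φ.K y :=
    fun y _ => (Φ.hasFDerivAt_base y v).hasFDerivWithinAt
  have himg := integral_image_eq_integral_abs_det_fderiv_smul volume Φ.K_compact.measurableSet hd
    (Φ.inj v hv) (fun x => g x ^ 2)
  have hgc : Continuous fun y => g (Φ.F (y, v)) ^ 2 :=
    (hg.comp (Φ.F_smooth.continuous.comp (continuous_id.prodMk continuous_const))).pow 2
  have hdc : Continuous fun y => |(Φ.Dy (y, v)).det| :=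
    (ContinuousLinearMap.continuous_det.comp
      (Φ.Dy_smooth.continuous.comp (continuous_id.prodMk continuous_const))).abs
  have hgi : Integrable fun x => g x ^ 2 :=
    (hg.pow 2).integrable_of_hasCompactSupport
      (HasCompactSupport.intro hgs fun x hx => by simp [image_eq_zero_of_notMem_tsupport hx])
  have hle : c * ∫ y in Φ.K, g (Φ.F (y, v)) ^ 2 ≤ ∫ x, g x ^ 2 := by
    refine le_trans ?_ (setIntegral_le_integral (s := (fun y => Φ.F (y, v)) '' Φ.K) hgi
      (ae_of_all _ fun x => sq_nonneg (g x)))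
    rw [himg, ← integral_const_mul]
    exact setIntegral_mono_on ((hgc.continuousOn.integrableOn_compact Φ.K_compact).const_mul c)
      ((hdc.smul hgc).continuousOn.integrableOn_compact Φ.K_compact) Φ.K_compact.measurableSet
      fun y hy => mul_le_mul_of_nonneg_right (hdet y hy v hv) (sq_nonneg _)
  calc ∫ y in Φ.K, g (Φ.F (y, v)) ^ 2 = c⁻¹ * (c * ∫ y in Φ.K, g (Φ.F (y, v)) ^ 2) := by
        field_simp
    _ ≤ c⁻¹ * ∫ x, g x ^ 2 := mul_le_mul_of_nonneg_left hle (inv_nonneg.2 hc.le)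

/-- The master square integrable bound. -/
theorem Fam.exists_sq_le (Φ : Fam W) :
    ∃ C : ℝ, 0 ≤ C ∧ ∀ {Z : Type} [NormedAddCommGroup Z] [NormedSpace ℝ Z] [FiniteDimensional ℝ Z]
      [MeasurableSpace Z] [BorelSpace Z] (ν : Measure Z) [IsFiniteMeasureOnCompacts ν] [SFinite ν]
      (S : Set Z), IsCompact S → ∀ u : Z → W, Continuous u → (∀ z ∈ S, ‖u z‖ ≤ Φ.rad) →
      ∀ g : R4 → ℝ, Continuous g → HasCompactSupport g → ∀ H : R4 → ℝ, ∀ k : ℝ,
        (∀ y, 0 ≤ H y) → (∀ y ∉ Φ.K, H y = 0) →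
        (∀ y ∈ Φ.K, H y ≤ k * ∫ z in S, g (Φ.F (y, u z)) ∂ν) →
          ∫ y, H y ^ 2 ≤ C * k ^ 2 * ν.real S ^ 2 * ∫ x, g x ^ 2 := by
  obtain ⟨C, hC0, hC⟩ := Φ.exists_comp_le
  refine ⟨C, hC0, fun {Z} _ _ _ _ _ ν _ _ S hS u hu hur g hg hgs H k hH0 hHK hH => ?_⟩
  let q : R4 × Z → ℝ := fun p => g (Φ.F (p.1, u p.2))
  have hq : Continuous q :=
    hg.comp (Φ.F_smooth.continuous.comp (continuous_fst.prodMk (hu.comp continuous_snd)))
  have hint : Integrable (fun p => q p ^ 2) ((volume.restrict Φ.K).prod (ν.restrict S)) := by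
    rw [Measure.prod_restrict]
    exact (hq.pow 2).continuousOn.integrableOn_compact (Φ.K_compact.prod hS)
  have hqy : ∀ y, Continuous fun z => q (y, z) := fun y =>
    hq.comp (continuous_const.prodMk continuous_id)
  have hsw : ∫ y in Φ.K, ∫ z in S, q (y, z) ^ 2 ∂ν = ∫ z in S, ∫ y in Φ.K, q (y, z) ^ 2 ∂volume ∂ν :=
    integral_integral_swap (f := fun y z => q (y, z) ^ 2) hint
  have step1 : ∫ y, H y ^ 2 ≤ k ^ 2 * ν.real S * ∫ y in Φ.K, ∫ z in S, q (y, z) ^ 2 ∂ν := by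
    rw [← setIntegral_eq_integral_of_forall_compl_eq_zero (s := Φ.K) (f := fun y => H y ^ 2)
      fun y hy => by simp [hHK y hy], ← integral_const_mul]
    refine integral_mono_of_nonneg (ae_of_all _ fun _ => sq_nonneg _)
      (hint.integral_prod_left.const_mul _) ?_
    refine (ae_restrict_iff' Φ.K_compact.measurableSet).2 (ae_of_all _ fun y hy => ?_)
    calc H y ^ 2 ≤ (k * ∫ z in S, q (y, z) ∂ν) ^ 2 := pow_le_pow_left₀ (hH0 y) (hH y hy) 2
      _ ≤ k ^ 2 * (ν.real S * ∫ z in S, q (y, z) ^ 2 ∂ν) := by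
          rw [mul_pow]
          exact mul_le_mul_of_nonneg_left (sq_setIntegral_le hS.measurableSet hS.measure_lt_top.ne
            ((hqy y).continuousOn.integrableOn_compact hS)
            (((hqy y).pow 2).continuousOn.integrableOn_compact hS)) (sq_nonneg k)
      _ = k ^ 2 * ν.real S * ∫ z in S, q (y, z) ^ 2 ∂ν := by ring
  rw [hsw] at step1
  have step2 : ∫ z in S, ∫ y in Φ.K, q (y, z) ^ 2 ∂volume ∂ν ≤ ν.real S * (C * ∫ x, g x ^ 2) := by
    refine le_trans (setIntegral_mono_on (g := fun _ => C * ∫ x, g x ^ 2) hint.integral_prod_right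
      (integrableOn_const hS.measure_lt_top.ne) hS.measurableSet
      fun z hz => hC g hg hgs (u z) (hur z hz)) (le_of_eq ?_)
    simp [setIntegral_const, smul_eq_mul]
  refine step1.trans ((mul_le_mul_of_nonneg_left step2 (by positivity)).trans (le_of_eq ?_))
  ring

variable {V V' : Type} [NormedAddCommGroup V] [NormedSpace ℝ V] [NormedAddCommGroup V']
  [NormedSpace ℝ V']

theorem Sym.exists_bound (s : Sym Φ V V') :
    ∃ M : ℝ, 0 ≤ M ∧ ∀ σ y w, |σ| ≤ 1 → ‖s.a (σ, y, w)‖ ≤ M := by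
  obtain ⟨M, hM⟩ := ((isCompact_Icc (a := (-1 : ℝ)) (b := 1)).prod
    (Φ.K_compact.prod (isCompact_closedBall (0 : W) 1))).exists_bound_of_continuousOn
      s.smooth.continuous.continuousOn
  refine ⟨max M 0, le_max_right _ _, fun σ y w hσ => ?_⟩
  by_cases h : y ∈ Φ.K ∧ ‖w‖ ≤ 1
  · exact (hM (σ, y, w) ⟨abs_le.1 hσ, h.1, by simpa using h.2⟩).trans (le_max_left _ _)
  · have : s.a (σ, y, w) = 0 := by
      by_contra hne
      exact h (s.supp σ y w hne)
    simp [this]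

theorem Sym.hasDerivAt_scale (s : Sym Φ V V') (σ : ℝ) (y : R4) (w : W) :
    HasDerivAt (fun t => s.a (t, y, w)) (s.ds.a (σ, y, w)) σ := by
  have h := ((s.smooth.differentiable (by simp)) (σ, y, w)).hasFDerivAt.comp_hasDerivAt σ
    ((hasDerivAt_id σ).prodMk (hasDerivAt_const σ (y, w)))
  exact h

theorem Sym.Van.exists_bound {s : Sym Φ V V'} (h : s.Van) :
    ∃ M : ℝ, 0 ≤ M ∧ ∀ σ y w, |σ| ≤ 1 → ‖s.a (σ, y, w)‖ ≤ M * |σ| := by
  obtain ⟨M, hM0, hM⟩ := s.ds.exists_bound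
  refine ⟨M, hM0, fun σ y w hσ => ?_⟩
  have hh := (convex_Icc (-1 : ℝ) 1).norm_image_sub_le_of_norm_hasDerivWithin_le
    (f := fun t => s.a (t, y, w)) (f' := fun t => s.ds.a (t, y, w))
    (fun t _ => (s.hasDerivAt_scale t y w).hasDerivWithinAt)
    (fun t ht => hM t y w (abs_le.2 ht)) (x := (0 : ℝ)) (y := σ) ⟨by norm_num, by norm_num⟩ (abs_le.1 hσ)
  simpa [h y w] using hh

variable [MeasurableSpace W] [BorelSpace W] {μ : Measure W} [μ.IsAddHaarMeasure]

omit [FiniteDimensional ℝ W] in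
theorem norm_avgOp_le (s : Sym Φ V V') {σ M : ℝ} (hM : ∀ y w, ‖s.a (σ, y, w)‖ ≤ M) {f : R4 → V}
    (hf : Continuous f) [ProperSpace W] (y : R4) :
    ‖avgOp μ s σ f y‖ ≤ M * ∫ w in closedBall (0 : W) 1, ‖f (Φ.F (y, σ • w))‖ ∂μ := by
  rw [avgOp, ← setIntegral_eq_integral_of_forall_compl_eq_zero (s := closedBall (0 : W) 1)
    fun w hw => by simp [s.zero_of_norm (show 1 < ‖w‖ by simpa using hw)], ← integral_const_mul]
  refine norm_integral_le_of_norm_le ?_ (ae_of_all _ fun w => ?_)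
  · exact ((hf.comp (Φ.F_smooth.continuous.comp (continuous_const.prodMk
      (continuous_const_smul σ)))).norm.continuousOn.integrableOn_compact
        (isCompact_closedBall _ _)).const_mul M
  · exact (ContinuousLinearMap.le_opNorm _ _).trans
      (mul_le_mul_of_nonneg_right (hM y w) (norm_nonneg _))

variable (μ Φ) in
theorem exists_sqn_base :
    ∃ C : ℝ, 0 ≤ C ∧ ∀ {V V' : Type} [NormedAddCommGroup V] [NormedSpace ℝ V] [NormedAddCommGroup V']
      [NormedSpace ℝ V'] (s : Sym Φ V V') (σ M : ℝ), |σ| ≤ Φ.rad →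
      (∀ y w, ‖s.a (σ, y, w)‖ ≤ M) → ∀ f : R4 → V, Continuous f → HasCompactSupport f →
        sqn 0 (avgOp μ s σ f) ≤ C * M ^ 2 * sqn 0 f := by
  obtain ⟨C, hC0, hC⟩ := Φ.exists_sq_le
  refine ⟨C * μ.real (closedBall (0 : W) 1) ^ 2, mul_nonneg hC0 (sq_nonneg _),
    fun {V V'} _ _ _ _ s σ M hσ hM f hf hfs => ?_⟩
  rw [sqn_zero, sqn_zero]
  refine le_trans ?_ (le_of_eq (show C * M ^ 2 * μ.real (closedBall (0 : W) 1) ^ 2 *
    ∫ x, ‖f x‖ ^ 2 = _ by ring))
  exact hC μ (closedBall (0 : W) 1) (isCompact_closedBall _ _) (fun w => σ • w)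
    (continuous_const_smul σ) (fun z hz => by
      have hz' : ‖z‖ ≤ 1 := by simpa using hz
      rw [norm_smul, Real.norm_eq_abs]
      nlinarith [norm_nonneg z, abs_nonneg σ])
    (fun x => ‖f x‖) hf.norm hfs.norm (fun y => ‖avgOp μ s σ f y‖) M (fun y => norm_nonneg _)
    (fun y hy => by simp [avgOp_zero_of_notMem μ s σ f hy]) fun y _ => norm_avgOp_le s hM hf y

variable (μ) in
theorem exists_sqn_avgOp_le (j : ℕ) :
    ∀ {V V' : Type} [NormedAddCommGroup V] [NormedSpace ℝ V] [NormedAddCommGroup V']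
      [NormedSpace ℝ V'] [CompleteSpace V'] (s : Sym Φ V V'),
      ∃ C : ℝ, 0 ≤ C ∧ ∀ σ, |σ| ≤ Φ.rad → ∀ f : R4 → V, ContDiff ℝ ∞ f → HasCompactSupport f →
        sqn j (avgOp μ s σ f) ≤ C * ∑ l ∈ Finset.range (j + 1), sqn l f := by
  induction j with
  | zero =>
    intro V V' _ _ _ _ _ s
    obtain ⟨C, hC0, hC⟩ := exists_sqn_base Φ μ
    obtain ⟨M, hM0, hM⟩ := s.exists_bound
    refine ⟨C * M ^ 2, mul_nonneg hC0 (sq_nonneg M), fun σ hσ f hf hfs => ?_⟩
    simpa using hC s σ M hσ (fun y w => hM σ y w (hσ.trans Φ.rad_le)) f hf.continuous hfs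
  | succ j ih =>
    intro V V' _ _ _ _ _ s
    obtain ⟨C1, hC10, h1⟩ := ih s.dy
    obtain ⟨C2, hC20, h2⟩ := ih s.chain
    refine ⟨2 * C1 + 2 * C2, by positivity, fun σ hσ f hf hfs => ?_⟩
    have hD : ContDiff ℝ ∞ (fderiv ℝ f) := hf.fderiv_right le_rfl
    rw [sqn_succ, fderiv_avgOp μ s σ hf]
    refine (sqn_add_le j (avgOp_smooth μ _ σ hf) (avgOp_smooth μ _ σ hD)
      (avgOp_hasCompactSupport μ _ σ f) (avgOp_hasCompactSupport μ _ σ _)).trans ?_
    have e1 : ∑ l ∈ Finset.range (j + 1), sqn l f ≤ ∑ l ∈ Finset.range (j + 1 + 1), sqn l f :=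
      Finset.sum_le_sum_of_subset_of_nonneg (Finset.range_mono (by omega))
        fun l _ _ => sqn_nonneg l f
    have e2 : ∑ l ∈ Finset.range (j + 1), sqn l (fderiv ℝ f) ≤
        ∑ l ∈ Finset.range (j + 1 + 1), sqn l f := by
      rw [Finset.sum_range_succ' _ (j + 1)]
      simp_rw [sqn_succ]
      exact le_add_of_nonneg_right (sqn_nonneg 0 f)
    nlinarith [(h1 σ hσ f hf hfs).trans (mul_le_mul_of_nonneg_left e1 hC10),
      (h2 σ hσ _ hD (hfs.fderiv ℝ)).trans (mul_le_mul_of_nonneg_left e2 hC20)]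

variable (μ) in
theorem exists_sqn_avgOp_down (j : ℕ) :
    ∀ {V V' : Type} [NormedAddCommGroup V] [NormedSpace ℝ V] [NormedAddCommGroup V']
      [NormedSpace ℝ V'] [CompleteSpace V'] (s : Sym Φ V V'),
      ∃ C : ℝ, 0 ≤ C ∧ ∀ σ, |σ| ≤ Φ.rad → ∀ f : R4 → V, ContDiff ℝ ∞ f → HasCompactSupport f →
        (σ ^ j) ^ 2 * sqn j (avgOp μ s σ f) ≤ C * sqn 0 f ∧
          (s.Van → (σ ^ j) ^ 2 * sqn j (avgOp μ s σ f) ≤ C * σ ^ 2 * sqn 0 f) := by
  induction j with
  | zero =>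
    intro V V' _ _ _ _ _ s
    obtain ⟨C, hC0, hC⟩ := exists_sqn_base Φ μ
    obtain ⟨M, hM0, hM⟩ := s.exists_bound
    by_cases hv : s.Van
    · obtain ⟨N, hN0, hN⟩ := hv.exists_bound
      refine ⟨C * M ^ 2 + C * N ^ 2, by positivity, fun σ hσ f hf hfs => ⟨?_, fun _ => ?_⟩⟩
      · have := hC s σ M hσ (fun y w => hM σ y w (hσ.trans Φ.rad_le)) f hf.continuous hfs
        simp only [pow_zero, one_pow, one_mul]
        nlinarith [mul_nonneg (mul_nonneg hC0 (sq_nonneg N)) (sqn_nonneg 0 f)]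
      · have := hC s σ (N * |σ|) hσ (fun y w => hN σ y w (hσ.trans Φ.rad_le)) f hf.continuous hfs
        rw [mul_pow, sq_abs] at this
        simp only [pow_zero, one_pow, one_mul]
        nlinarith [mul_nonneg (mul_nonneg (mul_nonneg hC0 (sq_nonneg M)) (sq_nonneg σ)) (sqn_nonneg 0 f)]
    · refine ⟨C * M ^ 2, mul_nonneg hC0 (sq_nonneg M), fun σ hσ f hf hfs =>
        ⟨?_, fun h => absurd h hv⟩⟩
      simpa using hC s σ M hσ (fun y w => hM σ y w (hσ.trans Φ.rad_le)) f hf.continuous hfs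
  | succ j ih =>
    intro V V' _ _ _ _ _ s
    obtain ⟨C, hC0, h⟩ := ih s.down
    refine ⟨C, hC0, fun σ hσ f hf hfs => ?_⟩
    have e : (σ ^ (j + 1)) ^ 2 * sqn (j + 1) (avgOp μ s σ f) =
        (σ ^ j) ^ 2 * sqn j (avgOp μ s.down σ f) := by
      rw [sqn_succ, ← smul_fderiv_avgOp s hσ hf,
        sqn_smul j σ ((avgOp_smooth μ s σ hf).fderiv_right le_rfl)]
      ring
    rw [e]
    exact ⟨(h σ hσ f hf hfs).1, fun hv => (h σ hσ f hf hfs).2 hv.down⟩

variable (μ) in
theorem exists_sqn_sub_le (j : ℕ) :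
    ∀ {V V' : Type} [NormedAddCommGroup V] [NormedSpace ℝ V] [NormedAddCommGroup V']
      [NormedSpace ℝ V'] [CompleteSpace V'] (s : Sym Φ V V'),
      ∃ C : ℝ, 0 ≤ C ∧ ∀ σ, |σ| ≤ Φ.rad → ∀ f : R4 → V, ContDiff ℝ ∞ f → HasCompactSupport f →
        sqn j (avgOp μ s σ f - avgOp μ s 0 f) ≤
          C * σ ^ 2 * ∑ l ∈ Finset.range (j + 2), sqn l f := by
  induction j with
  | zero =>
    intro V V' _ _ _ _ _ s
    obtain ⟨C, hC0, hC⟩ := Φ.exists_sq_le
    obtain ⟨M1, hM10, hM1⟩ := s.ds.exists_bound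
    obtain ⟨M2, hM20, hM2⟩ := s.chainS.exists_bound
    set ν : Measure (ℝ × W) := (volume : Measure ℝ).prod μ
    set S : Set (ℝ × W) := Icc (0 : ℝ) 1 ×ˢ closedBall (0 : W) 1
    refine ⟨2 * (C * ν.real S ^ 2) * (M1 + M2) ^ 2, by positivity, fun σ hσ f hf hfs => ?_⟩
    have hD : ContDiff ℝ ∞ (fderiv ℝ f) := hf.fderiv_right le_rfl
    let g : R4 → ℝ := fun x => ‖f x‖ + ‖fderiv ℝ f x‖
    have hg : Continuous g := hf.continuous.norm.add hD.continuous.norm
    have hSc : IsCompact S := isCompact_Icc.prod (isCompact_closedBall _ _)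
    have key : ∀ y, ‖avgOp μ s σ f y - avgOp μ s 0 f y‖ ≤
        |σ| * (M1 + M2) * ∫ z in S, g (Φ.F (y, (z.1 * σ) • z.2)) ∂ν := by
      intro y
      let D : ℝ × W → V' := fun z => σ • (s.ds.a (z.1 * σ, y, z.2) (f (Φ.F (y, (z.1 * σ) • z.2))) +
        s.chainS.a (z.1 * σ, y, z.2) (fderiv ℝ f (Φ.F (y, (z.1 * σ) • z.2))))
      have hmap : ContDiff ℝ ∞ fun z : ℝ × W => (z.1 * σ, y, z.2) :=
        (contDiff_fst.mul contDiff_const).prodMk (contDiff_const.prodMk contDiff_snd)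
      have hsc : Continuous fun z : ℝ × W => Φ.F (y, (z.1 * σ) • z.2) :=
        Φ.F_smooth.continuous.comp (continuous_const.prodMk
          ((continuous_fst.mul continuous_const).smul continuous_snd))
      have hDc : Continuous D :=
        ((((s.ds.smooth.comp hmap).continuous).clm_apply (hf.continuous.comp hsc)).add
          (((s.chainS.smooth.comp hmap).continuous).clm_apply (hD.continuous.comp hsc))).const_smul σ
      have hDi : IntegrableOn D S ν := hDc.continuousOn.integrableOn_compact hSc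
      have hder : ∀ w t, HasDerivAt (fun t => s.a (t * σ, y, w) (f (Φ.F (y, (t * σ) • w)))) (D (t, w)) t := by
        intro w t
        have h1 : HasDerivAt (fun t : ℝ => s.a (t * σ, y, w)) (σ • s.ds.a (t * σ, y, w)) t :=
          (s.hasDerivAt_scale (t * σ) y w).scomp (g₁ := fun r => s.a (r, y, w))
            (h := fun t : ℝ => t * σ) t ((hasDerivAt_id t).mul_const σ |>.congr_deriv (one_mul σ))
        have h2 : HasDerivAt (fun t : ℝ => f (Φ.F (y, (t * σ) • w)))
            (fderiv ℝ f (Φ.F (y, (t * σ) • w)) (Φ.Dw (y, (t * σ) • w) (σ • w))) t :=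
          ((hf.differentiable (by simp)) _).hasFDerivAt.comp_hasDerivAt t
            ((Φ.hasFDerivAt_par y _).comp_hasDerivAt t
              (((hasDerivAt_id t).mul_const σ |>.congr_deriv (one_mul σ)).smul_const w))
        refine (h1.clm_apply h2).congr_deriv ?_
        simp [D, Sym.chainS, Sym.mulRight, smul_add]
      have hin : ∀ w, ∫ t in Icc (0 : ℝ) 1, D (t, w) =
          s.a (σ, y, w) (f (Φ.F (y, σ • w))) - s.a (0, y, w) (f (Φ.F (y, (0 : ℝ) • w))) := by
        intro w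
        rw [integral_Icc_eq_integral_Ioc, ← intervalIntegral.integral_of_le zero_le_one,
          intervalIntegral.integral_eq_sub_of_hasDerivAt (fun t _ => hder w t)
            ((hDc.comp (continuous_id.prodMk continuous_const)).intervalIntegrable _ _)]
        simp
      have hrep : avgOp μ s σ f y - avgOp μ s 0 f y = ∫ z in S, D z ∂ν := by
        have hD' := hDi
        rw [IntegrableOn, ← Measure.prod_restrict] at hD'
        rw [avgOp, avgOp, ← integral_sub (integrand_integrable μ s σ hf.continuous y)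
          (integrand_integrable μ s 0 hf.continuous y), ← Measure.prod_restrict,
          integral_prod_symm _ hD', ← setIntegral_eq_integral_of_forall_compl_eq_zero
            (s := closedBall (0 : W) 1) fun w hw => by
              simp [s.zero_of_norm (show 1 < ‖w‖ by simpa using hw)]]
        exact setIntegral_congr_fun isClosed_closedBall.measurableSet fun w _ => (hin w).symm
      rw [hrep, ← integral_const_mul]
      refine norm_integral_le_of_norm_le
        (((hg.comp hsc).continuousOn.integrableOn_compact hSc).const_mul _) ?_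
      refine (ae_restrict_iff' hSc.measurableSet).2 (ae_of_all _ fun z hz => ?_)
      simp only [D, norm_smul, Real.norm_eq_abs, mul_assoc]
      refine mul_le_mul_of_nonneg_left ?_ (abs_nonneg σ)
      refine (norm_add_le _ _).trans ?_
      have hz1 : |z.1 * σ| ≤ 1 := by
        rw [abs_mul, abs_of_nonneg hz.1.1]
        nlinarith [hz.1.2, hσ, Φ.rad_le, abs_nonneg σ]
      have a1 := (ContinuousLinearMap.le_opNorm _ (f (Φ.F (y, (z.1 * σ) • z.2)))).trans
        (mul_le_mul_of_nonneg_right (hM1 (z.1 * σ) y z.2 hz1) (norm_nonneg _))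
      have a2 := (ContinuousLinearMap.le_opNorm _ (fderiv ℝ f (Φ.F (y, (z.1 * σ) • z.2)))).trans
        (mul_le_mul_of_nonneg_right (hM2 (z.1 * σ) y z.2 hz1) (norm_nonneg _))
      simp only [g]
      nlinarith [a1, a2, norm_nonneg (f (Φ.F (y, (z.1 * σ) • z.2))),
        norm_nonneg (fderiv ℝ f (Φ.F (y, (z.1 * σ) • z.2)))]
    have main := hC ν S hSc (fun z => (z.1 * σ) • z.2)
      ((continuous_fst.mul continuous_const).smul continuous_snd)
      (fun z hz => by
        have h2 : ‖z.2‖ ≤ 1 := by simpa using hz.2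
        rw [norm_smul, Real.norm_eq_abs, abs_mul, abs_of_nonneg hz.1.1]
        calc z.1 * |σ| * ‖z.2‖ ≤ 1 * |σ| * 1 := by
              gcongr
              exact hz.1.2
          _ ≤ Φ.rad := by simpa using hσ)
      g hg (hfs.norm.add (hfs.fderiv ℝ).norm)
      (fun y => ‖avgOp μ s σ f y - avgOp μ s 0 f y‖) (|σ| * (M1 + M2)) (fun y => norm_nonneg _)
      (fun y hy => by simp [avgOp_zero_of_notMem μ s _ f hy]) fun y _ => key y
    rw [sqn_zero]
    refine main.trans ?_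
    have hsum : ∫ x, g x ^ 2 ≤ 2 * ∑ l ∈ Finset.range 2, sqn l f := by
      rw [Finset.sum_range_succ, Finset.sum_range_one, sqn_succ, sqn_zero, sqn_zero]
      have i1 : Integrable fun x => ‖f x‖ ^ 2 := by
        simpa using integrable_sq_deriv 0 hf hfs
      have i2 : Integrable fun x => ‖fderiv ℝ f x‖ ^ 2 := by
        simpa using integrable_sq_deriv 0 hD (hfs.fderiv ℝ)
      rw [← integral_add i1 i2, ← integral_const_mul]
      refine integral_mono_of_nonneg (ae_of_all _ fun _ => sq_nonneg _)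
        ((i1.add i2).const_mul 2) (ae_of_all _ fun x => ?_)
      simp only [g]
      nlinarith [sq_nonneg (‖f x‖ - ‖fderiv ℝ f x‖)]
    rw [mul_pow, sq_abs]
    calc C * (σ ^ 2 * (M1 + M2) ^ 2) * ν.real S ^ 2 * ∫ x, g x ^ 2
        ≤ C * (σ ^ 2 * (M1 + M2) ^ 2) * ν.real S ^ 2 * (2 * ∑ l ∈ Finset.range 2, sqn l f) :=
          mul_le_mul_of_nonneg_left hsum (by positivity)
      _ = _ := by ring
  | succ j ih =>
    intro V V' _ _ _ _ _ s
    obtain ⟨C1, hC10, h1⟩ := ih s.dy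
    obtain ⟨C2, hC20, h2⟩ := ih s.chain
    refine ⟨2 * C1 + 2 * C2, by positivity, fun σ hσ f hf hfs => ?_⟩
    have hD : ContDiff ℝ ∞ (fderiv ℝ f) := hf.fderiv_right le_rfl
    have heq : fderiv ℝ (avgOp μ s σ f - avgOp μ s 0 f) =
        (avgOp μ s.dy σ f - avgOp μ s.dy 0 f) +
          (avgOp μ s.chain σ (fderiv ℝ f) - avgOp μ s.chain 0 (fderiv ℝ f)) := by
      funext y
      rw [fderiv_sub ((avgOp_smooth μ s σ hf).differentiable (by simp) y)
        ((avgOp_smooth μ s 0 hf).differentiable (by simp) y), fderiv_avgOp μ s σ hf,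
        fderiv_avgOp μ s 0 hf]
      simp only [Pi.add_apply, Pi.sub_apply]
      abel
    rw [sqn_succ, heq]
    refine (sqn_add_le j ((avgOp_smooth μ _ σ hf).sub (avgOp_smooth μ _ 0 hf))
      ((avgOp_smooth μ _ σ hD).sub (avgOp_smooth μ _ 0 hD))
      ((avgOp_hasCompactSupport μ _ σ f).sub (avgOp_hasCompactSupport μ _ 0 f))
      ((avgOp_hasCompactSupport μ _ σ _).sub (avgOp_hasCompactSupport μ _ 0 _))).trans ?_
    have e1 : ∑ l ∈ Finset.range (j + 2), sqn l f ≤ ∑ l ∈ Finset.range (j + 1 + 2), sqn l f :=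
      Finset.sum_le_sum_of_subset_of_nonneg (Finset.range_mono (by omega))
        fun l _ _ => sqn_nonneg l f
    have e2 : ∑ l ∈ Finset.range (j + 2), sqn l (fderiv ℝ f) ≤
        ∑ l ∈ Finset.range (j + 1 + 2), sqn l f := by
      rw [Finset.sum_range_succ' _ (j + 2)]
      simp_rw [sqn_succ]
      exact le_add_of_nonneg_right (sqn_nonneg 0 f)
    have a1 := (h1 σ hσ f hf hfs).trans
      (mul_le_mul_of_nonneg_left e1 (mul_nonneg hC10 (sq_nonneg σ)))
    have a2 := (h2 σ hσ _ hD (hfs.fderiv ℝ)).trans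
      (mul_le_mul_of_nonneg_left e2 (mul_nonneg hC20 (sq_nonneg σ)))
    calc _ ≤ 2 * (C1 * σ ^ 2 * ∑ l ∈ Finset.range (j + 1 + 2), sqn l f) +
          2 * (C2 * σ ^ 2 * ∑ l ∈ Finset.range (j + 1 + 2), sqn l f) :=
          add_le_add (mul_le_mul_of_nonneg_left a1 two_pos.le) (mul_le_mul_of_nonneg_left a2 two_pos.le)
      _ = _ := by ring

end Vale.Agent.P204.Full.Smooth
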