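import Vale.Agent.P204.Full.Smooth.Pointwise

/-!
Families of maps are built from local data near `K × {0}`.
-/

open scoped ContDiff Topology Manifold
open MeasureTheory Set Metric Filter

noncomputable section

namespace Vale.Agent.P204.Full.Smooth

theorem exists_cutoff {E : Type} [NormedAddCommGroup E] [NormedSpace ℝ E] [FiniteDimensional ℝ E]
    {K O : Set E} (hK : IsCompact K) (hO : IsOpen O) (hKO : K ⊆ O) :
    ∃ (χ : E → ℝ) (N : Set E), ContDiff ℝ ∞ χ ∧ HasCompactSupport χ ∧ tsupport χ ⊆ O ∧ IsOpen N ∧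
      K ⊆ N ∧ ∀ x ∈ N, χ x = 1 := by
  obtain ⟨δ, hδ, hsub⟩ := hK.exists_cthickening_subset_open hO hKO
  obtain ⟨χ, hχ, -, hsupp, hone⟩ := exists_contMDiff_support_eq_eq_one_iff (n := ⊤) 𝓘(ℝ, E)
    (s := thickening δ K) (t := cthickening (δ / 2) K) isOpen_thickening isClosed_cthickening
    (cthickening_subset_thickening' hδ (by linarith) K)
  have hts : tsupport χ ⊆ cthickening δ K := by
    rw [tsupport, hsupp]
    exact closure_thickening_subset_cthickening δ K
  exact ⟨χ, thickening (δ / 2) K, contMDiff_iff_contDiff.1 hχ,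
    (hK.cthickening (r := δ)).of_isClosed_subset (isClosed_tsupport χ) hts, hts.trans hsub,
    isOpen_thickening, self_subset_thickening (by linarith) K,
    fun x hx => (hone x).1 (thickening_subset_cthickening _ _ hx)⟩

theorem contDiff_smul_of_tsupport {E V : Type} [NormedAddCommGroup E] [NormedSpace ℝ E]
    [NormedAddCommGroup V] [NormedSpace ℝ V] {χ : E → ℝ} (hχ : ContDiff ℝ ∞ χ) {O : Set E}
    (hO : IsOpen O) (hs : tsupport χ ⊆ O) {f : E → V} (hf : ContDiffOn ℝ ∞ f O) :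
    ContDiff ℝ ∞ fun x => χ x • f x := by
  refine contDiff_iff_contDiffAt.2 fun x => ?_
  by_cases hx : x ∈ O
  · exact hχ.contDiffAt.smul (hf.contDiffAt (hO.mem_nhds hx))
  · have h : (fun z => χ z • f z) =ᶠ[𝓝 x] fun _ => 0 := by
      filter_upwards [(isClosed_tsupport χ).isOpen_compl.mem_nhds fun h => hx (hs h)] with z hz
      simp [image_eq_zero_of_notMem_tsupport hz]
    exact contDiffAt_const.congr_of_eventuallyEq h

variable {W : Type} [NormedAddCommGroup W] [NormedSpace ℝ W] [FiniteDimensional ℝ W]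

/-- The transpose of a map from the parameter space, for a fixed basis. -/
def parAdj (A : W →L[ℝ] R4) : R4 →L[ℝ] W :=
  ∑ m, (innerSL ℝ (A (Module.finBasis ℝ W m))).smulRight (Module.finBasis ℝ W m)

omit [FiniteDimensional ℝ W] in
theorem contDiff_innerSmulRight (b : W) :
    ContDiff ℝ ∞ fun v : R4 => (innerSL ℝ v).smulRight b := by
  have h : IsBoundedLinearMap ℝ fun v : R4 => (innerSL ℝ v).smulRight b := by
    refine IsLinearMap.with_bound ⟨fun u v => ?_, fun c v => ?_⟩ ‖b‖ fun v => ?_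
    · ext z; simp [inner_add_left, add_smul]
    · ext z; simp [inner_smul_left, smul_smul]
    · rw [ContinuousLinearMap.norm_smulRight_apply, innerSL_apply_norm, mul_comm]
  exact h.contDiff

theorem parAdj_smooth : ContDiff ℝ ∞ (parAdj (W := W)) := by
  unfold parAdj
  exact ContDiff.sum fun m _ =>
    (contDiff_innerSmulRight (Module.finBasis ℝ W m)).comp
      (contDiff_id.clm_apply contDiff_const)

theorem comp_parAdj_det_ne {A : W →L[ℝ] R4} (hA : Function.Surjective A) :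
    (A.comp (parAdj A)).det ≠ 0 := by
  intro h
  obtain ⟨v, hv, hv0⟩ := (Submodule.ne_bot_iff _).1 (LinearMap.bot_lt_ker_of_det_eq_zero h).ne'
  rw [LinearMap.mem_ker] at hv
  have hv' : A (parAdj A v) = 0 := hv
  have h2 : inner ℝ v (A (parAdj A v)) = ∑ m, inner ℝ (A (Module.finBasis ℝ W m)) v ^ 2 := by
    simp only [parAdj, sum_apply, ContinuousLinearMap.smulRight_apply, innerSL_apply_apply, map_sum,
      map_smul, inner_sum, inner_smul_right, real_inner_comm v, pow_two]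
  rw [hv', inner_zero_right] at h2
  have h3 : ∀ m, inner ℝ (A (Module.finBasis ℝ W m)) v = 0 := fun m =>
    sq_eq_zero_iff.1 ((Finset.sum_eq_zero_iff_of_nonneg fun i _ => sq_nonneg _).1 h2.symm m
      (Finset.mem_univ m))
  obtain ⟨w, hw⟩ := hA v
  have h4 : inner ℝ v v = 0 := by
    conv_lhs =>
      enter [2]
      rw [← hw, ← sum_coordW w]
    simp [sum_inner, inner_smul_left, h3]
  exact hv0 (inner_self_eq_zero.1 h4)

theorem isInvertible_of_det_ne {M : R4 →L[ℝ] R4} (h : M.det ≠ 0) :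
    ∃ e : R4 ≃L[ℝ] R4, (e : R4 →L[ℝ] R4) = M :=
  ⟨M.toContinuousLinearEquivOfDetNeZero h, by ext v; rfl⟩

/-- Build a family from data near `K × {0}`. -/
theorem exists_fam {K : Set R4} (hK : IsCompact K) {O : Set (R4 × W)} (hO : IsOpen O)
    {f : R4 × W → R4} (hf : ContDiffOn ℝ ∞ f O) (hKO : ∀ y ∈ K, (y, (0 : W)) ∈ O)
    (hinj : InjOn (fun y => f (y, 0)) K)
    (hdet : ∀ y ∈ K, ((fderiv ℝ f (y, 0)).comp (ContinuousLinearMap.inl ℝ R4 W)).det ≠ 0)
    (hsurj : ∀ y ∈ K, Function.Surjective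
      ((fderiv ℝ f (y, 0)).comp (ContinuousLinearMap.inr ℝ R4 W))) :
    ∃ Φ : Fam W, Φ.K = K ∧
      ∀ y ∈ K, ∀ u : W, ‖u‖ ≤ Φ.rad → (y, u) ∈ O ∧ Φ.F =ᶠ[𝓝 (y, u)] f := by
  have hKs : IsCompact (K ×ˢ ({0} : Set W)) := hK.prod isCompact_singleton
  have hKsub : K ×ˢ ({0} : Set W) ⊆ O := by
    rintro ⟨y, u⟩ ⟨hy, hu⟩
    rw [mem_singleton_iff] at hu
    subst hu
    exact hKO y hy
  let A : R4 × W → W →L[ℝ] R4 := fun p => (fderiv ℝ f p).comp (ContinuousLinearMap.inr ℝ R4 W)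
  let B : R4 × W → R4 →L[ℝ] R4 := fun p => (fderiv ℝ f p).comp (ContinuousLinearMap.inl ℝ R4 W)
  let M : R4 × W → R4 →L[ℝ] R4 := fun p => (A p).comp (parAdj (A p))
  have hA : ContDiffOn ℝ ∞ A O := (hf.fderiv_of_isOpen hO le_rfl).clm_comp contDiffOn_const
  have hB : ContDiffOn ℝ ∞ B O := (hf.fderiv_of_isOpen hO le_rfl).clm_comp contDiffOn_const
  have hM : ContDiffOn ℝ ∞ M O := hA.clm_comp (parAdj_smooth.comp_contDiffOn hA)
  set U := {p | p ∈ O ∧ (M p).det ≠ 0 ∧ (B p).det ≠ 0} with hU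
  have hUo : IsOpen U := by
    have h1 : ContinuousOn (fun p => ((M p).det, (B p).det)) O :=
      (ContinuousLinearMap.continuous_det.comp_continuousOn hM.continuousOn).prodMk
        (ContinuousLinearMap.continuous_det.comp_continuousOn hB.continuousOn)
    have := h1.isOpen_inter_preimage hO
      ((isOpen_ne (x := (0 : ℝ))).prod (isOpen_ne (x := (0 : ℝ))))
    exact this
  have hKU : K ×ˢ ({0} : Set W) ⊆ U := by
    rintro ⟨y, u⟩ ⟨hy, hu⟩
    rw [mem_singleton_iff] at hu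
    subst hu
    exact ⟨hKO y hy, comp_parAdj_det_ne (hsurj y hy), hdet y hy⟩
  let G0 : R4 × W → R4 →L[ℝ] W := fun p => (parAdj (A p)).comp (ContinuousLinearMap.inverse (M p))
  have hG0 : ContDiffOn ℝ ∞ G0 U := by
    intro p hp
    obtain ⟨e, he⟩ := isInvertible_of_det_ne hp.2.1
    have hAp : ContDiffAt ℝ ∞ A p := hA.contDiffAt (hO.mem_nhds hp.1)
    have h1 : ContDiffAt ℝ ∞ (fun q => parAdj (A q)) p :=
      (parAdj_smooth (W := W)).contDiffAt.comp p hAp
    have hi : ContDiffAt ℝ ∞ (ContinuousLinearMap.inverse : (R4 →L[ℝ] R4) → R4 →L[ℝ] R4) (M p) := by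
      rw [← he]
      exact contDiffAt_map_inverse e
    have h2 : ContDiffAt ℝ ∞ (fun q => ContinuousLinearMap.inverse (M q)) p :=
      hi.comp p (hM.contDiffAt (hO.mem_nhds hp.1))
    exact (h1.clm_comp h2).contDiffWithinAt
  -- injectivity near `K × {0}`
  let Ψ : R4 × W → R4 × W := fun p => (f p, p.2)
  have hΨinj : InjOn Ψ (K ×ˢ ({0} : Set W)) := by
    rintro ⟨y, u⟩ ⟨hy, hu⟩ ⟨y', u'⟩ ⟨hy', hu'⟩ h
    rw [mem_singleton_iff] at hu hu'
    subst hu hu'
    exact Prod.ext (hinj hy hy' (Prod.ext_iff.1 h).1) rfl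
  have hΨloc : ∀ p ∈ K ×ˢ ({0} : Set W), ∃ V ∈ 𝓝 p, InjOn Ψ V := by
    rintro ⟨y, u⟩ ⟨hy, hu⟩
    rw [mem_singleton_iff] at hu
    subst hu
    have hd : HasStrictFDerivAt Ψ
        ((fderiv ℝ f (y, 0)).prod (ContinuousLinearMap.snd ℝ R4 W)) (y, 0) :=
      ((hf.contDiffAt (hO.mem_nhds (hKO y hy))).hasStrictFDerivAt (by simp)).prodMk
        hasStrictFDerivAt_snd
    set D := (fderiv ℝ f (y, 0)).prod (ContinuousLinearMap.snd ℝ R4 W) with hD
    have hDinj : Function.Injective D := by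
      refine (injective_iff_map_eq_zero D).2 fun q hq => ?_
      have h2 : q.2 = 0 := (Prod.ext_iff.1 hq).2
      have h1 : fderiv ℝ f (y, 0) q = 0 := (Prod.ext_iff.1 hq).1
      rw [show q = (q.1, 0) from Prod.ext rfl h2] at h1 ⊢
      have h3 : (B (y, 0)) q.1 = 0 := h1
      obtain ⟨e, he⟩ := isInvertible_of_det_ne (hdet y hy)
      rw [show B (y, 0) = (e : R4 →L[ℝ] R4) from he.symm] at h3
      rw [(e.map_eq_zero_iff).1 h3]
      rfl
    obtain ⟨e, he⟩ : ∃ e : (R4 × W) ≃L[ℝ] R4 × W, (e : R4 × W →L[ℝ] R4 × W) = D :=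
      ⟨(LinearEquiv.ofBijective D.toLinearMap
        ⟨hDinj, (LinearMap.injective_iff_surjective (f := D.toLinearMap)).1 hDinj⟩).toContinuousLinearEquiv,
        by ext v <;> rfl⟩
    rw [← he] at hd
    exact ⟨(hd.toOpenPartialHomeomorph Ψ).source,
      (hd.toOpenPartialHomeomorph Ψ).open_source.mem_nhds hd.mem_toOpenPartialHomeomorph_source,
      (hd.toOpenPartialHomeomorph Ψ).injOn⟩
  obtain ⟨V, hVo, hKV, hVinj⟩ := hΨinj.exists_isOpen_superset hKs
    (fun p hp => ((hf.continuousOn.continuousAt (hO.mem_nhds (hKsub hp))).prodMk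
      continuous_snd.continuousAt)) hΨloc
  obtain ⟨χ, N, hχ, -, hχO, hNo, hKN, hN1⟩ :=
    exists_cutoff hKs (hUo.inter hVo) (subset_inter hKU hKV)
  obtain ⟨δ, hδ, hsub⟩ := hKs.exists_thickening_subset_open (hNo.inter (hUo.inter hVo))
    (subset_inter hKN (subset_inter hKU hKV))
  set r := min (δ / 2) 1
  have hin : ∀ y ∈ K, ∀ u : W, ‖u‖ ≤ r → (y, u) ∈ N ∩ (U ∩ V) := fun y hy u hu => by
    refine hsub (mem_thickening_iff.2 ⟨(y, 0), ⟨hy, rfl⟩, ?_⟩)
    simp only [Prod.dist_eq, dist_self, dist_zero_right]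
    exact max_lt hδ ((hu.trans (min_le_left _ _)).trans_lt (half_lt_self hδ))
  have hev : ∀ y ∈ K, ∀ u : W, ‖u‖ ≤ r → (fun p => χ p • f p) =ᶠ[𝓝 (y, u)] f := fun y hy u hu => by
    filter_upwards [hNo.mem_nhds (hin y hy u hu).1] with p hp
    simp [hN1 p hp]
  refine ⟨{
    F := fun p => χ p • f p
    F_smooth := contDiff_smul_of_tsupport hχ hO (hχO.trans (fun p hp => hp.1.1)) hf
    G := fun p => χ p • G0 p
    G_smooth := contDiff_smul_of_tsupport hχ hUo (hχO.trans inter_subset_left) hG0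
    K := K
    K_compact := hK
    rad := r
    rad_pos := lt_min (by positivity) one_pos
    rad_le := min_le_right _ _
    right := ?_
    inj := ?_
    det_ne := ?_ }, rfl, fun y hy u hu => ⟨(hin y hy u hu).2.1.1, hev y hy u hu⟩⟩
  · intro y hy u hu
    rw [(hev y hy u hu).fderiv_eq, hN1 _ (hin y hy u hu).1, one_smul]
    obtain ⟨e, he⟩ := isInvertible_of_det_ne (hin y hy u hu).2.1.2.1
    show (A (y, u)).comp ((parAdj (A (y, u))).comp (ContinuousLinearMap.inverse (M (y, u)))) = _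
    rw [← he, ContinuousLinearMap.inverse_equiv, ← ContinuousLinearMap.comp_assoc,
      show (A (y, u)).comp (parAdj (A (y, u))) = (e : R4 →L[ℝ] R4) from he.symm]
    exact e.coe_comp_coe_symm
  · intro u hu y hy y' hy' h
    simp only [hN1 _ (hin y hy u hu).1, hN1 _ (hin y' hy' u hu).1, one_smul] at h
    have h' := hVinj (hin y hy u hu).2.2 (hin y' hy' u hu).2.2 (Prod.ext h rfl)
    exact (Prod.ext_iff.1 h').1
  · intro y hy u hu
    rw [(hev y hy u hu).fderiv_eq]
    exact (hin y hy u hu).2.1.2.2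

end Vale.Agent.P204.Full.Smooth
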