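import Vale.Agent.P204.Full.Smooth.Local

/-!
The coefficients of the commutator of the averaged pull-back with the type projections.
-/

open scoped ContDiff Topology Manifold
open MeasureTheory Set Metric Filter

noncomputable section

namespace Vale.Agent.P204.Full.Smooth

universe u

/-- `1/2 (1 + ε J*)` on two-forms. -/
def projL (ε : ℝ) (J : Endo) : Bil →L[ℝ] Bil :=
  (2⁻¹ : ℝ) • (ContinuousLinearMap.id ℝ Bil + ε • Base.pullL J)

theorem projL_apply (ε : ℝ) (J : Endo) (b : Bil) :
    projL ε J b = (2⁻¹ : ℝ) • (b + ε • pullBil J b) := by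
  simp only [projL, smul_apply, add_apply, ContinuousLinearMap.id_apply, Base.pullL_apply]

theorem projL_one (J : Endo) (b : Bil) : projL 1 J b = inv11 J b := by
  rw [projL_apply, inv11, one_smul]

theorem projL_neg_one (J : Endo) (b : Bil) : projL (-1) J b = anti20 J b := by
  rw [projL_apply, anti20, neg_one_smul, ← sub_eq_add_neg]

theorem contDiff_projL {D : Type} [NormedAddCommGroup D] [NormedSpace ℝ D] (ε : ℝ) {A : D → Endo}
    (hA : ContDiff ℝ ∞ A) : ContDiff ℝ ∞ fun z => projL ε (A z) :=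
  ContDiff.const_smul (F := Bil →L[ℝ] Bil) _
    (ContDiff.add (F := Bil →L[ℝ] Bil) contDiff_const
      (ContDiff.const_smul (F := Bil →L[ℝ] Bil) ε (contDiff_pullL hA)))

variable {X : Type u} [TopologicalSpace X] [T2Space X] [ChartedSpace R4 X]
  [IsManifold 𝓘(ℝ, R4) ∞ X] (G : Geo X)

/-- The complex structure in a chart, cut off to a global smooth field. -/
def JT (i : Fin G.n) (y : R4) : Endo := Base.wideBump y • Base.viewJ G.J (G.c i) y

theorem JT_smooth (i : Fin G.n) : ContDiff ℝ ∞ (JT G i) :=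
  Base.cd_extend (G.c i).open_target
    (Base.cdOn_smul (E := Endo) Base.wideBump.contDiff.contDiffOn
      (Base.smooth_viewJ G.J_acs (G.c_mem i)))
    (Metric.isClosed_closedBall (x := (0 : R4)) (ε := 7 / 2)) (closedBall_subset_target G i (by norm_num))
    fun y hy => by
      show Base.wideBump y • Base.viewJ G.J (G.c i) y = 0
      rw [Base.wideBump_zero hy]
      exact zero_smul ℝ (_ : Endo)

theorem JT_eq (i : Fin G.n) {y : R4} (hy : ‖y‖ ≤ 3) : JT G i y = Base.viewJ G.J (G.c i) y := by
  rw [JT, Base.wideBump_one (by simpa using hy), one_smul]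

theorem viewJ_sq {c : OpenPartialHomeomorph X R4} (hc : Base.Atl c) {y : R4} (hy : y ∈ c.target) :
    (Base.viewJ G.J c y).comp (Base.viewJ G.J c y) = -ContinuousLinearMap.id ℝ R4 := by
  ext1 v
  have h1 : ∀ w, dsymm c y (Base.viewJ G.J c y w) = G.J (c.symm y) (dsymm c y w) := fun w =>
    DFunLike.congr_fun (Base.dsymm_viewJ G.J hc hy) w
  have h2 : dsymm c y ((Base.viewJ G.J c y) (Base.viewJ G.J c y v)) = dsymm c y (-v) := by
    rw [h1, h1, Base.J_sq, map_neg]
  have h3 := congrArg (Base.dchart c (c.symm y)) h2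
  have h4 : ∀ w, Base.dchart c (c.symm y) (dsymm c y w) = w := fun w =>
    DFunLike.congr_fun (Base.dchart_comp_dsymm hc hy) w
  rw [h4, h4] at h3
  exact h3

/-- Transition maps are complex linear. -/
theorem dtrans_viewJ {c e : OpenPartialHomeomorph X R4} (hc : Base.Atl c) (he : Base.Atl e) {y : R4}
    (hy : y ∈ Base.tdom c e) :
    (Base.dtrans c e y).comp (Base.viewJ G.J c y) =
      (Base.viewJ G.J e (Base.trans c e y)).comp (Base.dtrans c e y) := by
  set z := Base.trans c e y
  have hz : z ∈ e.target := (Base.trans_mem hy).1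
  ext1 v
  have hs : ∀ w, dsymm e z (Base.dtrans c e y w) = dsymm c y w := fun w =>
    (DFunLike.congr_fun (Base.dsymm_trans hc he hy) w).symm
  have h1 : dsymm e z (Base.dtrans c e y (Base.viewJ G.J c y v)) =
      dsymm e z (Base.viewJ G.J e z (Base.dtrans c e y v)) := by
    rw [hs]
    have ha := DFunLike.congr_fun (Base.dsymm_viewJ G.J hc hy.1) v
    have hb := DFunLike.congr_fun (Base.dsymm_viewJ G.J he hz) (Base.dtrans c e y v)
    simp only [ContinuousLinearMap.comp_apply] at ha hb
    rw [ha, hb, hs, Base.symm_trans hy]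
  have h4 : ∀ w, Base.dchart e (e.symm z) (dsymm e z w) = w := fun w =>
    DFunLike.congr_fun (Base.dchart_comp_dsymm he hz) w
  have h3 := congrArg (Base.dchart e (e.symm z)) h1
  rw [h4, h4] at h3
  exact h3

theorem fam_F_zero {i k : Fin G.n} {y : R4} (hy : y ∈ pieceSet G i k) :
    (fam G i k).F (y, 0) = Base.trans (G.c i) (G.c k) y := by
  rw [(fam_rep G i k hy (by simpa using (fam G i k).rad_pos.le)).1, rep, phi_zero]
  rfl

theorem fam_Dy_zero {i k : Fin G.n} {y : R4} (hy : y ∈ pieceSet G i k) :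
    (fam G i k).Dy (y, 0) = Base.dtrans (G.c i) (G.c k) y := by
  have h0 : ‖(0 : Par G)‖ ≤ (fam G i k).rad := by simpa using (fam G i k).rad_pos.le
  rw [(fam_rep G i k hy h0).2,
    ← (hasFDerivAt_rep (G.c_mem i) (G.c_mem k) (fam_spec G i k hy h0).1).fderiv,
    show (fun z => rep G (G.c i) (G.c k) (z, 0)) = Base.trans (G.c i) (G.c k) from
      funext fun z => by rw [rep, phi_zero]; rfl]
  rfl

theorem pieceSet_tdom {i k : Fin G.n} {y : R4} (hy : y ∈ pieceSet G i k) :
    y ∈ Base.tdom (G.c i) (G.c k) := by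
  obtain ⟨h1, h2, -⟩ := (mem_pieceSet G).1 hy
  exact ⟨closedBall_subset_target G i (r := 15 / 4) (by norm_num) (by simpa using h1), h2⟩

/-- The operator of the commutator with the projections. -/
def gainOp (ε : ℝ) (i k : Fin G.n) (p : ℝ × R4 × Par G) : Bil →L[ℝ] Bil :=
  ((projL (-ε) (JT G i p.2.1)).comp (pullOp G i k p)).comp
    (projL ε (JT G k ((fam G i k).F (p.2.1, p.1 • p.2.2))))

theorem gainOp_smooth (ε : ℝ) (i k : Fin G.n) : ContDiff ℝ ∞ (gainOp G ε i k) :=
  ((contDiff_projL (-ε) ((JT_smooth G i).comp (contDiff_fst.comp contDiff_snd))).clm_comp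
    (pullOp_smooth G i k)).clm_comp
    (contDiff_projL ε ((JT_smooth G k).comp ((fam G i k).F_smooth.comp contDiff_scaled)))

/-- The coefficient of the commutator. -/
def gainSym (ε : ℝ) (i k : Fin G.n) : Sym (fam G i k) Bil Bil :=
  mkSym G i k (gainOp G ε i k) (gainOp_smooth G ε i k)

theorem gainSym_van {ε : ℝ} (hε : ε * ε = 1) (i k : Fin G.n) : (gainSym G ε i k).Van := by
  intro y w
  by_cases hc : cut G i k y = 0
  · simp [gainSym, mkSym, hc]
  have hy := cut_supp G hc
  have ht := pieceSet_tdom G hy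
  have hy3 : ‖y‖ ≤ 3 := by
    by_contra h
    apply hc
    rw [cut]
    split_ifs
    · rw [Base.kappa_zero (by simpa using h), zero_mul]
  have hz3 : ‖Base.trans (G.c i) (G.c k) y‖ ≤ 3 := ((mem_pieceSet G).1 hy).2.2
  show (cut G i k y * wt G w) • gainOp G ε i k (0, y, w) = 0
  refine (congrArg _ ?_).trans (smul_zero _)
  refine ContinuousLinearMap.ext fun b => ?_
  simp only [gainOp, pullOp, zero_smul, ContinuousLinearMap.comp_apply, fam_F_zero G hy,
    fam_Dy_zero G hy, JT_eq G i hy3, JT_eq G k hz3, Base.pullL_apply, projL_apply]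
  set D := Base.dtrans (G.c i) (G.c k) y
  set J := Base.viewJ G.J (G.c k) (Base.trans (G.c i) (G.c k) y)
  have h1 : ∀ q : Bil, pullBil (Base.viewJ G.J (G.c i) y) (pullBil D q) = pullBil D (pullBil J q) :=
    fun q => by rw [← Base.pullBil_comp, dtrans_viewJ G (G.c_mem i) (G.c_mem k) ht, Base.pullBil_comp]
  have h2 : pullBil J (pullBil J b) = b := by
    rw [← Base.pullBil_comp, viewJ_sq G (G.c_mem k) (Base.trans_mem ht).1]
    ext u v
    simp [Base.pullBil_apply]
  show _ = (0 : Bil)
  simp only [h1, pullBil_smul, pullBil_add, h2, smul_add, smul_smul]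
  match_scalars <;> linarith

variable [CompactSpace X]

/-- The fields fixed by a projection have fixed pieces. -/
theorem piece_fixed (ε : ℝ) (k : Fin G.n) {θ : X → Bil}
    (hθ : ∀ x, pullBil (G.J x) (θ x) = ε • θ x) (hε : ε * ε = 1) (z : R4) :
    projL ε (JT G k z) (piece G k θ z) = piece G k θ z := by
  by_cases hz : z ∈ closedBall (0 : R4) 3
  swap
  · simp [piece, Base.kv, Base.kappa_zero hz, projL_apply, pullBil_zero]
  have hzt := closedBall_subset_target G k (r := 3) (by norm_num) hz
  have h3 : pullBil (Base.viewJ G.J (G.c k) z) (view2 (G.c k) θ z) = ε • view2 (G.c k) θ z := by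
    rw [← Base.view2_pullJ G.J θ (G.c_mem k) hzt, view2, hθ, pullBil_smul]
    rfl
  simp only [piece, Base.kv, projL_apply, JT_eq G k (show ‖z‖ ≤ 3 by simpa using hz), pullBil_smul,
    h3, smul_add, smul_smul]
  match_scalars
  linear_combination (rhoView G k z * kappaBump z / 2) * hε

variable [MeasurableSpace X] [BorelSpace X]

omit [MeasurableSpace X] [BorelSpace X] in
/-- A projected average is an average of the commutator. -/
theorem kv_avg_proj {ε : ℝ} (hε : ε * ε = 1) (i : Fin G.n) {σ : ℝ} (hσ : |σ| ≤ sLoc G) {θ : X → Bil}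
    (hθ : Smooth2 θ) (hfix : ∀ x, pullBil (G.J x) (θ x) = ε • θ x) (y : R4) :
    projL (-ε) (JT G i y) (Base.kv G i (avg2 G σ θ) y) =
      ∑ k, avgOp volume (gainSym G ε i k) σ (piece G k θ) y := by
  rw [kv_avg G i hσ hθ y, map_sum]
  refine Finset.sum_congr rfl fun k _ => ?_
  rw [avgOp, ← ContinuousLinearMap.integral_comp_comm _
    (integrand_integrable volume (baseSym G i k) σ (piece_smooth G k hθ).continuous y), avgOp]
  refine integral_congr_ae (ae_of_all _ fun w => ?_)
  simp only [gainSym, baseSym, mkSym, smul_apply, map_smul, gainOp, ContinuousLinearMap.comp_apply,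
    piece_fixed G ε k hfix hε]

end Vale.Agent.P204.Full.Smooth
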