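import Mathlib

/-!
Parametric integrals of smooth integrands with compact support in the integration variable.
-/

open scoped ContDiff Topology
open MeasureTheory Set Metric

noncomputable section

namespace Vale.Agent.P204.Full.Smooth

variable {W : Type*} [NormedAddCommGroup W] [NormedSpace ℝ W] [FiniteDimensional ℝ W]
  [MeasurableSpace W] [BorelSpace W] {μ : Measure W} [IsFiniteMeasureOnCompacts μ]
  {P : Type*} [NormedAddCommGroup P] [NormedSpace ℝ P] [FiniteDimensional ℝ P]

theorem integrable_of_vanish {V : Type*} [NormedAddCommGroup V] {g : W → V} (hg : Continuous g)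
    {R : ℝ} (h0 : ∀ w, R < ‖w‖ → g w = 0) : Integrable g μ := by
  refine hg.integrable_of_hasCompactSupport ?_
  refine HasCompactSupport.intro (isCompact_closedBall (0 : W) R) fun w hw => h0 w ?_
  simpa using hw

/-- Differentiation under the integral sign. -/
theorem hasFDerivAt_integral_param {V : Type*} [NormedAddCommGroup V] [NormedSpace ℝ V]
    {U : Set P} (hU : IsOpen U) {g : P × W → V} {R : ℝ}
    (hg : ContDiffOn ℝ 1 g (U ×ˢ univ)) (h0 : ∀ p w, R < ‖w‖ → g (p, w) = 0)
    {p₀ : P} (hp : p₀ ∈ U) :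
    HasFDerivAt (fun p => ∫ w, g (p, w) ∂μ)
      (∫ w, (fderiv ℝ g (p₀, w)).comp (ContinuousLinearMap.inl ℝ P W) ∂μ) p₀ := by
  obtain ⟨ε, hε, hεU⟩ := nhds_basis_closedBall.mem_iff.1 (hU.mem_nhds hp)
  have hopen : IsOpen (U ×ˢ (univ : Set W)) := hU.prod isOpen_univ
  have hc' : ContinuousOn (fun q : P × W => (fderiv ℝ g q).comp (ContinuousLinearMap.inl ℝ P W))
      (U ×ˢ univ) := (hg.continuousOn_fderiv_of_isOpen hopen le_rfl).clm_comp continuousOn_const
  obtain ⟨M, hM⟩ := ((isCompact_closedBall p₀ ε).prod (isCompact_closedBall (0 : W) R)).exists_bound_of_continuousOn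
    (hc'.mono (Set.prod_mono hεU (subset_univ _)))
  have hsl : ∀ p ∈ U, Continuous fun w => g (p, w) := fun p hp' =>
    hg.continuousOn.comp_continuous (by fun_prop) fun w => ⟨hp', mem_univ _⟩
  have hd : ∀ p ∈ U, ∀ w, HasFDerivAt (fun q => g (q, w))
      ((fderiv ℝ g (p, w)).comp (ContinuousLinearMap.inl ℝ P W)) p := fun p hp' w =>
    ((hg.differentiableOn one_ne_zero).differentiableAt
      (hopen.mem_nhds ⟨hp', mem_univ _⟩)).hasFDerivAt.comp p (hasFDerivAt_prodMk_left p w)
  have hd0 : ∀ p ∈ U, ∀ w, R < ‖w‖ →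
      (fderiv ℝ g (p, w)).comp (ContinuousLinearMap.inl ℝ P W) = 0 := fun p hp' w hw => by
    have h : (fun q => g (q, w)) = fun _ => 0 := funext fun q => h0 q w hw
    exact (h ▸ hd p hp' w).unique (hasFDerivAt_const _ _)
  refine hasFDerivAt_integral_of_dominated_of_fderiv_le (s := closedBall p₀ ε)
    (F := fun p w => g (p, w))
    (F' := fun p w => (fderiv ℝ g (p, w)).comp (ContinuousLinearMap.inl ℝ P W))
    (bound := (closedBall (0 : W) R).indicator fun _ => M) (closedBall_mem_nhds p₀ hε) ?_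
    (integrable_of_vanish (hsl p₀ hp) (h0 p₀)) ?_ ?_ ?_ ?_
  · exact Filter.mem_of_superset (hU.mem_nhds hp) fun p hp' =>
      (integrable_of_vanish (hsl p hp') (h0 p)).aestronglyMeasurable
  · exact (integrable_of_vanish (hc'.comp_continuous (by fun_prop) fun w => ⟨hp, mem_univ _⟩)
      (hd0 p₀ hp)).aestronglyMeasurable
  · refine ae_of_all _ fun w p hp' => ?_
    by_cases hw : w ∈ closedBall (0 : W) R
    · rw [indicator_of_mem hw]
      exact hM (p, w) ⟨hp', hw⟩
    · rw [indicator_of_notMem hw, hd0 p (hεU hp') w (by simpa using hw), norm_zero]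
  · exact (integrable_indicator_iff isClosed_closedBall.measurableSet).2
      (integrableOn_const (isCompact_closedBall _ _).measure_lt_top.ne)
  · exact ae_of_all _ fun w p hp' => hd p (hεU hp') w

theorem contDiffOn_integral_nat (n : ℕ) :
    ∀ {V : Type} [NormedAddCommGroup V] [NormedSpace ℝ V] {P' : Type} [NormedAddCommGroup P']
      [NormedSpace ℝ P'] [FiniteDimensional ℝ P'] {U : Set P'} (_ : IsOpen U) {g : P' × W → V}
      {R : ℝ}, ContDiffOn ℝ ∞ g (U ×ˢ univ) → (∀ p w, R < ‖w‖ → g (p, w) = 0) →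
        ContDiffOn ℝ n (fun p => ∫ w, g (p, w) ∂μ) U := by
  induction n with
  | zero =>
    intro V _ _ P' _ _ _ U hU g R hg h0
    simp only [CharP.cast_eq_zero, contDiffOn_zero]
    exact fun p hp => (hasFDerivAt_integral_param hU (hg.of_le (by simp)) h0 hp).continuousAt.continuousWithinAt
  | succ n ih =>
    intro V _ _ P' _ _ _ U hU g R hg h0
    have hd := fun p (hp : p ∈ U) =>
      hasFDerivAt_integral_param (μ := μ) hU (hg.of_le (by simp)) h0 hp
    rw [Nat.cast_succ, contDiffOn_succ_iff_fderiv_of_isOpen hU]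
    refine ⟨fun p hp => (hd p hp).differentiableAt.differentiableWithinAt, by simp, ?_⟩
    have hopen : IsOpen (U ×ˢ (univ : Set W)) := hU.prod isOpen_univ
    let g' : P' × W → P' →L[ℝ] V := fun q =>
      (fderiv ℝ g q).comp (ContinuousLinearMap.inl ℝ P' W)
    have hg' : ContDiffOn ℝ ∞ g' (U ×ˢ univ) :=
      (hg.fderiv_of_isOpen hopen (by simp)).clm_comp contDiffOn_const
    have h0' : ∀ p w, R < ‖w‖ → g' (p, w) = 0 := by
      intro p w hw
      have hnb : g =ᶠ[𝓝 (p, w)] fun _ => 0 := by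
        have : {q : P' × W | R < ‖q.2‖} ∈ 𝓝 (p, w) :=
          (isOpen_lt continuous_const (continuous_norm.comp continuous_snd)).mem_nhds hw
        exact Filter.mem_of_superset this fun q hq => h0 q.1 q.2 hq
      simp [g', hnb.fderiv_eq]
    exact (ih hU hg' h0').congr fun p hp => (hd p hp).fderiv

theorem contDiffOn_integral {V : Type} [NormedAddCommGroup V] [NormedSpace ℝ V] {P' : Type}
    [NormedAddCommGroup P'] [NormedSpace ℝ P'] [FiniteDimensional ℝ P'] {U : Set P'}
    (hU : IsOpen U) {g : P' × W → V} {R : ℝ} (hg : ContDiffOn ℝ ∞ g (U ×ˢ univ))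
    (h0 : ∀ p w, R < ‖w‖ → g (p, w) = 0) : ContDiffOn ℝ ∞ (fun p => ∫ w, g (p, w) ∂μ) U :=
  contDiffOn_infty.2 fun n => contDiffOn_integral_nat n hU hg h0

theorem contDiff_integral {V : Type} [NormedAddCommGroup V] [NormedSpace ℝ V] {P' : Type}
    [NormedAddCommGroup P'] [NormedSpace ℝ P'] [FiniteDimensional ℝ P'] {g : P' × W → V} {R : ℝ}
    (hg : ContDiff ℝ ∞ g) (h0 : ∀ p w, R < ‖w‖ → g (p, w) = 0) :
    ContDiff ℝ ∞ fun p => ∫ w, g (p, w) ∂μ :=
  contDiffOn_univ.1 (contDiffOn_integral isOpen_univ hg.contDiffOn h0)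

end Vale.Agent.P204.Full.Smooth
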