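import Vale.Agent.P204.Full.Statement
import Vale.Agent.P204.Full.Smooth.Param

/-!
Averaging operators `f ↦ ∫ a(σ,y,w) f(F(y,σw)) dw` on the model space, and their rules of differentiation.
-/

open scoped ContDiff Topology
open MeasureTheory Set Metric

noncomputable section

namespace Vale.Agent.P204.Full.Smooth

/-- A smooth family of maps of the model space with the data used in the estimates. -/
structure Fam (W : Type) [NormedAddCommGroup W] [NormedSpace ℝ W] where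
  F : R4 × W → R4
  F_smooth : ContDiff ℝ ∞ F
  G : R4 × W → R4 →L[ℝ] W
  G_smooth : ContDiff ℝ ∞ G
  K : Set R4
  K_compact : IsCompact K
  rad : ℝ
  rad_pos : 0 < rad
  rad_le : rad ≤ 1
  right : ∀ y ∈ K, ∀ u : W, ‖u‖ ≤ rad →
    ((fderiv ℝ F (y, u)).comp (ContinuousLinearMap.inr ℝ R4 W)).comp (G (y, u)) =
      ContinuousLinearMap.id ℝ R4
  inj : ∀ u : W, ‖u‖ ≤ rad → InjOn (fun y => F (y, u)) K
  det_ne : ∀ y ∈ K, ∀ u : W, ‖u‖ ≤ rad →
    ((fderiv ℝ F (y, u)).comp (ContinuousLinearMap.inl ℝ R4 W)).det ≠ 0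

/-- A coefficient of an averaging operator over `K`. -/
structure Sym {W : Type} [NormedAddCommGroup W] [NormedSpace ℝ W] (Φ : Fam W) (V V' : Type)
    [NormedAddCommGroup V] [NormedSpace ℝ V] [NormedAddCommGroup V'] [NormedSpace ℝ V'] where
  a : ℝ × R4 × W → V →L[ℝ] V'
  smooth : ContDiff ℝ ∞ a
  supp : ∀ σ y w, a (σ, y, w) ≠ 0 → y ∈ Φ.K ∧ ‖w‖ ≤ 1

variable {W : Type} [NormedAddCommGroup W] [NormedSpace ℝ W] {Φ : Fam W}
  {V V' : Type} [NormedAddCommGroup V] [NormedSpace ℝ V] [NormedAddCommGroup V'] [NormedSpace ℝ V']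

namespace Fam

/-- Derivative of `F` in the base variable. -/
def Dy (Φ : Fam W) (p : R4 × W) : R4 →L[ℝ] R4 :=
  (fderiv ℝ Φ.F p).comp (ContinuousLinearMap.inl ℝ R4 W)

/-- Derivative of `F` in the parameter. -/
def Dw (Φ : Fam W) (p : R4 × W) : W →L[ℝ] R4 :=
  (fderiv ℝ Φ.F p).comp (ContinuousLinearMap.inr ℝ R4 W)

theorem Dy_smooth (Φ : Fam W) : ContDiff ℝ ∞ Φ.Dy :=
  (Φ.F_smooth.fderiv_right le_rfl).clm_comp contDiff_const

theorem Dw_smooth (Φ : Fam W) : ContDiff ℝ ∞ Φ.Dw :=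
  (Φ.F_smooth.fderiv_right le_rfl).clm_comp contDiff_const

theorem hasFDerivAt_base (Φ : Fam W) (y : R4) (u : W) :
    HasFDerivAt (fun z => Φ.F (z, u)) (Φ.Dy (y, u)) y :=
  ((Φ.F_smooth.differentiable (by simp)) (y, u)).hasFDerivAt.comp y (hasFDerivAt_prodMk_left y u)

theorem hasFDerivAt_par (Φ : Fam W) (y : R4) (u : W) :
    HasFDerivAt (fun v => Φ.F (y, v)) (Φ.Dw (y, u)) u :=
  ((Φ.F_smooth.differentiable (by simp)) (y, u)).hasFDerivAt.comp u (hasFDerivAt_prodMk_right y u)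

end Fam

omit [NormedAddCommGroup V] [NormedSpace ℝ V] [NormedAddCommGroup V'] [NormedSpace ℝ V'] in
theorem contDiff_scaled : ContDiff ℝ ∞ fun p : ℝ × R4 × W => (p.2.1, p.1 • p.2.2) :=
  (contDiff_fst.comp contDiff_snd).prodMk (contDiff_fst.smul (contDiff_snd.comp contDiff_snd))

theorem contDiff_flip {E U : Type} [NormedAddCommGroup E] [NormedSpace ℝ E] [NormedAddCommGroup U]
    [NormedSpace ℝ U] {g : E → U →L[ℝ] V →L[ℝ] V'} (hg : ContDiff ℝ ∞ g) :
    ContDiff ℝ ∞ fun x => (g x).flip := by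
  let L : (U →L[ℝ] V →L[ℝ] V') →L[ℝ] V →L[ℝ] U →L[ℝ] V' :=
    (ContinuousLinearMap.flipₗᵢ ℝ U V V').toContinuousLinearEquiv.toContinuousLinearMap
  exact (ContinuousLinearMap.contDiff (F := V →L[ℝ] U →L[ℝ] V') L).comp hg

theorem contDiff_chainCoef {E : Type} [NormedAddCommGroup E] [NormedSpace ℝ E]
    {A : E → V →L[ℝ] V'} (hA : ContDiff ℝ ∞ A) {B : E → R4 →L[ℝ] R4} (hB : ContDiff ℝ ∞ B) :
    ContDiff ℝ ∞ fun x => (ContinuousLinearMap.compL ℝ R4 V V' (A x)).comp
      ((ContinuousLinearMap.compL ℝ R4 R4 V).flip (B x)) := by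
  let L1 : (V →L[ℝ] V') →L[ℝ] (R4 →L[ℝ] V) →L[ℝ] R4 →L[ℝ] V' := ContinuousLinearMap.compL ℝ R4 V V'
  let L2 : (R4 →L[ℝ] R4) →L[ℝ] (R4 →L[ℝ] V) →L[ℝ] R4 →L[ℝ] V :=
    (ContinuousLinearMap.compL ℝ R4 R4 V).flip
  exact (L1.contDiff.comp hA).clm_comp (L2.contDiff.comp hB)

theorem contDiff_evalCoef {E : Type} [NormedAddCommGroup E] [NormedSpace ℝ E]
    {g : E → R4} (hg : ContDiff ℝ ∞ g) :
    ContDiff ℝ ∞ fun x => ContinuousLinearMap.apply ℝ V (g x) := by
  let L : R4 →L[ℝ] (R4 →L[ℝ] V) →L[ℝ] V := ContinuousLinearMap.apply ℝ V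
  exact (ContinuousLinearMap.contDiff (F := (R4 →L[ℝ] V) →L[ℝ] V) L).comp hg

namespace Sym

theorem zero_of_norm (s : Sym Φ V V') {σ : ℝ} {y : R4} {w : W} (hw : 1 < ‖w‖) :
    s.a (σ, y, w) = 0 := by
  by_contra h
  exact absurd (s.supp σ y w h).2 (not_le.2 hw)

theorem zero_of_notMem (s : Sym Φ V V') {σ : ℝ} {y : R4} {w : W} (hy : y ∉ Φ.K) :
    s.a (σ, y, w) = 0 := by
  by_contra h
  exact hy (s.supp σ y w h).1

theorem fderiv_zero (s : Sym Φ V V') {σ : ℝ} {y : R4} {w : W} (h : y ∉ Φ.K ∨ 1 < ‖w‖) :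
    fderiv ℝ s.a (σ, y, w) = 0 := by
  have hopen : IsOpen {p : ℝ × R4 × W | p.2.1 ∉ Φ.K ∨ 1 < ‖p.2.2‖} := by
    apply IsOpen.union
    · exact Φ.K_compact.isClosed.isOpen_compl.preimage (continuous_fst.comp continuous_snd)
    · exact isOpen_lt continuous_const (continuous_norm.comp (continuous_snd.comp continuous_snd))
  have hnb : s.a =ᶠ[𝓝 (σ, y, w)] fun _ => 0 :=
    Filter.mem_of_superset (hopen.mem_nhds h) fun p hp => by
      rcases hp with hp | hp
      · exact s.zero_of_notMem (σ := p.1) (w := p.2.2) hp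
      · exact s.zero_of_norm (σ := p.1) (y := p.2.1) hp
  simp [hnb.fderiv_eq]

/-- Multiply by a smooth operator-valued function. -/
def mulLeft {V'' : Type} [NormedAddCommGroup V''] [NormedSpace ℝ V''] (s : Sym Φ V V')
    (g : ℝ × R4 × W → V' →L[ℝ] V'') (hg : ContDiff ℝ ∞ g) : Sym Φ V V'' where
  a p := (g p).comp (s.a p)
  smooth := hg.clm_comp s.smooth
  supp σ y w h := s.supp σ y w fun h0 => h (by simp [h0])

/-- Multiply by a smooth operator-valued function on the right. -/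
def mulRight {V₀ : Type} [NormedAddCommGroup V₀] [NormedSpace ℝ V₀] (s : Sym Φ V V')
    (g : ℝ × R4 × W → V₀ →L[ℝ] V) (hg : ContDiff ℝ ∞ g) : Sym Φ V₀ V' where
  a p := (s.a p).comp (g p)
  smooth := s.smooth.clm_comp hg
  supp σ y w h := s.supp σ y w fun h0 => h (by simp [h0])

/-- Derivative of the coefficient in the base variable. -/
def dy (s : Sym Φ V V') : Sym Φ V (R4 →L[ℝ] V') where
  a p := ((fderiv ℝ s.a p).comp
    ((ContinuousLinearMap.inr ℝ ℝ (R4 × W)).comp (ContinuousLinearMap.inl ℝ R4 W))).flip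
  smooth := contDiff_flip
    ((s.smooth.fderiv_right le_rfl).clm_comp contDiff_const)
  supp σ y w h := by
    by_contra hn
    refine h ?_
    rw [s.fderiv_zero (not_and_or.1 hn |>.imp id not_le.1)]
    ext; simp

/-- The coefficient of the derivative of `f`. -/
def chain (s : Sym Φ V V') : Sym Φ (R4 →L[ℝ] V) (R4 →L[ℝ] V') where
  a p := (ContinuousLinearMap.compL ℝ R4 V V' (s.a p)).comp
    ((ContinuousLinearMap.compL ℝ R4 R4 V).flip (Φ.Dy (p.2.1, p.1 • p.2.2)))
  smooth := contDiff_chainCoef s.smooth (Φ.Dy_smooth.comp contDiff_scaled)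
  supp σ y w h := s.supp σ y w fun h0 => h (by simp [h0])

/-- The coefficient of the derivative of `f` in the scale. -/
def chainS (s : Sym Φ V V') : Sym Φ (R4 →L[ℝ] V) V' :=
  s.mulRight (fun p => ContinuousLinearMap.apply ℝ V (Φ.Dw (p.2.1, p.1 • p.2.2) p.2.2))
    (contDiff_evalCoef ((Φ.Dw_smooth.comp contDiff_scaled).clm_apply
      (contDiff_snd.comp contDiff_snd)))

/-- Derivative of the coefficient in the scale. -/
def ds (s : Sym Φ V V') : Sym Φ V V' where
  a p := fderiv ℝ s.a p (1, 0)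
  smooth := (s.smooth.fderiv_right le_rfl).clm_apply contDiff_const
  supp σ y w h := by
    by_contra hn
    refine h ?_
    rw [s.fderiv_zero (not_and_or.1 hn |>.imp id not_le.1)]
    simp

/-- The coefficient vanishes at scale zero. -/
def Van (s : Sym Φ V V') : Prop := ∀ y w, s.a (0, y, w) = 0

theorem Van.dy {s : Sym Φ V V'} (h : s.Van) : s.dy.Van := by
  intro y w
  have hd : (fun q : R4 × W => s.a (0, q)) = fun _ => 0 := funext fun q => h q.1 q.2
  have h1 : HasFDerivAt (fun q : R4 × W => s.a (0, q))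
      ((fderiv ℝ s.a (0, y, w)).comp (ContinuousLinearMap.inr ℝ ℝ (R4 × W))) (y, w) :=
    ((s.smooth.differentiable (by simp)) (0, y, w)).hasFDerivAt.comp (y, w)
      (hasFDerivAt_prodMk_right (0 : ℝ) (y, w))
  rw [hd] at h1
  have h2 : (fderiv ℝ s.a (0, y, w)).comp (ContinuousLinearMap.inr ℝ ℝ (R4 × W)) = 0 :=
    h1.unique (hasFDerivAt_const _ _)
  show ContinuousLinearMap.flip _ = 0
  rw [← ContinuousLinearMap.comp_assoc, h2]
  ext; simp

theorem Van.chain {s : Sym Φ V V'} (h : s.Van) : s.chain.Van := fun y w => by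
  simp [Sym.chain, h y w]

end Sym

variable [MeasurableSpace W] (μ : Measure W)

/-- The averaging operator. -/
def avgOp (s : Sym Φ V V') (σ : ℝ) (f : R4 → V) (y : R4) : V' :=
  ∫ w, s.a (σ, y, w) (f (Φ.F (y, σ • w))) ∂μ

theorem avgOp_zero_of_notMem (s : Sym Φ V V') (σ : ℝ) (f : R4 → V) {y : R4} (hy : y ∉ Φ.K) :
    avgOp μ s σ f y = 0 := by
  simp [avgOp, s.zero_of_notMem hy]

theorem avgOp_hasCompactSupport (s : Sym Φ V V') (σ : ℝ) (f : R4 → V) :
    HasCompactSupport (avgOp μ s σ f) :=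
  HasCompactSupport.intro Φ.K_compact fun _ hy => avgOp_zero_of_notMem μ s σ f hy

variable [FiniteDimensional ℝ W] [BorelSpace W] [IsFiniteMeasureOnCompacts μ]

omit [MeasurableSpace W] [BorelSpace W] [FiniteDimensional ℝ W] in
theorem integrand_smooth (s : Sym Φ V V') {f : R4 → V} (hf : ContDiff ℝ ∞ f) :
    ContDiff ℝ ∞ fun p : (ℝ × R4) × W =>
      s.a (p.1.1, p.1.2, p.2) (f (Φ.F (p.1.2, p.1.1 • p.2))) :=
  (s.smooth.comp (by fun_prop)).clm_apply (hf.comp (Φ.F_smooth.comp (by fun_prop)))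

theorem integrand_integrable (s : Sym Φ V V') (σ : ℝ) {f : R4 → V} (hf : Continuous f) (y : R4) :
    Integrable (fun w => s.a (σ, y, w) (f (Φ.F (y, σ • w)))) μ := by
  refine integrable_of_vanish ?_ (R := 1) fun w hw => by simp [s.zero_of_norm hw]
  exact ((s.smooth.continuous.comp (by fun_prop))).clm_apply
    (hf.comp (Φ.F_smooth.continuous.comp (by fun_prop)))

theorem avgOp_smooth (s : Sym Φ V V') (σ : ℝ) {f : R4 → V} (hf : ContDiff ℝ ∞ f) :
    ContDiff ℝ ∞ (avgOp μ s σ f) := by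
  refine contDiff_integral (g := fun p : R4 × W => s.a (σ, p.1, p.2) (f (Φ.F (p.1, σ • p.2))))
    (R := 1) ?_ fun y w hw => by simp [s.zero_of_norm hw]
  exact (s.smooth.comp (by fun_prop)).clm_apply (hf.comp (Φ.F_smooth.comp (by fun_prop)))

theorem avgOp_add (s : Sym Φ V V') (σ : ℝ) {f g : R4 → V} (hf : Continuous f) (hg : Continuous g) :
    avgOp μ s σ (f + g) = avgOp μ s σ f + avgOp μ s σ g := by
  funext y
  simp only [avgOp, Pi.add_apply, map_add]
  exact integral_add (integrand_integrable μ s σ hf y) (integrand_integrable μ s σ hg y)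

/-- Differentiation in the base variable. -/
theorem fderiv_avgOp (s : Sym Φ V V') (σ : ℝ) {f : R4 → V} (hf : ContDiff ℝ ∞ f)
    [CompleteSpace V'] :
    fderiv ℝ (avgOp μ s σ f) = avgOp μ s.dy σ f + avgOp μ s.chain σ (fderiv ℝ f) := by
  funext y
  let g : R4 × W → V' := fun p => s.a (σ, p.1, p.2) (f (Φ.F (p.1, σ • p.2)))
  have hg : ContDiff ℝ ∞ g :=
    (s.smooth.comp (by fun_prop)).clm_apply (hf.comp (Φ.F_smooth.comp (by fun_prop)))
  have h0 : ∀ p w, 1 < ‖w‖ → g (p, w) = 0 := fun p w hw => by simp [g, s.zero_of_norm hw]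
  have h := hasFDerivAt_integral_param (μ := μ) isOpen_univ (hg.of_le (by simp)).contDiffOn h0
    (mem_univ y)
  rw [show avgOp μ s σ f = fun p => ∫ w, g (p, w) ∂μ from rfl, h.fderiv, Pi.add_apply, avgOp,
    avgOp, ← integral_add (integrand_integrable μ s.dy σ hf.continuous y)
      (integrand_integrable μ s.chain σ (hf.continuous_fderiv (by simp)) y)]
  refine integral_congr_ae (ae_of_all _ fun w => ?_)
  have h1 : HasFDerivAt (fun z => s.a (σ, z, w))
      ((fderiv ℝ s.a (σ, y, w)).comp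
        ((ContinuousLinearMap.inr ℝ ℝ (R4 × W)).comp (ContinuousLinearMap.inl ℝ R4 W))) y :=
    ((s.smooth.differentiable (by simp)) (σ, y, w)).hasFDerivAt.comp y
      ((hasFDerivAt_prodMk_right σ (y, w)).comp y (hasFDerivAt_prodMk_left y w))
  have h2 : HasFDerivAt (fun z => f (Φ.F (z, σ • w)))
      ((fderiv ℝ f (Φ.F (y, σ • w))).comp (Φ.Dy (y, σ • w))) y :=
    ((hf.differentiable (by simp)) _).hasFDerivAt.comp y (Φ.hasFDerivAt_base y (σ • w))
  have h3 := h1.clm_apply h2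
  have h4 : HasFDerivAt (fun z => g (z, w))
      ((fderiv ℝ g (y, w)).comp (ContinuousLinearMap.inl ℝ R4 W)) y :=
    ((hg.differentiable (by simp)) (y, w)).hasFDerivAt.comp (f := fun z : R4 => (z, w)) y
      (hasFDerivAt_prodMk_left (𝕜 := ℝ) y w)
  refine (h4.unique h3).trans ?_
  rw [add_comm]
  rfl

end Vale.Agent.P204.Full.Smooth
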