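import Vale.Agent.P204.Full.Defs
import Vale.Agent.P204.Full.Smooth.Op

/-!
A derivative of `f` costs one power of the scale (integration by parts in the parameter).
-/

open scoped ContDiff Topology
open MeasureTheory Set Metric

noncomputable section

namespace Vale.Agent.P204.Full.Smooth

variable {W : Type} [NormedAddCommGroup W] [NormedSpace ℝ W] [FiniteDimensional ℝ W] {Φ : Fam W}
  {V V' : Type} [NormedAddCommGroup V] [NormedSpace ℝ V] [NormedAddCommGroup V'] [NormedSpace ℝ V']

/-- Coordinate of the model space. -/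
def coord4 (i : Fin 4) : R4 →L[ℝ] ℝ := EuclideanSpace.proj i

theorem sum_coord4 (v : R4) : ∑ i, coord4 i v • bvec i = v := by
  ext j
  simp [coord4, bvec, Pi.single_apply]

/-- The coordinate functionals of a basis of the parameter space. -/
def coordW (m : Fin (Module.finrank ℝ W)) : W →L[ℝ] ℝ :=
  LinearMap.toContinuousLinearMap ((Module.finBasis ℝ W).coord m)

theorem sum_coordW (w : W) : ∑ m, coordW m w • Module.finBasis ℝ W m = w := by
  simpa [coordW] using (Module.finBasis ℝ W).sum_repr w

namespace Sym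

/-- Component of a coefficient acting on derivatives. -/
def comp (b : Sym Φ (R4 →L[ℝ] V) V') (i : Fin 4) : Sym Φ V V' :=
  b.mulRight (fun _ => ContinuousLinearMap.smulRightL ℝ R4 V (coord4 i)) contDiff_const

/-- The scalar factor in integration by parts. -/
def parFactor (Φ : Fam W) (i : Fin 4) (m : Fin (Module.finrank ℝ W)) (p : ℝ × R4 × W) : ℝ :=
  coordW m (Φ.G (p.2.1, p.1 • p.2.2) (bvec i))

theorem parFactor_smooth (i : Fin 4) (m : Fin (Module.finrank ℝ W)) :
    ContDiff ℝ ∞ (parFactor Φ i m) :=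
  (coordW m).contDiff.comp ((Φ.G_smooth.comp contDiff_scaled).clm_apply contDiff_const)

/-- A component multiplied by the integration-by-parts factor. -/
def parTerm (b : Sym Φ (R4 →L[ℝ] V) V') (i : Fin 4) (m : Fin (Module.finrank ℝ W)) :
    Sym Φ V V' where
  a p := parFactor Φ i m p • (b.comp i).a p
  smooth := (parFactor_smooth i m).smul (b.comp i).smooth
  supp σ y w h := (b.comp i).supp σ y w fun h0 => h (by simp [h0])

/-- The coefficient after integration by parts. -/
def red (b : Sym Φ (R4 →L[ℝ] V) V') : Sym Φ V V' where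
  a p := -∑ i, ∑ m, fderiv ℝ (b.parTerm i m).a p (0, 0, Module.finBasis ℝ W m)
  smooth := (ContDiff.sum fun i _ => ContDiff.sum fun m _ =>
    ((b.parTerm i m).smooth.fderiv_right le_rfl).clm_apply contDiff_const).neg
  supp σ y w h := by
    by_contra hn
    refine h ?_
    simp [fun i m => (b.parTerm i m).fderiv_zero (σ := σ) (not_and_or.1 hn |>.imp id not_le.1)]

theorem Van.red {b : Sym Φ (R4 →L[ℝ] V) V'} (h : b.Van) : b.red.Van := by
  intro y w
  have key : ∀ i m, fderiv ℝ (b.parTerm i m).a (0, y, w) (0, 0, Module.finBasis ℝ W m) = 0 := by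
    intro i m
    have hd : (fun q : R4 × W => (b.parTerm i m).a (0, q)) = fun _ => 0 :=
      funext fun q => by
        change parFactor Φ i m (0, q) • ((b.a (0, q.1, q.2)).comp _) = 0
        rw [h q.1 q.2]
        simp
    have h1 : HasFDerivAt (fun q : R4 × W => (b.parTerm i m).a (0, q))
        ((fderiv ℝ (b.parTerm i m).a (0, y, w)).comp (ContinuousLinearMap.inr ℝ ℝ (R4 × W))) (y, w) :=
      (((b.parTerm i m).smooth.differentiable (by simp)) (0, y, w)).hasFDerivAt.comp (y, w)
        (hasFDerivAt_prodMk_right (0 : ℝ) (y, w))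
    rw [hd] at h1
    simpa using DFunLike.congr_fun (h1.unique (hasFDerivAt_const _ _)) (0, Module.finBasis ℝ W m)
  simp [Sym.red, key]

/-- The coefficient in `σ • D(A f)`. -/
def down (s : Sym Φ V V') : Sym Φ V (R4 →L[ℝ] V') where
  a p := p.1 • s.dy.a p + s.chain.red.a p
  smooth := (contDiff_fst.smul s.dy.smooth).add s.chain.red.smooth
  supp σ y w h := by
    by_cases h1 : s.dy.a (σ, y, w) = 0
    · exact s.chain.red.supp σ y w (by simpa [h1] using h)
    · exact s.dy.supp σ y w h1

theorem Van.down {s : Sym Φ V V'} (h : s.Van) : s.down.Van := fun y w => by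
  simp [Sym.down, h.chain.red y w]

end Sym

variable [MeasurableSpace W] [BorelSpace W] {μ : Measure W} [μ.IsAddHaarMeasure]

/-- A derivative of `f` costs one power of the scale. -/
theorem smul_avgOp_fderiv (b : Sym Φ (R4 →L[ℝ] V) V') {σ : ℝ} (hσ : |σ| ≤ Φ.rad) {f : R4 → V}
    (hf : ContDiff ℝ ∞ f) :
    σ • avgOp μ b σ (fderiv ℝ f) = avgOp μ b.red σ f := by
  funext y
  by_cases hy : y ∈ Φ.K
  swap
  · simp [avgOp_zero_of_notMem _ _ _ _ hy]
  let h : W → V := fun w => f (Φ.F (y, σ • w))
  have hh : ContDiff ℝ ∞ h := hf.comp (Φ.F_smooth.comp (contDiff_const.prodMk (contDiff_const_smul σ)))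
  have hh' : ∀ w, HasFDerivAt h
      ((fderiv ℝ f (Φ.F (y, σ • w))).comp ((Φ.Dw (y, σ • w)).comp (σ • ContinuousLinearMap.id ℝ W))) w :=
    fun w => ((hf.differentiable (by simp)) _).hasFDerivAt.comp w
      ((Φ.hasFDerivAt_par y (σ • w)).comp w ((hasFDerivAt_id w).const_smul σ))
  let c : Fin 4 → Fin (Module.finrank ℝ W) → W → V →L[ℝ] V' :=
    fun i m w => (b.parTerm i m).a (σ, y, w)
  have hc : ∀ i m, ContDiff ℝ ∞ (c i m) := fun i m =>
    (b.parTerm i m).smooth.comp (contDiff_const.prodMk (contDiff_const.prodMk contDiff_id))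
  have hc0 : ∀ i m w, 1 < ‖w‖ → c i m w = 0 := fun i m w hw => (b.parTerm i m).zero_of_norm hw
  have hcd : ∀ i m w, fderiv ℝ (c i m) w (Module.finBasis ℝ W m) =
      fderiv ℝ (b.parTerm i m).a (σ, y, w) (0, 0, Module.finBasis ℝ W m) := by
    intro i m w
    have := (((b.parTerm i m).smooth.differentiable (by simp)) (σ, y, w)).hasFDerivAt.comp w
      ((hasFDerivAt_prodMk_right σ (y, w)).comp w (hasFDerivAt_prodMk_right y w))
    rw [show fderiv ℝ (c i m) w = _ from this.fderiv]
    rfl
  have hcd0 : ∀ i m w, 1 < ‖w‖ → fderiv ℝ (c i m) w (Module.finBasis ℝ W m) = 0 := fun i m w hw => by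
    rw [hcd, (b.parTerm i m).fderiv_zero (Or.inr hw)]
    simp
  have int1 : ∀ i m, Integrable (fun w => c i m w (fderiv ℝ h w (Module.finBasis ℝ W m))) μ :=
    fun i m => integrable_of_vanish
      ((hc i m).continuous.clm_apply ((hh.continuous_fderiv (by simp)).clm_apply continuous_const))
      (R := 1) fun w hw => by simp [hc0 i m w hw]
  have int2 : ∀ i m, Integrable (fun w => fderiv ℝ (c i m) w (Module.finBasis ℝ W m) (h w)) μ :=
    fun i m => integrable_of_vanish
      ((((hc i m).continuous_fderiv (by simp)).clm_apply continuous_const).clm_apply hh.continuous)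
      (R := 1) fun w hw => by simp [hcd0 i m w hw]
  have ibp : ∀ i m, ∫ w, c i m w (fderiv ℝ h w (Module.finBasis ℝ W m)) ∂μ =
      -∫ w, fderiv ℝ (c i m) w (Module.finBasis ℝ W m) (h w) ∂μ := fun i m =>
    integral_bilinear_fderiv_right_eq_neg_left_of_integrable
      (B := ContinuousLinearMap.id ℝ (V →L[ℝ] V')) (int2 i m) (int1 i m)
      (integrable_of_vanish ((hc i m).continuous.clm_apply hh.continuous) (R := 1)
        fun w hw => by
          show c i m w (h w) = 0
          rw [hc0 i m w hw]
          rfl)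
      (fun w _ => (hc i m).differentiable (by simp) w) (fun w _ => hh.differentiable (by simp) w)
  simp only [Pi.smul_apply, avgOp]
  calc σ • ∫ w, b.a (σ, y, w) (fderiv ℝ f (Φ.F (y, σ • w))) ∂μ
      = ∫ w, ∑ i, ∑ m, c i m w (fderiv ℝ h w (Module.finBasis ℝ W m)) ∂μ := by
        rw [← integral_smul]
        refine integral_congr_ae (ae_of_all _ fun w => ?_)
        dsimp only
        by_cases hw : ‖w‖ ≤ 1
        swap
        · simp [b.zero_of_norm (not_le.1 hw), hc0 _ _ w (not_le.1 hw)]
        have hu : ‖σ • w‖ ≤ Φ.rad := by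
          rw [norm_smul, Real.norm_eq_abs]
          nlinarith [norm_nonneg w, abs_nonneg σ]
        set D := fderiv ℝ f (Φ.F (y, σ • w))
        have hD : σ • D = ∑ i, (coord4 i).smulRight (fderiv ℝ h w (Φ.G (y, σ • w) (bvec i))) := by
          ext v
          have hr : ∀ i, Φ.Dw (y, σ • w) (Φ.G (y, σ • w) (bvec i)) = bvec i := fun i =>
            DFunLike.congr_fun (Φ.right y hy _ hu) (bvec i)
          simp only [(hh' w).fderiv, smul_apply, ContinuousLinearMap.comp_apply,
            ContinuousLinearMap.id_apply, sum_apply,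
            ContinuousLinearMap.smulRight_apply, map_smul, hr]
          conv_lhs => rw [← sum_coord4 v]
          simp [Finset.smul_sum, smul_comm σ, D]
        rw [← map_smul, hD, map_sum]
        refine Finset.sum_congr rfl fun i _ => ?_
        conv_lhs => rw [← sum_coordW (Φ.G (y, σ • w) (bvec i))]
        change b.a (σ, y, w) (ContinuousLinearMap.smulRightL ℝ R4 V (coord4 i)
          (fderiv ℝ h w (∑ m, coordW m (Φ.G (y, σ • w) (bvec i)) • Module.finBasis ℝ W m))) = _
        simp only [map_sum, map_smul]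
        rfl
    _ = ∑ i, ∑ m, ∫ w, c i m w (fderiv ℝ h w (Module.finBasis ℝ W m)) ∂μ := by
        rw [integral_finsetSum _ fun i _ => integrable_finsetSum _ fun m _ => int1 i m]
        exact Finset.sum_congr rfl fun i _ => integral_finsetSum _ fun m _ => int1 i m
    _ = -∫ w, ∑ i, ∑ m, fderiv ℝ (c i m) w (Module.finBasis ℝ W m) (h w) ∂μ := by
        rw [integral_finsetSum _ fun i _ => integrable_finsetSum _ fun m _ => int2 i m]
        simp_rw [ibp]
        rw [← Finset.sum_neg_distrib]
        refine Finset.sum_congr rfl fun i _ => ?_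
        rw [integral_finsetSum _ fun m _ => int2 i m, Finset.sum_neg_distrib]
    _ = ∫ w, b.red.a (σ, y, w) (f (Φ.F (y, σ • w))) ∂μ := by
        rw [← integral_neg]
        refine integral_congr_ae (ae_of_all _ fun w => ?_)
        simp only [Sym.red, neg_apply, sum_apply, hcd]
        rfl

/-- `σ D(A f)` is again an average of `f`. -/
theorem smul_fderiv_avgOp [CompleteSpace V'] (s : Sym Φ V V') {σ : ℝ} (hσ : |σ| ≤ Φ.rad)
    {f : R4 → V} (hf : ContDiff ℝ ∞ f) :
    σ • fderiv ℝ (avgOp μ s σ f) = avgOp μ s.down σ f := by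
  rw [fderiv_avgOp μ s σ hf, smul_add, smul_avgOp_fderiv s.chain hσ hf]
  funext y
  simp only [Pi.add_apply, Pi.smul_apply, avgOp, Sym.down, add_apply,
    smul_apply]
  rw [integral_add (f := fun w => σ • s.dy.a (σ, y, w) (f (Φ.F (y, σ • w))))
    ((integrand_integrable μ s.dy σ hf.continuous y).smul σ)
    (integrand_integrable μ s.chain.red σ hf.continuous y), integral_smul]

end Vale.Agent.P204.Full.Smooth
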