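import Vale.Agent.P204.Full.Defs
import Vale.Agent.P204.Full.Smooth.Red

/-!
A uniformly convergent sequence with all derivatives bounded has a smooth limit.
-/

open scoped ContDiff Topology
open MeasureTheory Set Metric Filter

noncomputable section

namespace Vale.Agent.P204.Full.Smooth

/-- Iterated partial derivative along basis directions. -/
def pdl : List (Fin 4) → (R4 → ℝ) → R4 → ℝ
  | [], f => f
  | i :: l, f => fun x => fderiv ℝ (pdl l f) x (bvec i)

theorem pdl_smooth (l : List (Fin 4)) {f : R4 → ℝ} (hf : ContDiff ℝ ∞ f) :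
    ContDiff ℝ ∞ (pdl l f) := by
  induction l with
  | nil => exact hf
  | cons i l ih => exact (ih.fderiv_right le_rfl).clm_apply contDiff_const

theorem pdl_append (l m : List (Fin 4)) (f : R4 → ℝ) : pdl (l ++ m) f = pdl l (pdl m f) := by
  induction l with
  | nil => rfl
  | cons i l ih => simp [pdl, ih]

theorem fderiv_eq_sum_coord4 (f : R4 → ℝ) (x : R4) :
    fderiv ℝ f x = ∑ i, fderiv ℝ f x (bvec i) • coord4 i := by
  ext v
  conv_lhs => rw [← sum_coord4 v]
  simp [mul_comm]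

theorem norm_coord4_le (i : Fin 4) : ‖coord4 i‖ ≤ 1 := by
  refine ContinuousLinearMap.opNorm_le_bound _ zero_le_one fun v => ?_
  simpa [coord4] using PiLp.norm_apply_le v i

theorem norm_bvec (i : Fin 4) : ‖bvec i‖ = 1 := by
  simp [bvec]

theorem norm_fderiv_le_of_partials {f : R4 → ℝ} {x : R4} {C : Fin 4 → ℝ}
    (h : ∀ i, |fderiv ℝ f x (bvec i)| ≤ C i) : ‖fderiv ℝ f x‖ ≤ ∑ i, C i := by
  rw [fderiv_eq_sum_coord4 f x]
  refine (norm_sum_le _ _).trans (Finset.sum_le_sum fun i _ => ?_)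
  rw [norm_smul, Real.norm_eq_abs]
  exact (mul_le_of_le_one_right (abs_nonneg _) (norm_coord4_le i)).trans (h i)

/-- A first derivative is controlled by the function and a second derivative. -/
theorem abs_partial_le {w : R4 → ℝ} (hw : ContDiff ℝ ∞ w) {i : Fin 4} {A B h : ℝ} (hh : 0 < h)
    (hA : ∀ x, |w x| ≤ A) (hB : ∀ x, |pdl [i, i] w x| ≤ B) (x : R4) :
    |pdl [i] w x| ≤ 2 * A / h + B * h := by
  have hB0 : 0 ≤ B := (abs_nonneg _).trans (hB x)
  have hd : ∀ t : ℝ, HasDerivAt (fun t : ℝ => x + t • bvec i) (bvec i) t := fun t => by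
    simpa using ((hasDerivAt_id t).smul_const (bvec i)).const_add x
  have h1 : ∀ t : ℝ, HasDerivAt (fun t => w (x + t • bvec i)) (pdl [i] w (x + t • bvec i)) t :=
    fun t => ((hw.differentiable (by simp)) _).hasFDerivAt.comp_hasDerivAt t (hd t)
  have h2 : ∀ t : ℝ, HasDerivAt (fun t => pdl [i] w (x + t • bvec i))
      (pdl [i, i] w (x + t • bvec i)) t :=
    fun t => (((pdl_smooth [i] hw).differentiable (by simp)) _).hasFDerivAt.comp_hasDerivAt t (hd t)
  obtain ⟨t, ht, htd⟩ := exists_hasDerivAt_eq_slope (fun t => w (x + t • bvec i))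
    (fun t => pdl [i] w (x + t • bvec i)) hh
    (continuous_iff_continuousAt.2 fun t => (h1 t).continuousAt).continuousOn fun t _ => h1 t
  have h3 := (convex_Icc (0 : ℝ) h).norm_image_sub_le_of_norm_hasDerivWithin_le
    (f := fun t => pdl [i] w (x + t • bvec i)) (fun t _ => (h2 t).hasDerivWithinAt)
    (C := B) (fun t _ => by rw [Real.norm_eq_abs]; exact hB _) (x := t) (y := 0) (Ioo_subset_Icc_self ht)
    ⟨le_rfl, hh.le⟩
  simp only [zero_smul, add_zero, Real.norm_eq_abs, zero_sub, abs_neg, abs_of_pos ht.1] at h3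
  have h4 : |pdl [i] w (x + t • bvec i)| ≤ 2 * A / h := by
    rw [htd, abs_div, sub_zero, abs_of_pos hh]
    gcongr
    exact (abs_sub _ _).trans (by linarith [hA (x + h • bvec i), hA (x + (0 : ℝ) • bvec i)])
  have h5 := abs_sub_abs_le_abs_sub (pdl [i] w x) (pdl [i] w (x + t • bvec i))
  nlinarith [mul_le_mul_of_nonneg_left ht.2.le hB0]

theorem pdl_sub (l : List (Fin 4)) {f g : R4 → ℝ} (hf : ContDiff ℝ ∞ f) (hg : ContDiff ℝ ∞ g) :
    pdl l (f - g) = pdl l f - pdl l g := by
  induction l with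
  | nil => rfl
  | cons i l ih =>
    funext x
    simp only [pdl, ih, Pi.sub_apply]
    rw [fderiv_sub ((pdl_smooth l hf).differentiable (by simp) x)
      ((pdl_smooth l hg).differentiable (by simp) x)]
    simp

/-- Partial derivatives inherit uniform Cauchy convergence. -/
theorem cauchy_partial {u : ℕ → R4 → ℝ} (hu : ∀ n, ContDiff ℝ ∞ (u n))
    (hC : ∀ ε > 0, ∃ N, ∀ n ≥ N, ∀ m ≥ N, ∀ x, |u n x - u m x| ≤ ε)
    (hb : ∀ l, ∃ C, ∀ n x, |pdl l (u n) x| ≤ C) (i : Fin 4) :
    ∀ ε > 0, ∃ N, ∀ n ≥ N, ∀ m ≥ N, ∀ x, |pdl [i] (u n) x - pdl [i] (u m) x| ≤ ε := by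
  intro ε hε
  obtain ⟨C, hC2⟩ := hb [i, i]
  have hC0 : 0 ≤ C := (abs_nonneg _).trans (hC2 0 0)
  set h := ε / (4 * C + 1) with hh
  have hh0 : 0 < h := by positivity
  obtain ⟨N, hN⟩ := hC (ε * h / 4) (by positivity)
  refine ⟨N, fun n hn m hm x => ?_⟩
  have hw := abs_partial_le (w := u n - u m) ((hu n).sub (hu m)) hh0 (A := ε * h / 4) (B := 2 * C)
    (i := i) (fun y => hN n hn m hm y) (fun y => by
      rw [pdl_sub _ (hu n) (hu m), Pi.sub_apply]
      exact (abs_sub _ _).trans (by linarith [hC2 n y, hC2 m y])) x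
  rw [pdl_sub _ (hu n) (hu m), Pi.sub_apply] at hw
  refine hw.trans ?_
  have e1 : 2 * (ε * h / 4) / h = ε / 2 := by field_simp; ring
  have e2 : 2 * C * h ≤ ε / 2 := by
    rw [hh]
    rw [show 2 * C * (ε / (4 * C + 1)) = ε * (2 * C / (4 * C + 1)) by ring, div_eq_mul_inv ε 2]
    refine mul_le_mul_of_nonneg_left ?_ hε.le
    rw [div_le_iff₀ (by positivity)]
    linarith
  linarith

theorem contDiff_limit (k : ℕ) : ∀ {u : ℕ → R4 → ℝ} {g : R4 → ℝ}, (∀ n, ContDiff ℝ ∞ (u n)) →
    (∀ ε > 0, ∃ N, ∀ n ≥ N, ∀ m ≥ N, ∀ x, |u n x - u m x| ≤ ε) →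
    (∀ l, ∃ C, ∀ n x, |pdl l (u n) x| ≤ C) →
    (∀ x, Tendsto (fun n => u n x) atTop (𝓝 (g x))) → ContDiff ℝ k g := by
  induction k with
  | zero =>
    intro u g hu hC _ hg
    rw [Nat.cast_zero, contDiff_zero]
    have hun : TendstoUniformly u g atTop := by
      rw [Metric.tendstoUniformly_iff]
      intro ε hε
      obtain ⟨N, hN⟩ := hC (ε / 2) (by positivity)
      filter_upwards [eventually_ge_atTop N] with n hn x
      have hle : |u n x - g x| ≤ ε / 2 :=
        le_of_tendsto ((hg x).const_sub (u n x)).abs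
          ((eventually_ge_atTop N).mono fun m hm => hN n hn m hm x)
      rw [Real.dist_eq, abs_sub_comm]
      linarith
    exact hun.continuous (Eventually.of_forall fun n => (hu n).continuous).frequently
  | succ k ih =>
    intro u g hu hC hb hg
    have hcp := cauchy_partial hu hC hb
    have hlim : ∀ i x, ∃ a, Tendsto (fun n => pdl [i] (u n) x) atTop (𝓝 a) := fun i x => by
      refine cauchySeq_tendsto_of_complete (Metric.cauchySeq_iff.2 fun ε hε => ?_)
      obtain ⟨N, hN⟩ := hcp i (ε / 2) (by positivity)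
      exact ⟨N, fun m hm n hn => by rw [Real.dist_eq]; linarith [hN m hm n hn x]⟩
    choose G hG using hlim
    have hun : TendstoUniformly (fun n x => fderiv ℝ (u n) x) (fun x => ∑ i, G i x • coord4 i) atTop := by
      rw [Metric.tendstoUniformly_iff]
      intro ε hε
      choose N hN using fun i => hcp i (ε / 5) (by positivity)
      filter_upwards [eventually_ge_atTop (∑ i, N i)] with n hn x
      have hle : ∀ i, |pdl [i] (u n) x - G i x| ≤ ε / 5 := fun i => by
        have hNi : N i ≤ n :=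
          (Finset.single_le_sum (fun j _ => Nat.zero_le (N j)) (Finset.mem_univ i)).trans hn
        exact le_of_tendsto ((hG i x).const_sub (pdl [i] (u n) x)).abs
          ((eventually_ge_atTop (N i)).mono fun m hm => hN i n hNi m hm x)
      rw [dist_comm, dist_eq_norm, fderiv_eq_sum_coord4 (u n) x, ← Finset.sum_sub_distrib]
      refine lt_of_le_of_lt ((norm_sum_le _ _).trans (Finset.sum_le_sum fun i _ => ?_))
        (show ∑ _i : Fin 4, ε / 5 < ε by simp; linarith)
      rw [← sub_smul, norm_smul, Real.norm_eq_abs]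
      exact (mul_le_of_le_one_right (abs_nonneg _) (norm_coord4_le i)).trans (hle i)
    have hd : ∀ x, HasFDerivAt g (∑ i, G i x • coord4 i) x := fun x =>
      hasFDerivAt_of_tendstoUniformly hun
        (fun n y => ((hu n).differentiable (by simp) y).hasFDerivAt) hg x
    rw [Nat.cast_succ, contDiff_succ_iff_fderiv]
    refine ⟨fun x => (hd x).differentiableAt, by simp, ?_⟩
    rw [show fderiv ℝ g = fun x => ∑ i, G i x • coord4 i from funext fun x => (hd x).fderiv]
    refine ContDiff.sum fun i _ => (ih (u := fun n => pdl [i] (u n)) (fun n => pdl_smooth _ (hu n))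
      (hcp i) (fun l => ?_) (hG i)).smul contDiff_const
    obtain ⟨C, hC'⟩ := hb (l ++ [i])
    exact ⟨C, fun n x => by simpa [pdl_append] using hC' n x⟩

theorem smooth_limit {u : ℕ → R4 → ℝ} {g : R4 → ℝ} (hu : ∀ n, ContDiff ℝ ∞ (u n))
    (hC : ∀ ε > 0, ∃ N, ∀ n ≥ N, ∀ m ≥ N, ∀ x, |u n x - u m x| ≤ ε)
    (hb : ∀ l, ∃ C, ∀ n x, |pdl l (u n) x| ≤ C)
    (hg : ∀ x, Tendsto (fun n => u n x) atTop (𝓝 (g x))) : ContDiff ℝ ∞ g :=
  contDiff_infty.2 fun k => contDiff_limit k hu hC hb hg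

end Vale.Agent.P204.Full.Smooth
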