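import Vale.Agent.P204.Full.Defs
import Vale.Agent.P204.Full.Smooth.FamBuild

/-!
The smoothing map `Φ : X × W → X`: a composition of chart translations.
-/

open scoped ContDiff Topology Manifold
open MeasureTheory Set Metric Filter

noncomputable section

namespace Vale.Agent.P204.Full.Smooth

universe u

/-- Cut-off making translations short. -/
def tinyBump : ContDiffBump (0 : R4) := ⟨1 / 8, 1 / 4, by norm_num, by norm_num⟩

def small (v : R4) : R4 := tinyBump v • v

theorem small_smooth : ContDiff ℝ ∞ small := tinyBump.contDiff.smul contDiff_id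

theorem norm_small_le (v : R4) : ‖small v‖ ≤ 1 / 4 := by
  rw [small, norm_smul, Real.norm_eq_abs, abs_of_nonneg tinyBump.nonneg]
  by_cases h : ‖v‖ < 1 / 4
  · exact (mul_le_of_le_one_left (norm_nonneg v) tinyBump.le_one).trans h.le
  · rw [tinyBump.zero_of_le_dist (x := v) (by simpa [dist_eq_norm, tinyBump] using not_lt.1 h)]
    norm_num

theorem small_zero : small 0 = 0 := by simp [small]

theorem small_eq {v : R4} (h : ‖v‖ ≤ 1 / 8) : small v = v := by
  rw [small, tinyBump.one_of_mem_closedBall (by simpa [tinyBump] using h), one_smul]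

variable {X : Type u} [TopologicalSpace X] [T2Space X] [ChartedSpace R4 X]
  [IsManifold 𝓘(ℝ, R4) ∞ X] (G : Geo X)

/-- Parameters of the smoothing. -/
abbrev Par : Type := Fin G.n → R4

/-- One chart translation, extended by the identity. -/
def move (i : Fin G.n) (p : X × Par G) : X :=
  open Classical in
  if p.1 ∈ (G.c i).source then (G.c i).symm (G.c i p.1 + kappaBump (G.c i p.1) • small (p.2 i))
  else p.1

def phiList : List (Fin G.n) → X × Par G → X
  | [], p => p.1
  | i :: l, p => move G i (phiList l p, p.2)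

/-- The smoothing map. -/
def phi : X × Par G → X := phiList G (List.finRange G.n)

theorem move_mem_target (i : Fin G.n) {y : R4} (hy : y ∈ (G.c i).target) (v : R4) :
    y + kappaBump y • small v ∈ (G.c i).target := by
  rw [G.c_target] at hy ⊢
  by_cases h : ‖y‖ < 3
  · rw [mem_ball_zero_iff]
    have h1 : ‖kappaBump y • small v‖ ≤ 1 / 4 := by
      rw [norm_smul, Real.norm_eq_abs, abs_of_nonneg kappaBump.nonneg]
      exact (mul_le_of_le_one_left (norm_nonneg _) kappaBump.le_one).trans (norm_small_le v)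
    linarith [norm_add_le y (kappaBump y • small v)]
  · rw [kappaBump.zero_of_le_dist (x := y) (by simpa [dist_eq_norm, kappaBump] using not_lt.1 h)]
    simpa using hy

theorem move_zero (i : Fin G.n) (x : X) {w : Par G} (h : w i = 0) : move G i (x, w) = x := by
  by_cases hx : x ∈ (G.c i).source
  · simp [move, hx, h, small_zero, (G.c i).left_inv hx]
  · simp [move, hx]

theorem phiList_zero (l : List (Fin G.n)) (x : X) : phiList G l (x, 0) = x := by
  induction l with
  | nil => rfl
  | cons i l ih => simp [phiList, ih, move_zero G i x]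

theorem phi_zero (x : X) : phi G (x, 0) = x := phiList_zero G _ x

theorem phi_single (i : Fin G.n) (x : X) (v : R4) :
    phi G (x, Pi.single i v) = move G i (x, Pi.single i v) := by
  suffices h : ∀ l : List (Fin G.n), l.Nodup → phiList G l (x, Pi.single i v) =
      if i ∈ l then move G i (x, Pi.single i v) else x by
    simpa [phi] using h (List.finRange G.n) (List.nodup_finRange _)
  intro l
  induction l with
  | nil => simp [phiList]
  | cons j l ih =>
    intro hnd
    obtain ⟨hj, hnd⟩ := List.nodup_cons.1 hnd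
    simp only [phiList, ih hnd]
    by_cases hji : j = i
    · subst hji
      simp [hj]
    · rw [move_zero G j _ (show (Pi.single i v : Par G) j = 0 by simp [Pi.single_apply, hji])]
      simp [Ne.symm hji]

theorem move_smooth (i : Fin G.n) :
    ContMDiff (𝓘(ℝ, R4).prod 𝓘(ℝ, Par G)) 𝓘(ℝ, R4) ∞ (move G i) := by
  intro p
  by_cases hp : p.1 ∈ (G.c i).source
  · have hopen : IsOpen ((G.c i).source ×ˢ (univ : Set (Par G))) := (G.c i).open_source.prod isOpen_univ
    refine ContMDiffOn.contMDiffAt (s := (G.c i).source ×ˢ univ) ?_ (hopen.mem_nhds ⟨hp, mem_univ _⟩)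
    have h1 : ContMDiffOn (𝓘(ℝ, R4).prod 𝓘(ℝ, Par G)) 𝓘(ℝ, R4 × Par G) ∞
        (fun q : X × Par G => (G.c i q.1, q.2)) ((G.c i).source ×ˢ univ) := by
      rw [modelWithCornersSelf_prod, ← chartedSpaceSelf_prod]
      exact ((contMDiffOn_of_mem_maximalAtlas (G.c_mem i)).comp contMDiffOn_fst
        fun q hq => hq.1).prodMk contMDiffOn_snd
    have h2 : ContDiff ℝ ∞ fun q : R4 × Par G => q.1 + kappaBump q.1 • small (q.2 i) :=
      contDiff_fst.add ((kappaBump.contDiff.comp contDiff_fst).smul
        (small_smooth.comp ((contDiff_apply ℝ R4 i).comp contDiff_snd)))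
    have h3 := (contMDiffOn_symm_of_mem_maximalAtlas (G.c_mem i)).comp
      (h2.contMDiff.comp_contMDiffOn h1) fun q hq => move_mem_target G i ((G.c i).map_source hq.1) _
    refine h3.congr fun q hq => ?_
    simp [move, hq.1, Function.comp_def]
  · have hK : IsClosed ((G.c i).symm '' closedBall 0 3) :=
      ((isCompact_closedBall _ _).image_of_continuousOn ((G.c i).continuousOn_symm.mono (by
        rw [G.c_target]; exact closedBall_subset_ball (by norm_num)))).isClosed
    have hpK : p.1 ∉ (G.c i).symm '' closedBall 0 3 := by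
      rintro ⟨y, hy, hy'⟩
      exact hp (hy' ▸ (G.c i).map_target (by
        rw [G.c_target]; exact closedBall_subset_ball (by norm_num) hy))
    refine (contMDiffAt_fst).congr_of_eventuallyEq ?_
    filter_upwards [(hK.isOpen_compl.preimage continuous_fst).mem_nhds hpK] with q hq
    by_cases hq' : q.1 ∈ (G.c i).source
    · have hb : kappaBump (G.c i q.1) = 0 := by
        refine kappaBump.zero_of_le_dist ?_
        by_contra h
        exact hq ⟨G.c i q.1, mem_closedBall.2 (by simpa [kappaBump] using (not_le.1 h).le),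
          (G.c i).left_inv hq'⟩
      simp [move, hq', hb, (G.c i).left_inv hq']
    · simp [move, hq']

theorem phiList_smooth (l : List (Fin G.n)) :
    ContMDiff (𝓘(ℝ, R4).prod 𝓘(ℝ, Par G)) 𝓘(ℝ, R4) ∞ (phiList G l) := by
  induction l with
  | nil => exact contMDiff_fst
  | cons i l ih => exact (move_smooth G i).comp (ih.prodMk contMDiff_snd)

theorem phi_smooth : ContMDiff (𝓘(ℝ, R4).prod 𝓘(ℝ, Par G)) 𝓘(ℝ, R4) ∞ (phi G) :=
  phiList_smooth G _

theorem phi_continuous : Continuous (phi G) := (phi_smooth G).continuous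

/-- The smoothing map read from the chart `c` to the chart `d`. -/
def rep (c d : OpenPartialHomeomorph X R4) (p : R4 × Par G) : R4 := d (phi G (c.symm p.1, p.2))

/-- The domain of `rep`. -/
def repDom (c d : OpenPartialHomeomorph X R4) : Set (R4 × Par G) :=
  {p | p.1 ∈ c.target ∧ phi G (c.symm p.1, p.2) ∈ d.source}

theorem isOpen_repDom (c d : OpenPartialHomeomorph X R4) : IsOpen (repDom G c d) := by
  have h1 : ContinuousOn (fun p : R4 × Par G => phi G (c.symm p.1, p.2)) (c.target ×ˢ univ) :=
    (phi_continuous G).comp_continuousOn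
      (((c.continuousOn_symm).comp continuousOn_fst fun p hp => hp.1).prodMk continuousOn_snd)
  have h := h1.isOpen_inter_preimage (c.open_target.prod isOpen_univ) d.open_source
  convert h using 1
  ext p
  simp [repDom]

theorem rep_smooth {c d : OpenPartialHomeomorph X R4}
    (hc : c ∈ IsManifold.maximalAtlas 𝓘(ℝ, R4) ∞ X) (hd : d ∈ IsManifold.maximalAtlas 𝓘(ℝ, R4) ∞ X) :
    ContDiffOn ℝ ∞ (rep G c d) (repDom G c d) := by
  rw [← contMDiffOn_iff_contDiffOn]
  refine (contMDiffOn_of_mem_maximalAtlas hd).comp ((phi_smooth G).comp_contMDiffOn ?_) fun p hp => hp.2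
  exact ((contMDiffOn_symm_of_mem_maximalAtlas hc).comp
    (contMDiff_iff_contDiff.2 contDiff_fst).contMDiffOn fun p hp => hp.1).prodMk
    (contMDiff_iff_contDiff.2 contDiff_snd).contMDiffOn

theorem transition_smooth {c d : OpenPartialHomeomorph X R4}
    (hc : c ∈ IsManifold.maximalAtlas 𝓘(ℝ, R4) ∞ X) (hd : d ∈ IsManifold.maximalAtlas 𝓘(ℝ, R4) ∞ X) :
    ContDiffOn ℝ ∞ (fun y => d (c.symm y)) (c.target ∩ c.symm ⁻¹' d.source) := by
  rw [← contMDiffOn_iff_contDiffOn]
  exact (contMDiffOn_of_mem_maximalAtlas hd).comp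
    ((contMDiffOn_symm_of_mem_maximalAtlas hc).mono inter_subset_left) fun y hy => hy.2

theorem transition_deriv {c d : OpenPartialHomeomorph X R4}
    (hc : c ∈ IsManifold.maximalAtlas 𝓘(ℝ, R4) ∞ X) (hd : d ∈ IsManifold.maximalAtlas 𝓘(ℝ, R4) ∞ X)
    {y : R4} (hy : y ∈ c.target) (hy' : c.symm y ∈ d.source) :
    Function.Bijective (fderiv ℝ (fun z => d (c.symm z)) y) := by
  have ho : ∀ e f : OpenPartialHomeomorph X R4, IsOpen (e.target ∩ e.symm ⁻¹' f.source) := fun e f =>
    e.continuousOn_symm.isOpen_inter_preimage e.open_target f.open_source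
  have hz : d (c.symm y) ∈ d.target ∩ d.symm ⁻¹' c.source :=
    ⟨d.map_source hy', by rw [mem_preimage, d.left_inv hy']; exact c.map_target hy⟩
  have h1 := ((transition_smooth hc hd).contDiffAt ((ho c d).mem_nhds ⟨hy, hy'⟩)).differentiableAt
    (by simp)
  have h2 := ((transition_smooth hd hc).contDiffAt ((ho d c).mem_nhds hz)).differentiableAt (by simp)
  have hev : (fun z => c (d.symm (d (c.symm z)))) =ᶠ[𝓝 y] id := by
    filter_upwards [(ho c d).mem_nhds ⟨hy, hy'⟩] with z hz
    rw [d.left_inv hz.2, c.right_inv hz.1, id_eq]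
  have hcomp := (h2.hasFDerivAt.comp y h1.hasFDerivAt).congr_of_eventuallyEq hev.symm
  have heq := hcomp.unique (hasFDerivAt_id y)
  have hinj : Function.Injective (fderiv ℝ (fun z => d (c.symm z)) y) :=
    Function.LeftInverse.injective (g := fderiv ℝ (fun z => c (d.symm z)) (d (c.symm y)))
      fun v => DFunLike.congr_fun heq v
  exact ⟨hinj, (LinearMap.injective_iff_surjective
    (f := (fderiv ℝ (fun z => d (c.symm z)) y).toLinearMap)).1 hinj⟩

/-- Where the chart `i` has to see the chart `k`. -/
def pieceSet (i k : Fin G.n) : Set R4 :=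
  G.c i '' ((G.c i).symm '' closedBall 0 (15 / 4) ∩ (G.c k).symm '' closedBall 0 3)

omit [T2Space X] in
theorem closedBall_subset_target (i : Fin G.n) {r : ℝ} (hr : r < 4) :
    closedBall (0 : R4) r ⊆ (G.c i).target := by
  rw [G.c_target]; exact closedBall_subset_ball hr

theorem isCompact_pieceSet (i k : Fin G.n) : IsCompact (pieceSet G i k) := by
  refine IsCompact.image_of_continuousOn ?_ ((G.c i).continuousOn.mono ?_)
  · exact ((isCompact_closedBall _ _).image_of_continuousOn
      ((G.c i).continuousOn_symm.mono (closedBall_subset_target G i (by norm_num)))).inter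
      ((isCompact_closedBall _ _).image_of_continuousOn
        ((G.c k).continuousOn_symm.mono (closedBall_subset_target G k (by norm_num))))
  · rintro x ⟨⟨y, hy, rfl⟩, -⟩
    exact (G.c i).map_target (closedBall_subset_target G i (by norm_num) hy)

omit [T2Space X] in
theorem mem_pieceSet {i k : Fin G.n} {y : R4} :
    y ∈ pieceSet G i k ↔ ‖y‖ ≤ 15 / 4 ∧ (G.c i).symm y ∈ (G.c k).source ∧
      ‖G.c k ((G.c i).symm y)‖ ≤ 3 := by
  constructor
  · rintro ⟨x, ⟨⟨a, ha, rfl⟩, ⟨b, hb, hbe⟩⟩, rfl⟩
    have hat := closedBall_subset_target G i (r := 15 / 4) (by norm_num) ha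
    have hbt := closedBall_subset_target G k (r := 3) (by norm_num) hb
    rw [(G.c i).right_inv hat, ← hbe, (G.c k).right_inv hbt]
    exact ⟨by simpa using ha, (G.c k).map_target hbt, by simpa using hb⟩
  · rintro ⟨h1, h2, h3⟩
    have hyt := closedBall_subset_target G i (r := 15 / 4) (by norm_num)
      (show y ∈ closedBall (0 : R4) (15 / 4) by simpa using h1)
    refine ⟨(G.c i).symm y, ⟨⟨y, by simpa using h1, rfl⟩,
      ⟨G.c k ((G.c i).symm y), by simpa using h3, (G.c k).left_inv h2⟩⟩, (G.c i).right_inv hyt⟩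

theorem exists_phiFam (i k : Fin G.n) :
    ∃ Φ : Fam (Par G), Φ.K = pieceSet G i k ∧ ∀ y ∈ pieceSet G i k, ∀ u : Par G, ‖u‖ ≤ Φ.rad →
      (y, u) ∈ repDom G (G.c i) (G.c k) ∧ Φ.F =ᶠ[𝓝 (y, u)] rep G (G.c i) (G.c k) := by
  have hrep0 : ∀ y : R4, rep G (G.c i) (G.c k) (y, 0) = G.c k ((G.c i).symm y) := fun y => by
    simp [rep, phi_zero]
  have hdom : ∀ y ∈ pieceSet G i k, (y, (0 : Par G)) ∈ repDom G (G.c i) (G.c k) := fun y hy => by
    obtain ⟨h1, h2, -⟩ := (mem_pieceSet G).1 hy
    exact ⟨closedBall_subset_target G i (by norm_num) (show y ∈ closedBall (0 : R4) (15 / 4) by simpa using h1),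
      by simpa [phi_zero] using h2⟩
  have hdiff : ∀ y ∈ pieceSet G i k, DifferentiableAt ℝ (rep G (G.c i) (G.c k)) (y, 0) := fun y hy =>
    ((rep_smooth G (G.c_mem i) (G.c_mem k)).contDiffAt
      ((isOpen_repDom G _ _).mem_nhds (hdom y hy))).differentiableAt (by simp)
  refine exists_fam (isCompact_pieceSet G i k) (isOpen_repDom G _ _)
    (rep_smooth G (G.c_mem i) (G.c_mem k)) hdom ?_ ?_ ?_
  · intro y hy y' hy' h
    obtain ⟨h1, h2, -⟩ := (mem_pieceSet G).1 hy
    obtain ⟨h1', h2', -⟩ := (mem_pieceSet G).1 hy'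
    simp only [hrep0] at h
    have h3 := (G.c k).injOn h2 h2' h
    exact (G.c i).symm.injOn
      (closedBall_subset_target G i (r := 15 / 4) (by norm_num) (by simpa using h1))
      (closedBall_subset_target G i (r := 15 / 4) (by norm_num) (by simpa using h1')) h3
  · intro y hy
    obtain ⟨h1, h2, -⟩ := (mem_pieceSet G).1 hy
    have hd : HasFDerivAt (fun z => rep G (G.c i) (G.c k) (z, 0))
        ((fderiv ℝ (rep G (G.c i) (G.c k)) (y, 0)).comp (ContinuousLinearMap.inl ℝ R4 (Par G))) y :=
      (hdiff y hy).hasFDerivAt.comp (f := fun z : R4 => (z, (0 : Par G))) y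
        (hasFDerivAt_prodMk_left (𝕜 := ℝ) y (0 : Par G))
    simp only [hrep0] at hd
    have hb := transition_deriv (G.c_mem i) (G.c_mem k) (hdom y hy).1 h2
    rw [hd.fderiv] at hb
    intro h0
    obtain ⟨v, hv, hv0⟩ := (Submodule.ne_bot_iff _).1 (LinearMap.bot_lt_ker_of_det_eq_zero h0).ne'
    exact hv0 (hb.1 (show _ = _ by rw [map_zero]; exact LinearMap.mem_ker.1 hv))
  · intro y hy
    obtain ⟨h1, h2, -⟩ := (mem_pieceSet G).1 hy
    set x := (G.c i).symm y
    obtain ⟨l, hl, hl1⟩ := G.c_cover x
    let T : R4 → R4 := fun z => G.c k ((G.c l).symm z)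
    have hxt : G.c l x ∈ (G.c l).target := (G.c l).map_source hl
    have hxk : (G.c l).symm (G.c l x) ∈ (G.c k).source := by rw [(G.c l).left_inv hl]; exact h2
    have hb := transition_deriv (G.c_mem l) (G.c_mem k) hxt hxk
    have hT : HasFDerivAt T (fderiv ℝ T (G.c l x)) (G.c l x + (0 : R4)) := by
      rw [add_zero]
      exact (((transition_smooth (G.c_mem l) (G.c_mem k)).contDiffAt
        (((G.c l).continuousOn_symm.isOpen_inter_preimage (G.c l).open_target
          (G.c k).open_source).mem_nhds ⟨hxt, hxk⟩)).differentiableAt (by simp)).hasFDerivAt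
    have hsingle : HasFDerivAt (fun v : R4 => (y, (Pi.single l v : Par G)))
        ((ContinuousLinearMap.inr ℝ R4 (Par G)).comp
          (ContinuousLinearMap.single ℝ (fun _ : Fin G.n => R4) l)) (0 : R4) := by
      refine (hasFDerivAt_prodMk_right (𝕜 := ℝ) y (Pi.single l (0 : R4) : Par G)).comp (0 : R4) ?_
      exact (ContinuousLinearMap.single ℝ (fun _ : Fin G.n => R4) l).hasFDerivAt
    have h0 : DifferentiableAt ℝ (rep G (G.c i) (G.c k)) (y, (Pi.single l (0 : R4) : Par G)) := by
      simpa using hdiff y hy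
    have hd := h0.hasFDerivAt.comp (0 : R4) hsingle
    have hev : (fun v : R4 => T (G.c l x + v)) =ᶠ[𝓝 0]
        (rep G (G.c i) (G.c k)) ∘ fun v => (y, (Pi.single l v : Par G)) := by
      filter_upwards [closedBall_mem_nhds (0 : R4) (show (0 : ℝ) < 1 / 8 by norm_num)] with v hv
      have hk1 : kappaBump (G.c l x) = 1 := by
        refine kappaBump.one_of_mem_closedBall ?_
        simp only [mem_closedBall, dist_zero_right, kappaBump]
        linarith
      have hv' : ‖v‖ ≤ 1 / 8 := by simpa using hv
      simp [T, rep, phi_single, move, x, hl, hk1, small_eq hv']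
    have heq := (hd.congr_of_eventuallyEq hev).unique
      ((hT.comp (0 : R4) ((hasFDerivAt_id (0 : R4)).const_add (G.c l x))).congr_fderiv
        (ContinuousLinearMap.comp_id _))
    intro z
    obtain ⟨v, hv⟩ := hb.2 z
    refine ⟨Pi.single l v, ?_⟩
    have := DFunLike.congr_fun heq v
    rw [show fderiv ℝ T (G.c l x) v = z from hv] at this
    rw [← this]
    simp

end Vale.Agent.P204.Full.Smooth
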