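import Vale.Agent.P204.Full.Base.Fields
import Vale.Agent.P204.Full.Common.Linear
import Vale.Agent.P204.Full.Smooth.Phi

/-!
The averaged pull-back by the smoothing map: smoothness and commutation with `d`.
-/

open scoped ContDiff Topology Manifold
open MeasureTheory Set Metric Filter

noncomputable section

namespace Vale.Agent.P204.Full.Smooth

universe u

variable {X : Type u} [TopologicalSpace X] [T2Space X] [ChartedSpace R4 X]
  [IsManifold 𝓘(ℝ, R4) ∞ X] (G : Geo X)

/-- The differential of the smoothing map at a fixed parameter. -/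
def dPhi (u : Par G) (x : X) : Endo :=
  mfderiv 𝓘(ℝ, R4) 𝓘(ℝ, R4) (fun z => phi G (z, u)) x

/-- Pull-back of a two-form by the smoothing map at a fixed parameter. -/
def pull2 (θ : X → Bil) (u : Par G) (x : X) : Bil := pullBil (dPhi G u x) (θ (phi G (x, u)))

/-- Pull-back of a one-form by the smoothing map at a fixed parameter. -/
def pull1 (α : X → Cov) (u : Par G) (x : X) : Cov := pullCov (dPhi G u x) (α (phi G (x, u)))

/-- The weight in the average. -/
def wtBump : ContDiffBump (0 : Par G) := ⟨1 / 2, 1, by norm_num, by norm_num⟩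

def wt (w : Par G) : ℝ := (wtBump G).normed volume w

omit [T2Space X] in
theorem wt_smooth : ContDiff ℝ ∞ (wt G) := (wtBump G).contDiff_normed

omit [T2Space X] in
theorem wt_zero {w : Par G} (h : 1 < ‖w‖) : wt G w = 0 := by
  refine image_eq_zero_of_notMem_tsupport (f := (wtBump G).normed volume) ?_
  rw [(wtBump G).tsupport_normed_eq]
  simpa [wtBump] using h

omit [T2Space X] in
theorem wt_nonneg (w : Par G) : 0 ≤ wt G w := (wtBump G).nonneg_normed w

omit [T2Space X] in
theorem wt_integral : ∫ w, wt G w = 1 := (wtBump G).integral_normed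

/-- The averaged pull-back of two-forms. -/
def avg2 (σ : ℝ) (θ : X → Bil) (x : X) : Bil := ∫ w, wt G w • pull2 G θ (σ • w) x

/-- The averaged pull-back of one-forms. -/
def avg1 (σ : ℝ) (α : X → Cov) (x : X) : Cov := ∫ w, wt G w • pull1 G α (σ • w) x

/-- The base derivative of `rep`. -/
def DY (c e : OpenPartialHomeomorph X R4) (p : R4 × Par G) : Endo :=
  (fderiv ℝ (rep G c e) p).comp (ContinuousLinearMap.inl ℝ R4 (Par G))

variable {G}
variable {c e : OpenPartialHomeomorph X R4}

theorem DY_smooth (hc : Base.Atl c) (he : Base.Atl e) :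
    ContDiffOn ℝ ∞ (DY G c e) (repDom G c e) :=
  ((rep_smooth G hc he).fderiv_of_isOpen (isOpen_repDom G c e) le_rfl).clm_comp contDiffOn_const

theorem hasFDerivAt_rep (hc : Base.Atl c) (he : Base.Atl e) {y : R4} {u : Par G}
    (h : (y, u) ∈ repDom G c e) :
    HasFDerivAt (fun z => rep G c e (z, u)) (DY G c e (y, u)) y :=
  (((rep_smooth G hc he).contDiffAt ((isOpen_repDom G c e).mem_nhds h)).differentiableAt
    (by simp)).hasFDerivAt.comp (f := fun z : R4 => (z, u)) y (hasFDerivAt_prodMk_left (𝕜 := ℝ) y u)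

theorem rep_contDiffAt (hc : Base.Atl c) (he : Base.Atl e) {y : R4} {u : Par G}
    (h : (y, u) ∈ repDom G c e) : ContDiffAt ℝ ∞ (fun z => rep G c e (z, u)) y :=
  ((rep_smooth G hc he).contDiffAt ((isOpen_repDom G c e).mem_nhds h)).comp
    (f := fun z : R4 => (z, u)) y (contDiffAt_id.prodMk contDiffAt_const)

theorem dPhi_comp_dsymm (hc : Base.Atl c) (he : Base.Atl e) {y : R4} {u : Par G}
    (h : (y, u) ∈ repDom G c e) :
    (dPhi G u (c.symm y)).comp (dsymm c y) = (dsymm e (rep G c e (y, u))).comp (DY G c e (y, u)) := by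
  have hφ : MDifferentiableAt 𝓘(ℝ, R4) 𝓘(ℝ, R4) (fun z => phi G (z, u)) (c.symm y) :=
    ((phi_smooth G).comp (contMDiff_id.prodMk contMDiff_const)).contMDiffAt.mdifferentiableAt (by simp)
  have h1 := mfderiv_comp (I := 𝓘(ℝ, R4)) (I' := 𝓘(ℝ, R4)) (I'' := 𝓘(ℝ, R4)) y hφ
    (Base.mdiffAt_symm hc h.1)
  have hev : (fun z => phi G (z, u)) ∘ c.symm =ᶠ[𝓝 y] e.symm ∘ fun z => rep G c e (z, u) := by
    filter_upwards [((isOpen_repDom G c e).preimage
      (Continuous.prodMk continuous_id continuous_const)).mem_nhds h] with z hz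
    exact (e.left_inv hz.2).symm
  have h2 := mfderiv_comp (I := 𝓘(ℝ, R4)) (I' := 𝓘(ℝ, R4)) (I'' := 𝓘(ℝ, R4)) y
    (Base.mdiffAt_symm he (e.map_source h.2))
    (hasFDerivAt_rep hc he h).differentiableAt.mdifferentiableAt
  rw [mfderiv_eq_fderiv, (hasFDerivAt_rep hc he h).fderiv] at h2
  rw [hev.mfderiv_eq] at h1
  exact h1.symm.trans h2

theorem view2_pull (hc : Base.Atl c) (he : Base.Atl e) (θ : X → Bil) {y : R4} {u : Par G}
    (h : (y, u) ∈ repDom G c e) :
    view2 c (pull2 G θ u) y = pullBil (DY G c e (y, u)) (view2 e θ (rep G c e (y, u))) := by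
  rw [view2, view2, pull2, ← Base.pullBil_comp, ← Base.pullBil_comp, dPhi_comp_dsymm hc he h, rep,
    e.left_inv h.2]

theorem view1_pull (hc : Base.Atl c) (he : Base.Atl e) (α : X → Cov) {y : R4} {u : Par G}
    (h : (y, u) ∈ repDom G c e) :
    view1 c (pull1 G α u) y = pullCov (DY G c e (y, u)) (view1 e α (rep G c e (y, u))) := by
  rw [view1, view1, pull1, ← Base.pullCov_comp, ← Base.pullCov_comp, dPhi_comp_dsymm hc he h, rep,
    e.left_inv h.2]

theorem cdOn_clmG {D E F : Type} [NormedAddCommGroup D] [NormedSpace ℝ D] [NormedAddCommGroup E]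
    [NormedSpace ℝ E] [NormedAddCommGroup F] [NormedSpace ℝ F] {f : D → E} {s : Set D}
    (L : E →L[ℝ] F) (hf : ContDiffOn ℝ ∞ f s) : ContDiffOn ℝ ∞ (fun z => L (f z)) s :=
  hf.continuousLinearMap_comp L

theorem cdOn_weighted {D E W : Type} [NormedAddCommGroup D] [NormedSpace ℝ D] [NormedAddCommGroup E]
    [NormedSpace ℝ E] [NormedAddCommGroup W] [NormedSpace ℝ W] {f : D × W → E} {s : Set D}
    {r : W → ℝ} (hr : ContDiff ℝ ∞ r) (hf : ContDiffOn ℝ ∞ f (s ×ˢ univ)) (σ : ℝ) :
    ContDiffOn ℝ ∞ (fun p => r p.2 • f (p.1, σ • p.2)) (s ×ˢ univ) :=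
  (hr.comp contDiff_snd).contDiffOn.smul
    (hf.comp (contDiff_fst.prodMk (contDiff_snd.const_smul σ)).contDiffOn fun _ hp => ⟨hp.1, mem_univ _⟩)

theorem contDiffOn_pullBil {E : Type} [NormedAddCommGroup E] [NormedSpace ℝ E] {A : E → Endo}
    {b : E → Bil} {s : Set E} (hA : ContDiffOn ℝ ∞ A s) (hb : ContDiffOn ℝ ∞ b s) :
    ContDiffOn ℝ ∞ (fun z => pullBil (A z) (b z)) s :=
  cdOn_clmG (E := Bil) (F := Bil) Base.flipB
    ((cdOn_clmG (E := Bil) (F := Bil) Base.flipB (hb.clm_comp hA)).clm_comp hA)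

theorem contDiffOn_pull2View (hc : Base.Atl c) {θ : X → Bil} (hθ : Smooth2 θ) :
    ContDiffOn ℝ ∞ (fun p : R4 × Par G => view2 c (pull2 G θ p.2) p.1) (c.target ×ˢ univ) := by
  intro p hp
  set e := chartAt R4 (phi G (c.symm p.1, p.2))
  have he := Base.atl_chartAt (phi G (c.symm p.1, p.2))
  have hp' : p ∈ repDom G c e := ⟨hp.1, mem_chart_source R4 _⟩
  have hopen := isOpen_repDom G c e
  have hs : ContDiffOn ℝ ∞
      (fun q => pullBil (DY G c e q) (view2 e θ (rep G c e q))) (repDom G c e) :=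
    contDiffOn_pullBil (DY_smooth hc he)
      ((Base.smooth_view2 hθ he).comp (rep_smooth G hc he) fun q hq => e.map_source hq.2)
  refine ((hs.contDiffAt (hopen.mem_nhds hp')).congr_of_eventuallyEq ?_).contDiffWithinAt
  filter_upwards [hopen.mem_nhds hp'] with q hq
  exact view2_pull hc he θ hq

theorem contDiffOn_pull1View (hc : Base.Atl c) {α : X → Cov} (hα : Smooth1 α) :
    ContDiffOn ℝ ∞ (fun p : R4 × Par G => view1 c (pull1 G α p.2) p.1) (c.target ×ˢ univ) := by
  intro p hp
  set e := chartAt R4 (phi G (c.symm p.1, p.2))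
  have he := Base.atl_chartAt (phi G (c.symm p.1, p.2))
  have hp' : p ∈ repDom G c e := ⟨hp.1, mem_chart_source R4 _⟩
  have hopen := isOpen_repDom G c e
  have hs : ContDiffOn ℝ ∞
      (fun q => pullCov (DY G c e q) (view1 e α (rep G c e q))) (repDom G c e) :=
    Base.contDiff_covComp.comp_contDiffOn ((DY_smooth hc he).prodMk
      ((Base.smooth_view1 hα he).comp (rep_smooth G hc he) fun q hq => e.map_source hq.2))
  refine ((hs.contDiffAt (hopen.mem_nhds hp')).congr_of_eventuallyEq ?_).contDiffWithinAt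
  filter_upwards [hopen.mem_nhds hp'] with q hq
  exact view1_pull hc he α hq

variable (G)

omit [T2Space X] in
theorem contDiff_weight (σ : ℝ) : ContDiff ℝ ∞ fun p : R4 × Par G => (p.1, σ • p.2) :=
  contDiff_fst.prodMk (contDiff_snd.const_smul σ)

theorem smooth_integrand2 (hc : Base.Atl c) (σ : ℝ) {θ : X → Bil} (hθ : Smooth2 θ) :
    ContDiffOn ℝ ∞ (fun p : R4 × Par G => wt G p.2 • view2 c (pull2 G θ (σ • p.2)) p.1)
      (c.target ×ˢ univ) :=
  cdOn_weighted (E := Bil) (f := fun q : R4 × Par G => view2 c (pull2 G θ q.2) q.1) (wt_smooth G) (contDiffOn_pull2View (G := G) hc hθ) σ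

theorem smooth_integrand1 (hc : Base.Atl c) (σ : ℝ) {α : X → Cov} (hα : Smooth1 α) :
    ContDiffOn ℝ ∞ (fun p : R4 × Par G => wt G p.2 • view1 c (pull1 G α (σ • p.2)) p.1)
      (c.target ×ˢ univ) :=
  cdOn_weighted (E := Cov) (f := fun q : R4 × Par G => view1 c (pull1 G α q.2) q.1) (wt_smooth G) (contDiffOn_pull1View (G := G) hc hα) σ

theorem pull2_continuous (σ : ℝ) {θ : X → Bil} (hθ : Smooth2 θ) (x : X) :
    Continuous fun w => wt G w • pull2 G θ (σ • w) x := by
  have h := (smooth_integrand2 G (Base.atl_chartAt x) σ hθ).continuousOn.comp_continuous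
    (f := fun w => (chartAt R4 x x, w)) (continuous_const.prodMk continuous_id)
    fun w => ⟨(chartAt R4 x).map_source (mem_chart_source R4 x), mem_univ _⟩
  simpa [Function.comp_def, Base.view2_self] using h

theorem pull2_integrable (σ : ℝ) {θ : X → Bil} (hθ : Smooth2 θ) (x : X) :
    Integrable fun w => wt G w • pull2 G θ (σ • w) x :=
  integrable_of_vanish (pull2_continuous G σ hθ x) (R := 1) fun w hw => by
    rw [wt_zero G hw, zero_smul]

theorem view2_avg (c : OpenPartialHomeomorph X R4) (σ : ℝ) {θ : X → Bil} (hθ : Smooth2 θ) (y : R4) :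
    view2 c (avg2 G σ θ) y = ∫ w, wt G w • view2 c (pull2 G θ (σ • w)) y := by
  let L : Bil →L[ℝ] Bil := LinearMap.toContinuousLinearMap
    { toFun := pullBil (dsymm c y)
      map_add' := fun a b => rfl
      map_smul' := fun t a => rfl }
  exact (L.integral_comp_comm (pull2_integrable G σ hθ (c.symm y))).symm.trans
    (integral_congr_ae (ae_of_all _ fun w => rfl))

theorem pull1_integrable (σ : ℝ) {α : X → Cov} (hα : Smooth1 α) (x : X) :
    Integrable fun w => wt G w • pull1 G α (σ • w) x := by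
  have h := (smooth_integrand1 G (Base.atl_chartAt x) σ hα).continuousOn.comp_continuous
    (f := fun w => (chartAt R4 x x, w)) (continuous_const.prodMk continuous_id)
    fun w => ⟨(chartAt R4 x).map_source (mem_chart_source R4 x), mem_univ _⟩
  refine integrable_of_vanish (by simpa [Function.comp_def, Base.view1_self] using h) (R := 1)
    fun w hw => by rw [wt_zero G hw, zero_smul]

theorem view1_avg (c : OpenPartialHomeomorph X R4) (σ : ℝ) {α : X → Cov} (hα : Smooth1 α) (y : R4) :
    view1 c (avg1 G σ α) y = ∫ w, wt G w • view1 c (pull1 G α (σ • w)) y := by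
  let L : Cov →L[ℝ] Cov := LinearMap.toContinuousLinearMap
    { toFun := pullCov (dsymm c y)
      map_add' := fun a b => rfl
      map_smul' := fun t a => rfl }
  exact (L.integral_comp_comm (pull1_integrable G σ hα (c.symm y))).symm.trans
    (integral_congr_ae (ae_of_all _ fun w => rfl))

theorem avg2_isAlt (σ : ℝ) {θ : X → Bil} (hθ : Smooth2 θ) (x : X) : IsAlt (avg2 G σ θ x) := by
  intro u v
  let L : R4 → R4 → Bil →L[ℝ] ℝ := fun a b =>
    (ContinuousLinearMap.apply ℝ ℝ b).comp (ContinuousLinearMap.apply ℝ Cov a)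
  have key : ∀ a b, avg2 G σ θ x a b = ∫ w, (wt G w • pull2 G θ (σ • w) x) a b := fun a b =>
    ((L a b).integral_comp_comm (pull2_integrable G σ hθ x)).symm
  rw [key, key, ← integral_neg]
  exact integral_congr_ae (ae_of_all _ fun w =>
    ((Base.isAlt_pullBil (hθ.1 _) (dPhi G (σ • w) x)).smul (wt G w)) u v)

theorem avg2_smooth (σ : ℝ) {θ : X → Bil} (hθ : Smooth2 θ) : Smooth2 (avg2 G σ θ) :=
  ⟨avg2_isAlt G σ hθ, fun x₀ =>
    (contDiffOn_integral (chartAt R4 x₀).open_target (smooth_integrand2 G (Base.atl_chartAt x₀) σ hθ)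
      (R := 1) fun y w hw => by rw [wt_zero G hw, zero_smul]).congr
      fun y _ => view2_avg G (chartAt R4 x₀) σ hθ y⟩

theorem avg1_smooth (σ : ℝ) {α : X → Cov} (hα : Smooth1 α) : Smooth1 (avg1 G σ α) := fun x₀ =>
  (contDiffOn_integral (chartAt R4 x₀).open_target (smooth_integrand1 G (Base.atl_chartAt x₀) σ hα)
    (R := 1) fun y w hw => by rw [wt_zero G hw, zero_smul]).congr
    fun y _ => view1_avg G (chartAt R4 x₀) σ hα y

theorem avg2_closed (σ : ℝ) {θ : X → Bil} (hθ : Closed2 θ) : Closed2 (avg2 G σ θ) := by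
  refine ⟨avg2_smooth G σ hθ.1, fun x₀ y hy u v w => ?_⟩
  set c := chartAt R4 x₀
  have hc : Base.Atl c := Base.atl_chartAt x₀
  set g : R4 × Par G → Bil := fun p => wt G p.2 • view2 c (pull2 G θ (σ • p.2)) p.1
  have hg := smooth_integrand2 G hc σ hθ.1
  have h0 : ∀ p a, 1 < ‖a‖ → g (p, a) = 0 := fun p a ha => by simp [g, wt_zero G ha]
  have hd := hasFDerivAt_integral_param (μ := (volume : Measure (Par G))) c.open_target
    (hg.of_le (by simp)) h0 hy
  have hopen : IsOpen (c.target ×ˢ (univ : Set (Par G))) := c.open_target.prod isOpen_univ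
  let L : (R4 →L[ℝ] Bil) →L[ℝ] ℝ :=
    (ContinuousLinearMap.apply ℝ ℝ w).comp ((ContinuousLinearMap.apply ℝ Cov v).comp
        (ContinuousLinearMap.apply ℝ Bil u)) -
      (ContinuousLinearMap.apply ℝ ℝ w).comp ((ContinuousLinearMap.apply ℝ Cov u).comp
        (ContinuousLinearMap.apply ℝ Bil v)) +
      (ContinuousLinearMap.apply ℝ ℝ v).comp ((ContinuousLinearMap.apply ℝ Cov u).comp
        (ContinuousLinearMap.apply ℝ Bil w))
  have hint : Integrable fun a : Par G =>
      (fderiv ℝ g (y, a)).comp (ContinuousLinearMap.inl ℝ R4 (Par G)) := by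
    refine integrable_of_vanish ((((hg.continuousOn_fderiv_of_isOpen hopen (by simp)).comp_continuous
      (f := fun a : Par G => (y, a)) (continuous_const.prodMk continuous_id)
      fun a => ⟨hy, mem_univ _⟩)).clm_comp continuous_const) (R := 1) fun a ha => ?_
    have hnb : g =ᶠ[𝓝 (y, a)] fun _ => 0 :=
      Filter.mem_of_superset ((isOpen_lt continuous_const
        (continuous_norm.comp continuous_snd)).mem_nhds ha) fun q hq => h0 q.1 q.2 hq
    simp [hnb.fderiv_eq]
  show d2At (view2 c (avg2 G σ θ)) y u v w = 0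
  have hev : view2 c (avg2 G σ θ) =ᶠ[𝓝 y] fun z => ∫ a, g (z, a) :=
    Eventually.of_forall fun z => view2_avg G c σ hθ.1 z
  rw [Base.d2At_congr hev, d2At, hd.fderiv]
  show L (∫ a, (fderiv ℝ g (y, a)).comp (ContinuousLinearMap.inl ℝ R4 (Par G))) = 0
  rw [← L.integral_comp_comm hint]
  refine integral_eq_zero_of_ae (ae_of_all _ fun a => ?_)
  set e := chartAt R4 (phi G (c.symm y, σ • a))
  have he : Base.Atl e := Base.atl_chartAt _
  have hr : (y, σ • a) ∈ repDom G c e := ⟨hy, mem_chart_source R4 _⟩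
  have hT : ContDiffAt ℝ ∞ (fun z => rep G c e (z, σ • a)) y := rep_contDiffAt hc he hr
  have hη : DifferentiableAt ℝ (view2 e θ) (rep G c e (y, σ • a)) :=
    ((Base.smooth_view2 hθ.1 he).contDiffAt
      (e.open_target.mem_nhds (e.map_source hr.2))).differentiableAt (by simp)
  have hp : HasFDerivAt (fun z => g (z, a))
      ((fderiv ℝ g (y, a)).comp (ContinuousLinearMap.inl ℝ R4 (Par G))) y :=
    ((hg.contDiffAt (hopen.mem_nhds ⟨hy, mem_univ _⟩)).differentiableAt
      (by simp)).hasFDerivAt.comp (f := fun z : R4 => (z, a)) y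
        (hasFDerivAt_prodMk_left (𝕜 := ℝ) y a)
  have hev2 : (fun z => g (z, a)) =ᶠ[𝓝 y]
      fun z => wt G a • Base.pb2 (fun z => rep G c e (z, σ • a)) (view2 e θ) z := by
    filter_upwards [((isOpen_repDom G c e).preimage
      (Continuous.prodMk continuous_id continuous_const)).mem_nhds hr] with z hz
    change (z, σ • a) ∈ repDom G c e at hz
    simp only [g, Base.pb2]
    rw [view2_pull hc he θ hz, (hasFDerivAt_rep hc he hz).fderiv]
  have hd2 := Base.d2At_pb2 (T := fun z => rep G c e (z, σ • a)) (θ := view2 e θ) hT hη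
    (Base.isAlt_pullBil (hθ.1.1 _) _) (u := u) (v := v) (w := w)
  have hcl := hd2.trans (Base.closed_view hθ he (e.map_source hr.2) _ _ _)
  show L _ = 0
  rw [← hp.fderiv, hev2.fderiv_eq, fderiv_fun_const_smul (Base.diffAt_pb2 hT hη) (wt G a), map_smul,
    smul_eq_mul]
  exact mul_eq_zero_of_right _ hcl

theorem avg2_extD1 (σ : ℝ) {α : X → Cov} (hα : Smooth1 α) :
    avg2 G σ (extD1 α) = extD1 (avg1 G σ α) := by
  funext x
  set c := chartAt R4 x
  have hc : Base.Atl c := Base.atl_chartAt x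
  set y := c x
  have hy : y ∈ c.target := c.map_source (mem_chart_source R4 x)
  set g : R4 × Par G → Cov := fun p => wt G p.2 • view1 c (pull1 G α (σ • p.2)) p.1
  have hg := smooth_integrand1 G hc σ hα
  have h0 : ∀ p a, 1 < ‖a‖ → g (p, a) = 0 := fun p a ha => by simp [g, wt_zero G ha]
  have hd := hasFDerivAt_integral_param (μ := (volume : Measure (Par G))) c.open_target
    (hg.of_le (by simp)) h0 hy
  have hopen : IsOpen (c.target ×ˢ (univ : Set (Par G))) := c.open_target.prod isOpen_univ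
  have hint : Integrable fun a : Par G =>
      (fderiv ℝ g (y, a)).comp (ContinuousLinearMap.inl ℝ R4 (Par G)) := by
    refine integrable_of_vanish ((((hg.continuousOn_fderiv_of_isOpen hopen (by simp)).comp_continuous
      (f := fun a : Par G => (y, a)) (continuous_const.prodMk continuous_id)
      fun a => ⟨hy, mem_univ _⟩)).clm_comp continuous_const) (R := 1) fun a ha => ?_
    have hnb : g =ᶠ[𝓝 (y, a)] fun _ => 0 :=
      Filter.mem_of_superset ((isOpen_lt continuous_const
        (continuous_norm.comp continuous_snd)).mem_nhds ha) fun q hq => h0 q.1 q.2 hq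
    simp [hnb.fderiv_eq]
  rw [← Base.view2_self (avg2 G σ (extD1 α)) x, view2_avg G c σ (Base.smooth_extD1 hα)]
  have hev : view1 c (avg1 G σ α) = fun z => ∫ a, g (z, a) := funext fun z => view1_avg G c σ hα z
  show _ = d1At (view1 c (avg1 G σ α)) y
  rw [hev, d1At, hd.fderiv]
  let L : (R4 →L[ℝ] Cov) →L[ℝ] Bil :=
    ContinuousLinearMap.id ℝ Bil - Base.flipB
  show _ = L (∫ a, (fderiv ℝ g (y, a)).comp (ContinuousLinearMap.inl ℝ R4 (Par G)))
  rw [← L.integral_comp_comm hint]
  refine integral_congr_ae (ae_of_all _ fun a => ?_)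
  dsimp only
  set e := chartAt R4 (phi G (c.symm y, σ • a))
  have he : Base.Atl e := Base.atl_chartAt _
  have hr : (y, σ • a) ∈ repDom G c e := ⟨hy, mem_chart_source R4 _⟩
  have hT : ContDiffAt ℝ ∞ (fun z => rep G c e (z, σ • a)) y := rep_contDiffAt hc he hr
  have hη : DifferentiableAt ℝ (view1 e α) (rep G c e (y, σ • a)) :=
    ((Base.smooth_view1 hα he).contDiffAt
      (e.open_target.mem_nhds (e.map_source hr.2))).differentiableAt (by simp)
  have hp : HasFDerivAt (fun z => g (z, a))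
      ((fderiv ℝ g (y, a)).comp (ContinuousLinearMap.inl ℝ R4 (Par G))) y :=
    ((hg.contDiffAt (hopen.mem_nhds ⟨hy, mem_univ _⟩)).differentiableAt
      (by simp)).hasFDerivAt.comp (f := fun z : R4 => (z, a)) y
        (hasFDerivAt_prodMk_left (𝕜 := ℝ) y a)
  have hev2 : (fun z => g (z, a)) =ᶠ[𝓝 y]
      fun z => wt G a • Base.pb1 (fun z => rep G c e (z, σ • a)) (view1 e α) z := by
    filter_upwards [((isOpen_repDom G c e).preimage
      (Continuous.prodMk continuous_id continuous_const)).mem_nhds hr] with z hz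
    change (z, σ • a) ∈ repDom G c e at hz
    simp only [g, Base.pb1]
    rw [view1_pull hc he α hz, (hasFDerivAt_rep hc he hz).fderiv]
  have hd1 := Base.d1At_pb1 (T := fun z => rep G c e (z, σ • a)) (β := view1 e α) hT hη
  have hdiff : DifferentiableAt ℝ (Base.pb1 (fun z => rep G c e (z, σ • a)) (view1 e α)) y :=
    (DifferentiableAt.comp (g := view1 e α) y hη (hT.differentiableAt (by simp))).clm_comp
      (Base.diffAt_fderiv hT)
  rw [← hp.fderiv, hev2.fderiv_eq, fderiv_fun_const_smul hdiff (wt G a), map_smul,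
    view2_pull hc he (extD1 α) hr, Base.d_view hα he (y := rep G c e (y, σ • a)) (e.map_source hr.2),
    ← (hasFDerivAt_rep hc he hr).fderiv]
  congr 1
  exact hd1.symm

end Vale.Agent.P204.Full.Smooth
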