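import Vale.Agent.P204.Full.Base.Norms
import Vale.Agent.P204.Full.Smooth.Pull

/-!
The averaged pull-back in the finite atlas, written with averaging operators.
-/

open scoped ContDiff Topology Manifold
open MeasureTheory Set Metric Filter

noncomputable section

namespace Vale.Agent.P204.Full.Smooth

universe u

variable {X : Type u} [TopologicalSpace X] [T2Space X] [ChartedSpace R4 X]
  [IsManifold 𝓘(ℝ, R4) ∞ X] (G : Geo X)

/-- The chosen family for a pair of charts. -/
def fam (i k : Fin G.n) : Fam (Par G) := (exists_phiFam G i k).choose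

theorem fam_K (i k : Fin G.n) : (fam G i k).K = pieceSet G i k := (exists_phiFam G i k).choose_spec.1

theorem fam_spec (i k : Fin G.n) {y : R4} (hy : y ∈ pieceSet G i k) {v : Par G}
    (hv : ‖v‖ ≤ (fam G i k).rad) :
    (y, v) ∈ repDom G (G.c i) (G.c k) ∧ (fam G i k).F =ᶠ[𝓝 (y, v)] rep G (G.c i) (G.c k) :=
  (exists_phiFam G i k).choose_spec.2 y hy v hv

theorem fam_rep (i k : Fin G.n) {y : R4} (hy : y ∈ pieceSet G i k) {v : Par G}
    (hv : ‖v‖ ≤ (fam G i k).rad) :
    (fam G i k).F (y, v) = rep G (G.c i) (G.c k) (y, v) ∧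
      (fam G i k).Dy (y, v) = DY G (G.c i) (G.c k) (y, v) := by
  refine ⟨(fam_spec G i k hy hv).2.eq_of_nhds, ?_⟩
  rw [Fam.Dy, (fam_spec G i k hy hv).2.fderiv_eq]
  rfl

/-- The cut-off in the target chart. -/
def midBump : ContDiffBump (0 : R4) := ⟨5 / 2, 11 / 4, by norm_num, by norm_num⟩

open Classical in
/-- The cut-off of the pair of charts, read in the first one. -/
def cut (i k : Fin G.n) (y : R4) : ℝ :=
  if y ∈ Base.tdom (G.c i) (G.c k) then kappaBump y * midBump (Base.trans (G.c i) (G.c k) y) else 0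

theorem cut_supp {i k : Fin G.n} {y : R4} (h : cut G i k y ≠ 0) : y ∈ pieceSet G i k := by
  rw [cut] at h
  split_ifs at h with ht
  · obtain ⟨h1, h2⟩ := mul_ne_zero_iff.1 h
    refine (mem_pieceSet G).2 ⟨?_, ht.2, ?_⟩
    · by_contra hc
      exact h1 (kappaBump.zero_of_le_dist (by simp [kappaBump]; linarith))
    · by_contra hc
      refine h2 (midBump.zero_of_le_dist ?_)
      simp [midBump, Base.trans]
      linarith
  · exact absurd rfl h

theorem cut_smooth (i k : Fin G.n) : ContDiff ℝ ∞ (cut G i k) := by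
  refine Base.cd_extend (Base.isOpen_tdom (G.c i) (G.c k)) ?_ (isCompact_pieceSet G i k).isClosed
    (fun y hy => ?_) fun y hy => by_contra fun h => hy (cut_supp G h)
  · refine (kappaBump.contDiff.contDiffOn.mul (midBump.contDiff.comp_contDiffOn
      (Base.contDiffOn_trans (G.c_mem i) (G.c_mem k)))).congr fun y hy => ?_
    simp [cut, hy]
  · obtain ⟨h1, h2, -⟩ := (mem_pieceSet G).1 hy
    exact ⟨closedBall_subset_target G i (r := 15 / 4) (by norm_num) (by simpa using h1), h2⟩

theorem cut_nonneg (i k : Fin G.n) (y : R4) : 0 ≤ cut G i k y := by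
  rw [cut]
  split_ifs
  · exact mul_nonneg kappaBump.nonneg midBump.nonneg
  · exact le_rfl

/-- A coefficient with the standard weight. -/
def mkSym (i k : Fin G.n) (op : ℝ × R4 × Par G → Bil →L[ℝ] Bil) (hop : ContDiff ℝ ∞ op) :
    Sym (fam G i k) Bil Bil where
  a p := (cut G i k p.2.1 * wt G p.2.2) • op p
  smooth := (((cut_smooth G i k).comp (contDiff_fst.comp contDiff_snd)).mul
    ((wt_smooth G).comp (contDiff_snd.comp contDiff_snd))).smul hop
  supp σ y w h := by
    have h' : cut G i k y * wt G w ≠ 0 := fun h0 => h (by simp [h0])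
    obtain ⟨h1, h2⟩ := mul_ne_zero_iff.1 h'
    exact ⟨fam_K G i k ▸ cut_supp G h1, not_lt.1 fun hw => h2 (wt_zero G hw)⟩

theorem contDiff_pullL {D : Type} [NormedAddCommGroup D] [NormedSpace ℝ D] {A : D → Endo}
    (hA : ContDiff ℝ ∞ A) : ContDiff ℝ ∞ fun z => Base.pullL (A z) := by
  rw [← contDiffOn_univ]
  have h1 : ContDiffOn ℝ ∞ (fun z => Base.compR (A z)) univ :=
    cdOn_clmG (E := Endo) (F := Bil →L[ℝ] Bil) Base.compR hA.contDiffOn
  exact ((contDiffOn_const (c := Base.flipB)).clm_comp h1).clm_comp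
    ((contDiffOn_const (c := Base.flipB)).clm_comp h1)

/-- The operator of a plain pull-back. -/
def pullOp (i k : Fin G.n) (p : ℝ × R4 × Par G) : Bil →L[ℝ] Bil :=
  Base.pullL ((fam G i k).Dy (p.2.1, p.1 • p.2.2))

theorem pullOp_smooth (i k : Fin G.n) : ContDiff ℝ ∞ (pullOp G i k) :=
  contDiff_pullL ((fam G i k).Dy_smooth.comp contDiff_scaled)

/-- The coefficient of the averaged pull-back. -/
def baseSym (i k : Fin G.n) : Sym (fam G i k) Bil Bil := mkSym G i k (pullOp G i k) (pullOp_smooth G i k)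

/-- The weight of a chart, read in it. -/
def rhoView (k : Fin G.n) (z : R4) : ℝ := Base.wideBump z * G.rho k ((G.c k).symm z)

/-- The piece of a field in the chart `k`. -/
def piece (k : Fin G.n) (θ : X → Bil) (z : R4) : Bil := rhoView G k z • Base.kv G k θ z

variable [CompactSpace X]

theorem rhoView_smooth (k : Fin G.n) : ContDiff ℝ ∞ (rhoView G k) := by
  refine Base.cd_extend (G.c k).open_target
    (Base.wideBump.contDiff.contDiffOn.mul (Base.contDiffOn_fun (Base.rho_smooth G k) (G.c_mem k)))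
    (Metric.isClosed_closedBall (x := (0 : R4)) (ε := 7 / 2)) ?_ fun y hy => by
      simp [rhoView, Base.wideBump_zero hy]
  rw [G.c_target]
  exact closedBall_subset_ball (by norm_num)

theorem piece_smooth (k : Fin G.n) {θ : X → Bil} (hθ : Smooth2 θ) : ContDiff ℝ ∞ (piece G k θ) :=
  ContDiff.smul (F := Bil) (rhoView_smooth G k) (Base.cd_kv G hθ k)

theorem piece_compact (k : Fin G.n) (θ : X → Bil) : HasCompactSupport (piece G k θ) :=
  (Base.cs_kv G k θ).smul_left (f := rhoView G k)

theorem piece_eq (k : Fin G.n) (θ : X → Bil) {z : R4} (hz : z ∈ (G.c k).target) :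
    piece G k θ z = G.rho k ((G.c k).symm z) • view2 (G.c k) θ z := by
  by_cases h : G.rho k ((G.c k).symm z) = 0
  · simp [piece, rhoView, h]
  · have h2 := (Base.rho_supp G k _ h).2
    rw [(G.c k).right_inv hz] at h2
    have hz2 : z ∈ closedBall (0 : R4) 2 := by simpa using h2.le
    have hz3 : z ∈ closedBall (0 : R4) 3 := closedBall_subset_closedBall (by norm_num) hz2
    simp [piece, rhoView, Base.kv, Base.wideBump_one hz3, Base.kappa_one hz2]

/-- The parameter bound for one chart. -/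
theorem exists_close_one (k : Fin G.n) : ∃ s : ℝ, 0 < s ∧ ∀ (x : X) (v : Par G), ‖v‖ ≤ s →
    G.rho k (phi G (x, v)) ≠ 0 → x ∈ (G.c k).source ∧ ‖G.c k x‖ < 5 / 2 := by
  set V : Set X := (G.c k).source ∩ G.c k ⁻¹' ball 0 (5 / 2) with hVdef
  have hV : IsOpen V := (G.c k).isOpen_inter_preimage isOpen_ball
  set A : Set (X × Par G) := V ×ˢ (univ : Set (Par G)) with hA
  set B : Set (X × Par G) := phi G ⁻¹' (Base.K G k 2)ᶜ with hB
  have hU : IsOpen (A ∪ B) := (hV.prod isOpen_univ).union
    ((Base.isClosed_K G k (by norm_num)).isOpen_compl.preimage (phi_continuous G))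
  have hsub : (univ : Set X) ×ˢ ({0} : Set (Par G)) ⊆ A ∪ B := by
    rintro ⟨x, v⟩ ⟨-, hv⟩
    rw [mem_singleton_iff] at hv
    subst hv
    by_cases hx : x ∈ Base.K G k 2
    · obtain ⟨h2, h3⟩ := (Base.mem_K G (by norm_num)).1 hx
      have h4 : x ∈ V := ⟨h2, mem_ball_zero_iff.2 (lt_of_le_of_lt h3 (by norm_num))⟩
      exact Or.inl (mk_mem_prod h4 (mem_univ _))
    · exact Or.inr (show phi G (x, 0) ∈ (Base.K G k 2)ᶜ by rw [phi_zero]; exact hx)
  obtain ⟨a, b, ha, hb, hab0, hb0, habs⟩ :=
    generalized_tube_lemma isCompact_univ isCompact_singleton hU hsub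
  obtain ⟨s, hs, hsb⟩ := nhds_basis_closedBall.mem_iff.1 (hb.mem_nhds (hb0 rfl))
  refine ⟨s, hs, fun x v hv hρ => ?_⟩
  have hxv : (x, v) ∈ A ∪ B := habs (mk_mem_prod (hab0 (mem_univ x)) (hsb (mem_closedBall_zero_iff.2 hv)))
  rcases hxv with h | h
  · exact ⟨h.1.1, mem_ball_zero_iff.1 h.1.2⟩
  · exact absurd (Base.rho_mem_K G hρ) h

/-- A parameter bound under which all local formulas hold. -/
theorem exists_close : ∃ s : ℝ, 0 < s ∧ s ≤ 1 ∧ (∀ i k, s ≤ (fam G i k).rad) ∧
    ∀ (k : Fin G.n) (x : X) (v : Par G), ‖v‖ ≤ s → G.rho k (phi G (x, v)) ≠ 0 →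
      x ∈ (G.c k).source ∧ ‖G.c k x‖ < 5 / 2 := by
  have h1 := exists_close_one G
  choose s hs hclose using h1
  obtain ⟨a, ha, hab⟩ : ∃ a : ℝ, 0 < a ∧ ∀ i k : Fin G.n, a ≤ s k ∧ a ≤ (fam G i k).rad := by
    obtain hE | hE := isEmpty_or_nonempty (Fin G.n)
    · exact ⟨1, one_pos, fun i => isEmptyElim i⟩
    obtain ⟨p, hp⟩ := Finite.exists_min fun p : Fin G.n × Fin G.n => min (s p.2) (fam G p.1 p.2).rad
    exact ⟨_, lt_min (hs _) (fam G p.1 p.2).rad_pos,
      fun i k => le_min_iff.1 (hp (i, k))⟩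
  exact ⟨min a 1, lt_min ha one_pos, min_le_right _ _,
    fun i k => (min_le_left _ _).trans (hab i k).2,
    fun k x v hv hρ => hclose k x v (hv.trans ((min_le_left _ _).trans (hab k k).1)) hρ⟩

/-- The bound on the parameter. -/
def sLoc : ℝ := (exists_close G).choose

theorem sLoc_pos : 0 < sLoc G := (exists_close G).choose_spec.1

theorem sLoc_le_one : sLoc G ≤ 1 := (exists_close G).choose_spec.2.1

theorem sLoc_le_rad (i k : Fin G.n) : sLoc G ≤ (fam G i k).rad := (exists_close G).choose_spec.2.2.1 i k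

theorem integrand_eq (i k : Fin G.n) (θ : X → Bil) (y : R4) {v : Par G} (hv : ‖v‖ ≤ sLoc G) :
    kappaBump y • view2 (G.c i) (pull2 G (fun x => G.rho k x • θ x) v) y =
      cut G i k y • pullBil ((fam G i k).Dy (y, v)) (piece G k θ ((fam G i k).F (y, v))) := by
  have hrad := hv.trans (sLoc_le_rad G i k)
  by_cases hy : kappaBump y = 0
  · have hc : cut G i k y = 0 := by
      rw [cut]
      split_ifs <;> simp [hy]
    simp [hy, hc]
  have hy3 : y ∈ (G.c i).target := closedBall_subset_target G i (r := 3) (by norm_num) (by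
    by_contra h
    exact hy (Base.kappa_zero h))
  set z := phi G ((G.c i).symm y, v)
  by_cases hρ : G.rho k z = 0
  · have hL : view2 (G.c i) (pull2 G (fun x => G.rho k x • θ x) v) y = 0 := by
      rw [view2, pull2]
      show pullBil _ (pullBil _ (G.rho k z • θ z)) = 0
      simp [hρ, pullBil_zero]
    rw [hL, smul_zero]
    by_cases hcut : cut G i k y = 0
    · simp [hcut]
    obtain ⟨hd, -⟩ := fam_spec G i k (cut_supp G hcut) hrad
    rw [(fam_rep G i k (cut_supp G hcut) hrad).1, rep, piece_eq G k θ ((G.c k).map_source hd.2),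
      (G.c k).left_inv hd.2]
    simp only [z] at hρ
    simp [hρ, pullBil_zero]
  obtain ⟨hx, hx2⟩ := (exists_close G).choose_spec.2.2.2 k ((G.c i).symm y) v hv hρ
  have ht : y ∈ Base.tdom (G.c i) (G.c k) := ⟨hy3, hx⟩
  have hcut : cut G i k y = kappaBump y := by
    rw [cut, if_pos ht, midBump.one_of_mem_closedBall (x := Base.trans (G.c i) (G.c k) y), mul_one]
    simp only [mem_closedBall, dist_zero_right]
    exact hx2.le
  have hK : y ∈ pieceSet G i k := cut_supp G (by rw [hcut]; exact hy)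
  obtain ⟨hd, -⟩ := fam_spec G i k hK hrad
  obtain ⟨hF, hD⟩ := fam_rep G i k hK hrad
  rw [hcut, hF, hD, view2_pull (G.c_mem i) (G.c_mem k) _ hd,
    piece_eq G k θ (show rep G (G.c i) (G.c k) (y, v) ∈ (G.c k).target from (G.c k).map_source hd.2),
    Base.view2_smul]

variable [MeasurableSpace X] [BorelSpace X]

omit [MeasurableSpace X] [BorelSpace X] in
/-- The piece `k` of the averaged pull-back, in the chart `i`. -/
theorem kv_avg_piece (i k : Fin G.n) {σ : ℝ} (hσ : |σ| ≤ sLoc G) {θ : X → Bil} (hθ : Smooth2 θ) :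
    Base.kv G i (avg2 G σ (fun x => G.rho k x • θ x)) =
      avgOp volume (baseSym G i k) σ (piece G k θ) := by
  funext y
  have hk : Smooth2 fun x => G.rho k x • θ x := Base.smul2 (Base.rho_smooth G k) hθ
  rw [Base.kv, view2_avg G (G.c i) σ hk y, ← integral_smul, avgOp]
  refine integral_congr_ae (ae_of_all _ fun w => ?_)
  by_cases hw : ‖w‖ ≤ 1
  swap
  · simp [wt_zero G (not_le.1 hw), baseSym, mkSym]
  have hv : ‖σ • w‖ ≤ sLoc G := by
    rw [norm_smul, Real.norm_eq_abs]
    exact (mul_le_of_le_one_right (abs_nonneg σ) hw).trans hσ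
  dsimp only
  rw [smul_comm, integrand_eq G i k θ y hv]
  simp only [baseSym, mkSym, pullOp, smul_apply, Base.pullL_apply, smul_smul]
  rw [mul_comm (wt G w)]

omit [CompactSpace X] [MeasurableSpace X] [BorelSpace X] in
theorem avg2_add (σ : ℝ) {θ η : X → Bil} (hθ : Smooth2 θ) (hη : Smooth2 η) :
    avg2 G σ (θ + η) = avg2 G σ θ + avg2 G σ η := by
  funext x
  simp only [avg2, Pi.add_apply, pull2, pullBil_add, smul_add]
  exact integral_add (pull2_integrable G σ hθ x) (pull2_integrable G σ hη x)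

omit [CompactSpace X] [MeasurableSpace X] [BorelSpace X] in
theorem avg2_smul (σ t : ℝ) (θ : X → Bil) : avg2 G σ (t • θ) = t • avg2 G σ θ := by
  funext x
  simp only [avg2, Pi.smul_apply, pull2, pullBil_smul]
  rw [← integral_smul]
  exact integral_congr_ae (ae_of_all _ fun w => smul_comm _ _ _)

omit [MeasurableSpace X] [BorelSpace X] in
/-- The averaged pull-back in a chart. -/
theorem kv_avg (i : Fin G.n) {σ : ℝ} (hσ : |σ| ≤ sLoc G) {θ : X → Bil} (hθ : Smooth2 θ) (y : R4) :
    Base.kv G i (avg2 G σ θ) y = ∑ k, avgOp volume (baseSym G i k) σ (piece G k θ) y := by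
  simp only [← kv_avg_piece G i _ hσ hθ, Base.kv]
  rw [view2_avg G (G.c i) σ hθ y, ← integral_smul]
  simp only [fun k => view2_avg G (G.c i) σ (θ := fun x => G.rho k x • θ x)
    (Base.smul2 (Base.rho_smooth G k) hθ) y, ← integral_smul]
  by_cases hy : y ∈ (G.c i).target
  swap
  · have : kappaBump y = 0 := Base.kappa_zero fun h =>
      hy (closedBall_subset_target G i (by norm_num) h)
    simp [this]
  rw [← integral_finsetSum]
  · refine integral_congr_ae (ae_of_all _ fun w => ?_)
    simp only [← Finset.smul_sum, view2, pull2]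
    congr 2
    have h : ∀ (A B : Endo), ∑ k, pullBil A (pullBil B
        (G.rho k (phi G ((G.c i).symm y, σ • w)) • θ (phi G ((G.c i).symm y, σ • w)))) =
        pullBil A (pullBil B (θ (phi G ((G.c i).symm y, σ • w)))) := fun A B => by
      simp only [pullBil_smul]
      rw [← Finset.sum_smul, Base.rho_sum, one_smul]
    exact (h _ _).symm
  · intro k _
    have hc : ContinuousOn
        (fun p : R4 × Par G => wt G p.2 • view2 (G.c i) (pull2 G (fun x => G.rho k x • θ x) (σ • p.2)) p.1)
        ((G.c i).target ×ˢ univ) :=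
      (smooth_integrand2 G (G.c_mem i) σ (Base.smul2 (Base.rho_smooth G k) hθ)).continuousOn
    refine integrable_of_vanish ((hc.comp_continuous (f := fun w => (y, w))
      (continuous_const.prodMk continuous_id) fun w => ⟨hy, mem_univ _⟩).const_smul (kappaBump y))
      (R := 1) fun w hw => by simp [wt_zero G hw]

omit [MeasurableSpace X] [BorelSpace X] in
theorem avg2_zero {θ : X → Bil} : avg2 G 0 θ = θ := by
  funext x
  have h : ∀ w : Par G, pull2 G θ ((0 : ℝ) • w) x = θ x := fun w => by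
    rw [zero_smul, pull2, phi_zero, dPhi,
      show (fun z => phi G (z, 0)) = id from funext fun z => phi_zero G z, mfderiv_id]
    rfl
  simp only [avg2, h]
  rw [integral_smul_const, wt_integral, one_smul]

end Vale.Agent.P204.Full.Smooth
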