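import Vale.Agent.P204.Full.Smooth.PointBounds

/-!
Averaged pull-backs of semipositive forms are semipositive up to second order.
-/

open scoped ContDiff Topology Manifold
open MeasureTheory Set Metric Filter

noncomputable section

namespace Vale.Agent.P204.Full.Smooth

universe u

/-- Second-order positivity of a semipositive invariant form on a nearly complex pair. -/
theorem form_lower (f : Bil) (J : Endo) (halt : IsAlt f) (hinv : ∀ u v, f (J u) (J v) = f u v)
    (hpos : ∀ v, 0 ≤ f v (J v)) (hJ : ∀ v, J (J v) = -v) (a b : R4) :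
    -(‖f‖ * ‖J‖ ^ 3 * ‖b - J a‖ ^ 2) ≤ f a b := by
  set c := -(J b) with hc
  have hJc : J c = b := by rw [hc, map_neg, hJ, neg_neg]
  have hsymm : ∀ p q, f q (J p) = f p (J q) := fun p q => by
    rw [← hinv q (J p), hJ, map_neg, halt (J q) p, neg_neg]
  have hd : a - c = J (b - J a) := by rw [map_sub, hJ, hc]; abel
  have hadd : f (a + c) (J (a + c)) = f a (J a) + 2 * f a (J c) + f c (J c) := by
    simp only [map_add, add_apply]
    rw [hsymm a c]; ring
  have hsub : f (a - c) (J (a - c)) = f a (J a) - 2 * f a (J c) + f c (J c) := by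
    simp only [map_sub, sub_apply]
    rw [hsymm a c]; ring
  have h1 : f (a - c) (J (a - c)) ≤ ‖f‖ * ‖J‖ * ‖a - c‖ ^ 2 := by
    calc f (a - c) (J (a - c)) ≤ ‖f (a - c) (J (a - c))‖ := le_abs_self _
      _ ≤ ‖f‖ * ‖a - c‖ * ‖J (a - c)‖ := f.le_opNorm₂ _ _
      _ ≤ ‖f‖ * ‖a - c‖ * (‖J‖ * ‖a - c‖) :=
          mul_le_mul_of_nonneg_left (J.le_opNorm _) (by positivity)
      _ = _ := by ring
  have h2 : ‖a - c‖ ≤ ‖J‖ * ‖b - J a‖ := by rw [hd]; exact J.le_opNorm _
  have h3 : ‖f‖ * ‖J‖ * ‖a - c‖ ^ 2 ≤ ‖f‖ * ‖J‖ * (‖J‖ * ‖b - J a‖) ^ 2 :=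
    mul_le_mul_of_nonneg_left (pow_le_pow_left₀ (norm_nonneg _) h2 2) (by positivity)
  have h4 : 0 ≤ ‖f‖ * ‖J‖ ^ 3 * ‖b - J a‖ ^ 2 := by positivity
  rw [hJc] at hadd hsub
  rw [mul_pow] at h3
  nlinarith [hpos (a + c), h1, h3]

variable {X : Type u} [TopologicalSpace X] [T2Space X] [CompactSpace X] [ChartedSpace R4 X]
  [IsManifold 𝓘(ℝ, R4) ∞ X] [MeasurableSpace X] [BorelSpace X] (G : Geo X)

/-- The failure of the pull-back to be complex linear. -/
def jErr (i k : Fin G.n) (p : ℝ × R4 × Par G) : Endo :=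
  ((fam G i k).Dy (p.2.1, p.1 • p.2.2)).comp (JT G i p.2.1) -
    (JT G k ((fam G i k).F (p.2.1, p.1 • p.2.2))).comp ((fam G i k).Dy (p.2.1, p.1 • p.2.2))

omit [CompactSpace X] [MeasurableSpace X] [BorelSpace X] in
theorem jErr_smooth (i k : Fin G.n) : ContDiff ℝ ∞ (jErr G i k) :=
  contDiff_sub' (((fam G i k).Dy_smooth.comp contDiff_scaled).clm_comp
    ((JT_smooth G i).comp (contDiff_fst.comp contDiff_snd)))
    (((JT_smooth G k).comp ((fam G i k).F_smooth.comp contDiff_scaled)).clm_comp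
      ((fam G i k).Dy_smooth.comp contDiff_scaled))
where
  contDiff_sub' {D V : Type} [NormedAddCommGroup D] [NormedSpace ℝ D] [NormedAddCommGroup V]
      [NormedSpace ℝ V] {f g : D → V} (hf : ContDiff ℝ ∞ f) (hg : ContDiff ℝ ∞ g) :
      ContDiff ℝ ∞ fun x => f x - g x := hf.sub hg

omit [CompactSpace X] [MeasurableSpace X] [BorelSpace X] in
theorem jErr_zero {i k : Fin G.n} {y : R4} (hy : y ∈ pieceSet G i k) (hy3 : ‖y‖ ≤ 3) (w : Par G) :
    jErr G i k (0, y, w) = 0 := by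
  have ht := pieceSet_tdom G hy
  have hz3 : ‖Base.trans (G.c i) (G.c k) y‖ ≤ 3 := ((mem_pieceSet G).1 hy).2.2
  simp only [jErr, zero_smul, fam_F_zero G hy, fam_Dy_zero G hy, JT_eq G i hy3, JT_eq G k hz3,
    dtrans_viewJ G (G.c_mem i) (G.c_mem k) ht]
  exact sub_self _

omit [CompactSpace X] [MeasurableSpace X] [BorelSpace X] in
theorem jErr_bound (i k : Fin G.n) : ∃ M : ℝ, 0 ≤ M ∧ ∀ y ∈ pieceSet G i k, ‖y‖ ≤ 3 →
    ∀ (σ : ℝ) (w : Par G), |σ| ≤ 1 → ‖w‖ ≤ 1 → ‖jErr G i k (σ, y, w)‖ ≤ M * |σ| := by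
  have hc : Continuous fun p => fderiv ℝ (jErr G i k) p (1, 0) :=
    ((jErr_smooth G i k).continuous_fderiv (by simp)).clm_apply continuous_const
  obtain ⟨M, hM⟩ := ((isCompact_Icc (a := (-1 : ℝ)) (b := 1)).prod
    ((isCompact_pieceSet G i k).prod (isCompact_closedBall (0 : Par G) 1))).exists_bound_of_continuousOn
      hc.continuousOn
  refine ⟨max M 0, le_max_right _ _, fun y hy hy3 σ w hσ hw => ?_⟩
  have hd : ∀ t : ℝ, HasDerivAt (fun t => jErr G i k (t, y, w))
      (fderiv ℝ (jErr G i k) (t, y, w) (1, 0)) t := fun t =>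
    ((jErr_smooth G i k).differentiable (by simp) (t, y, w)).hasFDerivAt.comp_hasDerivAt
      (f := fun r : ℝ => (r, y, w)) t ((hasDerivAt_id t).prodMk (hasDerivAt_const t (y, w)))
  have h := (convex_Icc (-1 : ℝ) 1).norm_image_sub_le_of_norm_hasDerivWithin_le
    (f := fun t => jErr G i k (t, y, w)) (f' := fun t => fderiv ℝ (jErr G i k) (t, y, w) (1, 0))
    (C := max M 0) (fun t _ => (hd t).hasDerivWithinAt)
    (fun t ht => (hM (t, y, w) ⟨ht, hy, by simpa using hw⟩).trans (le_max_left _ _))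
    (x := (0 : ℝ)) (y := σ) ⟨by norm_num, by norm_num⟩ (abs_le.1 hσ)
  simpa [jErr_zero G hy hy3 w] using h

omit [MeasurableSpace X] [BorelSpace X] in
theorem piece_form {k : Fin G.n} {θ : X → Bil} (hθ : Smooth2 θ) (hinv : G.Inv θ) (hsp : G.SemiPos θ)
    {z : R4} (hz : ‖z‖ ≤ 3) :
    IsAlt (piece G k θ z) ∧
      (∀ u v, piece G k θ z (JT G k z u) (JT G k z v) = piece G k θ z u v) ∧
      (∀ v, 0 ≤ piece G k θ z v (JT G k z v)) := by
  have hzt := closedBall_subset_target G k (r := 3) (by norm_num) (show z ∈ closedBall (0 : R4) 3 by simpa using hz)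
  have hJ : ∀ v, dsymm (G.c k) z (Base.viewJ G.J (G.c k) z v) =
      G.J ((G.c k).symm z) (dsymm (G.c k) z v) := fun v =>
    DFunLike.congr_fun (Base.dsymm_viewJ G.J (G.c_mem k) hzt) v
  set r := G.rho k ((G.c k).symm z)
  have hp : ∀ u v, piece G k θ z u v =
      r * θ ((G.c k).symm z) (dsymm (G.c k) z u) (dsymm (G.c k) z v) := fun u v => by
    rw [piece_eq G k θ hzt]
    rfl
  refine ⟨fun u v => ?_, fun u v => ?_, fun v => ?_⟩
  · rw [hp, hp, hθ.1 ((G.c k).symm z) (dsymm (G.c k) z u) (dsymm (G.c k) z v)]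
    ring
  · rw [hp, hp, JT_eq G k hz, hJ, hJ, hinv]
  · rw [hp, JT_eq G k hz, hJ]
    exact mul_nonneg (Base.rho_nonneg G k _) (hsp _ _)

theorem metric_lower : ∃ m : ℝ, 0 < m ∧ ∀ (i : Fin G.n) (x : X), x ∈ (G.c i).source →
    ‖G.c i x‖ ≤ 3 → ∀ v : R4, m * ‖Base.dchart (G.c i) x v‖ ^ 2 ≤ G.metric x v v := by
  let q : Fin G.n → R4 × R4 → ℝ := fun i p =>
    view2 (G.c i) G.omega p.1 p.2 (Base.viewJ G.J (G.c i) p.1 p.2)
  have hq : ∀ i, ContinuousOn (q i) ((G.c i).target ×ˢ univ) := fun i =>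
    (((Base.smooth_view2 G.omega_smooth (G.c_mem i)).continuousOn.comp continuousOn_fst
      fun p hp => hp.1).clm_apply continuousOn_snd).clm_apply
      (((Base.smooth_viewJ G.J_acs (G.c_mem i)).continuousOn.comp continuousOn_fst
        fun p hp => hp.1).clm_apply continuousOn_snd)
  have hqpos : ∀ (i : Fin G.n) (y v : R4), y ∈ (G.c i).target → v ≠ 0 → 0 < q i (y, v) := by
    intro i y v hy hv
    have hd : dsymm (G.c i) y v ≠ 0 := fun h => hv (by
      have := DFunLike.congr_fun (Base.dchart_comp_dsymm (G.c_mem i) hy) v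
      simp only [ContinuousLinearMap.comp_apply, h, map_zero, ContinuousLinearMap.id_apply] at this
      exact this.symm)
    have hJ := DFunLike.congr_fun (Base.dsymm_viewJ G.J (G.c_mem i) hy) v
    simp only [ContinuousLinearMap.comp_apply] at hJ
    show 0 < G.omega _ (dsymm (G.c i) y v) (dsymm (G.c i) y (Base.viewJ G.J (G.c i) y v))
    rw [hJ]
    exact G.omega_pos _ _ hd
  have hmin : ∀ i, ∃ m : ℝ, 0 < m ∧ ∀ y ∈ closedBall (0 : R4) 3, ∀ v ∈ sphere (0 : R4) 1, m ≤ q i (y, v) := by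
    intro i
    have hsub : closedBall (0 : R4) 3 ×ˢ sphere (0 : R4) 1 ⊆ (G.c i).target ×ˢ univ :=
      prod_mono (closedBall_subset_target G i (by norm_num)) (subset_univ _)
    have hne : (closedBall (0 : R4) 3 ×ˢ sphere (0 : R4) 1).Nonempty :=
      (nonempty_closedBall.2 (by norm_num)).prod (NormedSpace.sphere_nonempty.2 zero_le_one)
    obtain ⟨p, hp, hpm⟩ := ((isCompact_closedBall _ _).prod (isCompact_sphere _ _)).exists_isMinOn hne
      ((hq i).mono hsub)
    exact ⟨q i p, hqpos i p.1 p.2 (hsub hp).1 (ne_zero_of_mem_unit_sphere ⟨p.2, hp.2⟩),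
      fun y hy v hv => hpm (mk_mem_prod hy hv)⟩
  choose m hm hmb using hmin
  obtain ⟨A, hA⟩ := Finite.exists_le fun i => (m i)⁻¹
  refine ⟨(max A 1)⁻¹, by positivity, fun i x hx hx3 v => ?_⟩
  set w := Base.dchart (G.c i) x v
  have hv : dsymm (G.c i) (G.c i x) w = v :=
    DFunLike.congr_fun (Base.dsymm_comp_dchart (G.c_mem i) hx) v
  have hyt := (G.c i).map_source hx
  have hJ := DFunLike.congr_fun (Base.dsymm_viewJ G.J (G.c_mem i) hyt) w
  simp only [ContinuousLinearMap.comp_apply, (G.c i).left_inv hx, hv] at hJ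
  have hmet : G.metric x v v = q i (G.c i x, w) := by
    show G.omega x v (G.J x v) = G.omega ((G.c i).symm (G.c i x)) (dsymm (G.c i) (G.c i x) w)
      (dsymm (G.c i) (G.c i x) (Base.viewJ G.J (G.c i) (G.c i x) w))
    rw [hv, hJ, (G.c i).left_inv hx]
  rw [hmet]
  obtain hw | hw := eq_or_ne w 0
  · simp [hw, q]
  have hn : 0 < ‖w‖ := norm_pos_iff.2 hw
  have h1 := hmb i (G.c i x) (by simpa using hx3) (‖w‖⁻¹ • w)
    (by simp [norm_smul, hn.ne'])
  have h2 : q i (G.c i x, ‖w‖⁻¹ • w) = (‖w‖⁻¹) ^ 2 * q i (G.c i x, w) := by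
    simp only [q, map_smul, smul_apply, smul_eq_mul]
    ring
  have h3 : (max A 1)⁻¹ ≤ m i := by
    rw [inv_le_comm₀ (by positivity) (hm i)]
    exact (hA i).trans (le_max_left _ _)
  rw [h2, inv_pow, le_inv_mul_iff₀ (by positivity)] at h1
  calc (max A 1)⁻¹ * ‖w‖ ^ 2 ≤ m i * ‖w‖ ^ 2 := mul_le_mul_of_nonneg_right h3 (sq_nonneg _)
    _ ≤ _ := by linarith

omit [MeasurableSpace X] [BorelSpace X] in
/-- The integrand is bounded below to second order. -/
theorem pos_integrand (i k : Fin G.n) {θ : X → Bil} (hθ : Smooth2 θ) (hinv : G.Inv θ)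
    (hsp : G.SemiPos θ) {y : R4} (hy : y ∈ pieceSet G i k) (hy3 : ‖y‖ ≤ 3) {M B : ℝ}
    (hM : ∀ (σ : ℝ) (w : Par G), |σ| ≤ 1 → ‖w‖ ≤ 1 → ‖jErr G i k (σ, y, w)‖ ≤ M * |σ|)
    (hB : ∀ z, ‖JT G k z‖ ≤ B) {σ : ℝ} (hσ : 0 ≤ σ) (hσ1 : σ ≤ 1) (v' : R4) {w : Par G}
    (hw : ‖w‖ ≤ 1) :
    -(max B 0 ^ 3 * M ^ 2 * (σ ^ 2 * ‖v'‖ ^ 2) * ‖piece G k θ ((fam G i k).F (y, σ • w))‖) ≤
      piece G k θ ((fam G i k).F (y, σ • w)) ((fam G i k).Dy (y, σ • w) v')
        ((fam G i k).Dy (y, σ • w) (JT G i y v')) := by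
  set z := (fam G i k).F (y, σ • w)
  set A := (fam G i k).Dy (y, σ • w)
  by_cases hp0 : piece G k θ z = 0
  · simp [hp0]
  have hz3 : ‖z‖ ≤ 3 := (piece_ne_norm G hp0).1.trans (by norm_num)
  obtain ⟨h1, h2, h3⟩ := piece_form G hθ hinv hsp hz3 (k := k)
  have hJ2 : ∀ u, JT G k z (JT G k z u) = -u := fun u => by
    rw [JT_eq G k hz3]
    exact DFunLike.congr_fun (viewJ_sq G (G.c_mem k)
      (closedBall_subset_target G k (r := 3) (by norm_num) (by simpa using hz3))) u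
  have hlow := form_lower _ _ h1 h2 h3 hJ2 (A v') (A (JT G i y v'))
  have h4 := hM σ w (by rwa [abs_of_nonneg hσ]) hw
  rw [abs_of_nonneg hσ] at h4
  have herr : ‖A (JT G i y v') - JT G k z (A v')‖ ≤ M * σ * ‖v'‖ :=
    (ContinuousLinearMap.le_opNorm (jErr G i k (σ, y, w)) v').trans
      (mul_le_mul_of_nonneg_right h4 (norm_nonneg _))
  refine le_trans ?_ hlow
  refine neg_le_neg ?_
  calc ‖piece G k θ z‖ * ‖JT G k z‖ ^ 3 * ‖A (JT G i y v') - JT G k z (A v')‖ ^ 2
      ≤ ‖piece G k θ z‖ * max B 0 ^ 3 * (M * σ * ‖v'‖) ^ 2 :=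
        mul_le_mul (mul_le_mul_of_nonneg_left
          (pow_le_pow_left₀ (norm_nonneg _) ((hB z).trans (le_max_left _ _)) 3) (norm_nonneg _))
          (pow_le_pow_left₀ (norm_nonneg _) herr 2) (sq_nonneg _) (by positivity)
    _ = _ := by ring

omit [MeasurableSpace X] [BorelSpace X] in
/-- One term of the chart expansion is bounded below to second order. -/
theorem pos_term (i k : Fin G.n) {θ : X → Bil} (hθ : Smooth2 θ) (hinv : G.Inv θ)
    (hsp : G.SemiPos θ) {y : R4} (hy : y ∈ pieceSet G i k) (hy3 : ‖y‖ ≤ 3) {M B : ℝ}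
    (hM : ∀ (σ : ℝ) (w : Par G), |σ| ≤ 1 → ‖w‖ ≤ 1 → ‖jErr G i k (σ, y, w)‖ ≤ M * |σ|)
    (hB : ∀ z, ‖JT G k z‖ ≤ B) {Wm : ℝ} (hW : ∀ w : Par G, wt G w ≤ Wm)
    {σ : ℝ} (hσ : 0 ≤ σ) (hσ1 : σ ≤ 1) (v' : R4) :
    -(max Wm 0 * (max B 0 ^ 3 * M ^ 2) * (σ ^ 2 * ‖v'‖ ^ 2) *
      ∫ w in closedBall (0 : Par G) 1, ‖piece G k θ ((fam G i k).F (y, σ • w))‖) ≤
      avgOp volume (baseSym G i k) σ (piece G k θ) y v' (JT G i y v') := by
  let L : Bil →L[ℝ] ℝ :=
    (ContinuousLinearMap.apply ℝ ℝ (JT G i y v')).comp (ContinuousLinearMap.apply ℝ Cov v')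
  have hint := integrand_integrable (volume : Measure (Par G)) (baseSym G i k) σ
    (piece_smooth G k hθ).continuous y
  show _ ≤ L (avgOp volume (baseSym G i k) σ (piece G k θ) y)
  rw [avgOp, ← L.integral_comp_comm hint]
  set g : Par G → ℝ := fun w => ‖piece G k θ ((fam G i k).F (y, σ • w))‖
  have hgc : Continuous g := ((piece_smooth G k hθ).continuous.comp
    ((fam G i k).F_smooth.continuous.comp (continuous_const.prodMk (continuous_const_smul σ)))).norm
  set Q := max Wm 0 * (max B 0 ^ 3 * M ^ 2) * (σ ^ 2 * ‖v'‖ ^ 2)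
  have hgi : Integrable ((closedBall (0 : Par G) 1).indicator fun w => Q * g w) :=
    (integrable_indicator_iff measurableSet_closedBall).2
      ((hgc.continuousOn.integrableOn_compact (isCompact_closedBall _ _)).const_mul Q)
  refine le_trans (le_of_eq ?_) (integral_mono hgi.neg (L.integrable_comp hint) fun w => ?_)
  · rw [← integral_const_mul, ← integral_indicator measurableSet_closedBall, ← integral_neg]
    rfl
  show -((closedBall (0 : Par G) 1).indicator (fun w => Q * g w) w) ≤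
    L ((cut G i k y * wt G w) • pullOp G i k (σ, y, w) (piece G k θ ((fam G i k).F (y, σ • w))))
  by_cases hw : w ∈ closedBall (0 : Par G) 1
  swap
  · rw [indicator_of_notMem hw, wt_zero G (by simpa using hw)]
    simp
  rw [indicator_of_mem hw]
  show -(Q * g w) ≤ (cut G i k y * wt G w) * piece G k θ ((fam G i k).F (y, σ • w))
    ((fam G i k).Dy (y, σ • w) v') ((fam G i k).Dy (y, σ • w) (JT G i y v'))
  have h := pos_integrand G i k hθ hinv hsp hy hy3 hM hB hσ hσ1 v' (w := w) (by simpa using hw)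
  have hc0 : 0 ≤ cut G i k y * wt G w := mul_nonneg (cut_nonneg G i k y) (wt_nonneg G w)
  have hc1 : cut G i k y * wt G w ≤ max Wm 0 := by
    have hle : cut G i k y ≤ 1 := by
      rw [cut]
      split_ifs
      · exact mul_le_one₀ kappaBump.le_one midBump.nonneg midBump.le_one
      · exact zero_le_one
    exact (mul_le_of_le_one_left (wt_nonneg G w) hle).trans ((hW w).trans (le_max_left _ _))
  set P := max B 0 ^ 3 * M ^ 2 * (σ ^ 2 * ‖v'‖ ^ 2) * g w
  have hP : 0 ≤ P := mul_nonneg (by positivity) (norm_nonneg _)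
  calc -(Q * g w) = -(max Wm 0 * P) := by simp only [Q, P]; ring
    _ ≤ -((cut G i k y * wt G w) * P) := neg_le_neg (mul_le_mul_of_nonneg_right hc1 hP)
    _ ≤ _ := by
      rw [← mul_neg]
      exact mul_le_mul_of_nonneg_left h hc0

theorem pt_pos_avg : ∃ C K δ : ℝ, 1 ≤ K ∧ 0 < δ ∧ δ ≤ sLoc G ∧ ∀ σ, 0 < σ → σ ≤ δ →
    ∀ θ, Smooth2 θ → G.Inv θ → G.SemiPos θ → ∀ x (v : R4),
      -(C * σ ^ 2 * G.avg (K * σ) (G.nrm2 θ) x * G.metric x v v) ≤ avg2 G σ θ x v (G.J x v) := by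
  obtain ⟨m, hm, hmet⟩ := metric_lower G
  choose M hM0 hM using fun p : Fin G.n × Fin G.n => jErr_bound G p.1 p.2
  have hJb : ∀ k, ∃ B, ∀ z, ‖JT G k z‖ ≤ B := fun k =>
    (JT_smooth G k).continuous.bounded_above_of_compact_support
      (HasCompactSupport.intro (isCompact_closedBall (0 : R4) (7 / 2)) fun y hy => by
        show Base.wideBump y • Base.viewJ G.J (G.c k) y = 0
        rw [Base.wideBump_zero hy]
        exact zero_smul ℝ (_ : Endo))
  choose B hB using hJb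
  have hwb : ∃ Wm, ∀ w : Par G, |wt G w| ≤ Wm :=
    (wt_smooth G).continuous.bounded_above_of_compact_support (wtBump G).hasCompactSupport_normed
  obtain ⟨Wm, hWm⟩ := hwb
  choose Cb R d hC0 hR hd hdr hb using fun p : Fin G.n × Fin G.n =>
    (fam G p.1 p.2).exists_ball_bound (volume : Measure (Par G))
  obtain ⟨B2, hB20, hball⟩ := piece_ball_le G
  obtain ⟨K, hK⟩ := Finite.exists_le R
  obtain ⟨Cm, hCm⟩ := Finite.exists_le Cb
  obtain ⟨D, hD⟩ := Finite.exists_le fun p => (d p)⁻¹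
  set K' := max K 1
  have hK1 : 1 ≤ K' := le_max_right _ _
  set E := ∑ p, max (B p.2) 0 ^ 3 * M p ^ 2
  refine ⟨G.n * (max Wm 0 * E * (max Cm 0 * B2 * K' ^ 4)) / m, K', min (max D 1)⁻¹ (sLoc G), hK1,
    lt_min (by positivity) (sLoc_pos G), min_le_right _ _, fun σ hσ hσd θ hθ hinv hsp x v => ?_⟩
  obtain ⟨i, hxi, hx1⟩ := G.c_cover x
  have hx3 : ‖G.c i x‖ ≤ 3 := hx1.trans (by norm_num)
  set y := G.c i x
  set v' := Base.dchart (G.c i) x v
  have hσL : |σ| ≤ sLoc G := by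
    rw [abs_of_pos hσ]; exact hσd.trans (min_le_right _ _)
  have hv : dsymm (G.c i) y v' = v := DFunLike.congr_fun (Base.dsymm_comp_dchart (G.c_mem i) hxi) v
  have hJ := DFunLike.congr_fun (Base.dsymm_viewJ G.J (G.c_mem i) ((G.c i).map_source hxi)) v'
  simp only [ContinuousLinearMap.comp_apply] at hJ
  rw [(G.c i).left_inv hxi, hv] at hJ
  set p := JT G i y v'
  have hJi : dsymm (G.c i) y p = G.J x v := by
    simp only [p]
    rw [JT_eq G i hx3]
    exact hJ
  have hval : avg2 G σ θ x v (G.J x v) =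
      ∑ k, avgOp volume (baseSym G i k) σ (piece G k θ) y v' p := by
    have h := kv_avg G i hσL hθ y
    rw [kv_centre G i _ hx1] at h
    have h2 : view2 (G.c i) (avg2 G σ θ) y v' p = avg2 G σ θ x v (G.J x v) := by
      show avg2 G σ θ ((G.c i).symm y) (dsymm (G.c i) y v') (dsymm (G.c i) y p) = _
      rw [hv, hJi, (G.c i).left_inv hxi]
    rw [← h2, h]
    simp
  rw [hval]
  set I := ∫ z in G.near (K' * σ) x, G.nrm2 θ z ∂G.vol
  have hI : 0 ≤ I := integral_nonneg fun z => Finset.sum_nonneg fun j _ =>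
    mul_nonneg (Base.rho_nonneg G j z) (norm_nonneg _)
  set Z := max Wm 0 * E * σ ^ 2 * ‖v'‖ ^ 2
  have hE0 : 0 ≤ E := Finset.sum_nonneg fun q _ => mul_nonneg (pow_nonneg (le_max_right _ _) 3) (sq_nonneg _)
  have hZ : 0 ≤ Z := by positivity
  have hterm : ∀ k, -(Z * (max Cm 0 / σ ^ 4 * (B2 * I))) ≤
      avgOp volume (baseSym G i k) σ (piece G k θ) y v' p := by
    intro k
    have hZC : 0 ≤ Z * (max Cm 0 / σ ^ 4 * (B2 * I)) := by positivity
    by_cases hc : cut G i k y = 0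
    · have h0 : avgOp volume (baseSym G i k) σ (piece G k θ) y = 0 := by
        simp [avgOp, baseSym, mkSym, hc]
      rw [h0]
      simpa using hZC
    have hy := cut_supp G hc
    obtain ⟨-, hxk, hxk3⟩ := (mem_pieceSet G).1 hy
    rw [(G.c i).left_inv hxi] at hxk hxk3
    have hball' : ∫ w in closedBall (0 : Par G) 1, ‖piece G k θ ((fam G i k).F (y, σ • w))‖ ≤
        max Cm 0 / σ ^ 4 * (B2 * I) := by
      have hσd' : σ ≤ d (i, k) := by
        refine (hσd.trans (min_le_left _ _)).trans ?_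
        rw [inv_le_comm₀ (by positivity) (hd _)]
        exact (hD (i, k)).trans (le_max_left _ _)
      refine (hb (i, k) σ hσ hσd' y (fam_K G i k ▸ hy) (fun z => ‖piece G k θ z‖)
        (piece_smooth G k hθ).continuous.norm fun z => norm_nonneg _).trans ?_
      have hF : (fam G i k).F (y, 0) = G.c k x := by
        rw [fam_F_zero G hy, Base.trans, (G.c i).left_inv hxi]
      rw [hF]
      refine mul_le_mul ?_ ?_ (integral_nonneg fun z => norm_nonneg _) (by positivity)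
      · gcongr
        exact (hCm _).trans (le_max_left _ _)
      · refine le_trans ?_ (hball k θ hθ x hxk hxk3 (K' * σ))
        exact setIntegral_mono_set
          ((piece_smooth G k hθ).continuous.norm.continuousOn.integrableOn_compact
            (isCompact_closedBall _ _)) (ae_of_all _ fun z => norm_nonneg _)
          (closedBall_subset_closedBall (mul_le_mul_of_nonneg_right ((hK _).trans (le_max_left _ _))
            hσ.le)).eventuallyLE
    refine le_trans ?_ (pos_term G i k hθ hinv hsp hy hx3 (fun t w ht hw => hM (i, k) y hy hx3 t w ht hw)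
      (hB k) (fun w => (le_abs_self _).trans (hWm w)) hσ.le
      ((hσd.trans (min_le_right _ _)).trans (sLoc_le_one G)) v')
    refine neg_le_neg ?_
    refine mul_le_mul ?_ hball' (integral_nonneg fun w => norm_nonneg _) hZ
    calc max Wm 0 * (max (B k) 0 ^ 3 * M (i, k) ^ 2) * (σ ^ 2 * ‖v'‖ ^ 2)
        ≤ max Wm 0 * E * (σ ^ 2 * ‖v'‖ ^ 2) :=
          mul_le_mul_of_nonneg_right (mul_le_mul_of_nonneg_left
            (Finset.single_le_sum (f := fun q : Fin G.n × Fin G.n => max (B q.2) 0 ^ 3 * M q ^ 2)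
              (fun q _ => mul_nonneg (pow_nonneg (le_max_right _ _) 3) (sq_nonneg _))
              (Finset.mem_univ (i, k))) (le_max_right _ _)) (by positivity)
      _ = Z := by simp only [Z]; ring
  refine le_trans ?_ (Finset.sum_le_sum fun k _ => hterm k)
  simp only [Finset.sum_neg_distrib, Finset.sum_const, Finset.card_univ, Fintype.card_fin, nsmul_eq_mul]
  refine neg_le_neg ?_
  have hmv : ‖v'‖ ^ 2 ≤ G.metric x v v / m := by
    rw [le_div_iff₀ hm, mul_comm]
    exact hmet i x hxi hx3 v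
  calc (G.n : ℝ) * (Z * (max Cm 0 / σ ^ 4 * (B2 * I)))
      = G.n * (max Wm 0 * E * (max Cm 0 * B2 * K' ^ 4)) * σ ^ 2 * G.avg (K' * σ) (G.nrm2 θ) x * ‖v'‖ ^ 2 := by
        rw [Geo.avg, mul_pow]
        simp only [Z, I]
        field_simp
    _ ≤ G.n * (max Wm 0 * E * (max Cm 0 * B2 * K' ^ 4)) * σ ^ 2 * G.avg (K' * σ) (G.nrm2 θ) x *
        (G.metric x v v / m) := by
        refine mul_le_mul_of_nonneg_left hmv ?_
        have : 0 ≤ G.avg (K' * σ) (G.nrm2 θ) x := mul_nonneg (by positivity) hI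
        positivity
    _ = _ := by ring

end Vale.Agent.P204.Full.Smooth
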