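import Vale.Agent.P204.Full.Smooth.Limit

/-!
A functional continuous in mass on every derivative is integration against a smooth function.
-/

open scoped ContDiff Topology
open MeasureTheory Set Metric Filter

noncomputable section

namespace Vale.Agent.P204.Full.Smooth

theorem pdl_reflect (l : List (Fin 4)) {φ : R4 → ℝ} (hφ : ContDiff ℝ ∞ φ) (z : R4) :
    pdl l (fun x => φ (z - x)) = fun x => (-1 : ℝ) ^ l.length * pdl l φ (z - x) := by
  induction l with
  | nil => simp [pdl]
  | cons i l ih =>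
    funext x
    simp only [pdl, ih]
    have hd := ((((pdl_smooth l hφ).differentiable (by simp)) (z - x)).hasFDerivAt.comp x
      ((hasFDerivAt_id x).const_sub z)).const_mul ((-1 : ℝ) ^ l.length)
    have hd' : fderiv ℝ (fun x => (-1 : ℝ) ^ l.length * pdl l φ (z - x)) x = _ := hd.fderiv
    rw [hd']
    simp [pow_succ]

theorem pdl_hasCompactSupport (l : List (Fin 4)) {φ : R4 → ℝ} (h : HasCompactSupport φ) :
    HasCompactSupport (pdl l φ) := by
  induction l with
  | nil => exact h
  | cons i l ih => exact ih.fderiv_apply ℝ (bvec i)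

/-- Integration against a translated test function. -/
def transl (g : R4 → ℝ) (φ : R4 → ℝ) (z : R4) : ℝ := ∫ x, g x * φ (z - x)

theorem hasFDerivAt_transl {g : R4 → ℝ} (hg : Integrable g) {φ : R4 → ℝ} (hφ : ContDiff ℝ ∞ φ)
    (hs : HasCompactSupport φ) (z : R4) :
    HasFDerivAt (transl g φ) (∫ x, g x • fderiv ℝ φ (z - x)) z := by
  have hD : Continuous (fderiv ℝ φ) := (hφ.fderiv_right (m := ∞) le_rfl).continuous
  obtain ⟨M, hM⟩ := hD.bounded_above_of_compact_support (hs.fderiv ℝ)
  obtain ⟨M0, hM0⟩ := hφ.continuous.bounded_above_of_compact_support hs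
  refine hasFDerivAt_integral_of_dominated_of_fderiv_le (s := univ)
    (F := fun z x => g x * φ (z - x)) (F' := fun z x => g x • fderiv ℝ φ (z - x))
    (bound := fun x => ‖g x‖ * M) univ_mem ?_ ?_ ?_ ?_ (hg.norm.mul_const M) ?_
  · exact Eventually.of_forall fun w =>
      hg.aestronglyMeasurable.mul (hφ.continuous.comp (continuous_sub_left w)).aestronglyMeasurable
  · exact hg.mul_bdd (hφ.continuous.comp (continuous_sub_left z)).aestronglyMeasurable
      (ae_of_all _ fun x => hM0 _)
  · exact hg.aestronglyMeasurable.smul (hD.comp (continuous_sub_left z)).aestronglyMeasurable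
  · exact ae_of_all _ fun x w _ => by
      rw [norm_smul]
      exact mul_le_mul_of_nonneg_left (hM _) (norm_nonneg _)
  · refine ae_of_all _ fun x w _ => ?_
    have h := ((((hφ.differentiable (by simp)) (w - x)).hasFDerivAt).comp w
      ((hasFDerivAt_id w).sub_const x)).const_mul (g x)
    simpa [Function.comp_def, ContinuousLinearMap.comp_id] using h

theorem transl_smooth {g : R4 → ℝ} (hg : Integrable g) (k : ℕ) :
    ∀ {φ : R4 → ℝ}, ContDiff ℝ ∞ φ → HasCompactSupport φ → ContDiff ℝ k (transl g φ) ∧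
      ∀ i z, fderiv ℝ (transl g φ) z (bvec i) = transl g (pdl [i] φ) z := by
  induction k with
  | zero =>
    intro φ hφ hs
    refine ⟨?_, fun i z => ?_⟩
    · rw [Nat.cast_zero, contDiff_zero]
      exact continuous_iff_continuousAt.2 fun z => (hasFDerivAt_transl hg hφ hs z).continuousAt
    · have hD : Continuous (fderiv ℝ φ) := (hφ.fderiv_right (m := ∞) le_rfl).continuous
      obtain ⟨M, hM⟩ := hD.bounded_above_of_compact_support (hs.fderiv ℝ)
      have hint : Integrable fun x => g x • fderiv ℝ φ (z - x) := by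
        refine Integrable.mono' (hg.norm.mul_const M)
          (hg.aestronglyMeasurable.smul (hD.comp (continuous_sub_left z)).aestronglyMeasurable)
          (ae_of_all _ fun x => ?_)
        rw [norm_smul]
        exact mul_le_mul_of_nonneg_left (hM _) (norm_nonneg _)
      rw [(hasFDerivAt_transl hg hφ hs z).fderiv, ContinuousLinearMap.integral_apply hint]
      rfl
  | succ k ih =>
    intro φ hφ hs
    refine ⟨?_, (ih hφ hs).2⟩
    rw [Nat.cast_succ, contDiff_succ_iff_fderiv]
    refine ⟨fun z => (hasFDerivAt_transl hg hφ hs z).differentiableAt, by simp, ?_⟩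
    rw [show fderiv ℝ (transl g φ) = fun z => ∑ i, transl g (pdl [i] φ) z • coord4 i from funext fun z => by
      rw [fderiv_eq_sum_coord4]
      simp_rw [(ih hφ hs).2]]
    exact ContDiff.sum fun i _ =>
      (ih (pdl_smooth [i] hφ) (pdl_hasCompactSupport [i] hs)).1.smul contDiff_const

theorem pdl_transl {g : R4 → ℝ} (hg : Integrable g) {φ : R4 → ℝ} (hφ : ContDiff ℝ ∞ φ)
    (hs : HasCompactSupport φ) (l : List (Fin 4)) :
    pdl l (transl g φ) = transl g (pdl l φ) := by
  induction l with
  | nil => rfl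
  | cons i l ih =>
    funext z
    simp only [pdl, ih]
    exact (transl_smooth hg 0 (pdl_smooth l hφ) (pdl_hasCompactSupport l hs)).2 i z

/-- The test functions, as a subspace. -/
def testFun : Submodule ℝ (R4 → ℝ) where
  carrier := {f | ContDiff ℝ ∞ f ∧ HasCompactSupport f}
  add_mem' h h' := ⟨h.1.add h'.1, h.2.add h'.2⟩
  zero_mem' := ⟨contDiff_const, HasCompactSupport.zero⟩
  smul_mem' c _ h := ⟨h.1.const_smul c, h.2.smul_left (f := fun _ => c)⟩

theorem memLp_test (f : testFun) : MemLp (f : R4 → ℝ) 2 volume :=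
  f.2.1.continuous.memLp_of_hasCompactSupport f.2.2

/-- Test functions in `L²`. -/
def testLp : testFun →ₗ[ℝ] Lp ℝ 2 (volume : Measure R4) where
  toFun f := (memLp_test f).toLp _
  map_add' f g := by rw [← MemLp.toLp_add]; rfl
  map_smul' c f := by simp only [RingHom.id_apply]; rw [← MemLp.toLp_const_smul]; rfl

theorem exists_l2_repr (Λ : (R4 → ℝ) →ₗ[ℝ] ℝ) (C : ℝ)
    (h : ∀ f : testFun, |Λ f| ≤ C * ‖testLp f‖) :
    ∃ g : R4 → ℝ, MemLp g 2 volume ∧ ∀ f : testFun, Λ f = ∫ x, g x * (f : R4 → ℝ) x := by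
  set p := LinearMap.range testLp
  have hwd : ∀ f : testFun, testLp f = 0 → Λ f = 0 := fun f hf => by
    have := h f
    rw [hf, norm_zero, mul_zero] at this
    exact abs_eq_zero.1 (le_antisymm this (abs_nonneg _))
  obtain ⟨S, hS⟩ := LinearMap.exists_rightInverse_of_surjective testLp.rangeRestrict
    (LinearMap.range_rangeRestrict _)
  let Λ0 : p →ₗ[ℝ] ℝ := (Λ.comp testFun.subtype).comp S
  have hS' : ∀ q : p, testLp (S q) = (q : Lp ℝ 2 (volume : Measure R4)) := fun q =>
    congrArg Subtype.val (LinearMap.congr_fun hS q)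
  have hΛ0 : ∀ f : testFun, Λ0 ⟨testLp f, LinearMap.mem_range_self _ f⟩ = Λ f := fun f => by
    have h1 : Λ ((S ⟨testLp f, LinearMap.mem_range_self _ f⟩ - f : testFun) : R4 → ℝ) = 0 :=
      hwd _ (by rw [map_sub, hS', sub_self])
    rw [Submodule.coe_sub, map_sub, sub_eq_zero] at h1
    exact h1
  let Λ1 : StrongDual ℝ p := Λ0.mkContinuous C fun q => by
    rw [Real.norm_eq_abs]
    refine (h (S q)).trans (le_of_eq ?_)
    rw [hS' q]
    rfl
  obtain ⟨Λ2, hext, -⟩ := exists_extension_norm_eq p Λ1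
  set g : Lp ℝ 2 (volume : Measure R4) := (InnerProductSpace.toDual ℝ _).symm Λ2
  refine ⟨g, Lp.memLp g, fun f => ?_⟩
  rw [← hΛ0 f]
  change Λ1 ⟨testLp f, _⟩ = _
  rw [← hext, ← InnerProductSpace.toDual_symm_apply, L2.inner_def]
  refine integral_congr_ae ((memLp_test f).coeFn_toLp.mono fun x hx => ?_)
  simp only [testLp, LinearMap.coe_mk, AddHom.coe_mk, hx]
  simp [g, mul_comm]

theorem exists_smooth_density (Λ : (R4 → ℝ) →ₗ[ℝ] ℝ) {χ : R4 → ℝ} (hχ : ContDiff ℝ ∞ χ)
    (hχs : HasCompactSupport χ)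
    (hloc : ∀ f : R4 → ℝ, ContDiff ℝ ∞ f → HasCompactSupport f → Λ f = Λ (fun x => χ x * f x))
    (hbd : ∀ l, ∃ C, ∀ f : R4 → ℝ, ContDiff ℝ ∞ f → HasCompactSupport f →
      |Λ (pdl l f)| ≤ C * ∫ x, |f x|) :
    ∃ g : R4 → ℝ, ContDiff ℝ ∞ g ∧ tsupport g ⊆ tsupport χ ∧
      ∀ f : R4 → ℝ, ContDiff ℝ ∞ f → HasCompactSupport f → Λ f = ∫ x, g x * f x := by
  obtain ⟨C0, hC0⟩ := hbd []
  obtain ⟨g0, hg0, hrep⟩ := exists_l2_repr Λ (max C0 0 * Real.sqrt (∫ x, χ x ^ 2)) fun f => by
    have hcs : HasCompactSupport fun x => χ x * (f : R4 → ℝ) x := hχs.mul_right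
    rw [hloc f f.2.1 f.2.2]
    refine (hC0 _ (hχ.mul f.2.1) hcs).trans ?_
    rw [mul_assoc]
    refine (mul_le_mul_of_nonneg_right (le_max_left _ _) (integral_nonneg fun _ => abs_nonneg _)).trans
      (mul_le_mul_of_nonneg_left ?_ (le_max_right _ _))
    have hχm : MemLp χ 2 volume := hχ.continuous.memLp_of_hasCompactSupport hχs
    have hnrm : ‖testLp f‖ = Real.sqrt (∫ x, (f : R4 → ℝ) x ^ 2) := by
      rw [norm_eq_sqrt_real_inner, L2.inner_def]
      congr 1
      refine integral_congr_ae ((memLp_test f).coeFn_toLp.mono fun x hx => ?_)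
      simp only [testLp, LinearMap.coe_mk, AddHom.coe_mk, hx]
      simp [pow_two]
    rw [hnrm, ← Real.sqrt_mul (integral_nonneg fun _ => sq_nonneg _)]
    refine Real.le_sqrt_of_sq_le ?_
    have := integral_mul_le_Lp_mul_Lq_of_nonneg (p := 2) (q := 2) (μ := (volume : Measure R4))
      Real.HolderConjugate.two_two (f := fun x => |χ x|) (g := fun x => |(f : R4 → ℝ) x|)
      (ae_of_all _ fun x => abs_nonneg _) (ae_of_all _ fun x => abs_nonneg _)
      (by simpa using hχm.norm) (by simpa using (memLp_test f).norm)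
    simp only [abs_mul, Real.rpow_two, sq_abs, ← Real.sqrt_eq_rpow] at this ⊢
    calc (∫ x, |χ x| * |(f : R4 → ℝ) x|) ^ 2
        ≤ (Real.sqrt (∫ x, χ x ^ 2) * Real.sqrt (∫ x, (f : R4 → ℝ) x ^ 2)) ^ 2 :=
          pow_le_pow_left₀ (integral_nonneg fun _ => mul_nonneg (abs_nonneg _) (abs_nonneg _)) this 2
      _ = _ := by
          rw [mul_pow, Real.sq_sqrt (integral_nonneg fun _ => sq_nonneg _),
            Real.sq_sqrt (integral_nonneg fun _ => sq_nonneg _)]
  let g1 : R4 → ℝ := fun x => g0 x * χ x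
  have hg1 : Integrable g1 := hg0.integrable_mul (q := 2) (hχ.continuous.memLp_of_hasCompactSupport hχs)
  have hrep1 : ∀ f : R4 → ℝ, ContDiff ℝ ∞ f → HasCompactSupport f → Λ f = ∫ x, g1 x * f x :=
    fun f hf hfs => by
      rw [hloc f hf hfs, hrep ⟨fun x => χ x * f x, hχ.mul hf, hχs.mul_right⟩]
      simp [g1, mul_assoc]
  let b : ℕ → ContDiffBump (0 : R4) := fun n =>
    ⟨1 / (2 * ((n : ℝ) + 1)), 1 / ((n : ℝ) + 1), by positivity, by
      apply one_div_lt_one_div_of_lt (by positivity)
      linarith [Nat.cast_nonneg (α := ℝ) n]⟩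
  let u : ℕ → R4 → ℝ := fun n => transl g1 ((b n).normed volume)
  have hb1 : ∀ n, ContDiff ℝ ∞ ((b n).normed volume) := fun n => (b n).contDiff_normed
  have hb2 : ∀ n, HasCompactSupport ((b n).normed volume) := fun n => (b n).hasCompactSupport_normed
  have hu : ∀ n, ContDiff ℝ ∞ (u n) := fun n =>
    contDiff_infty.2 fun k => (transl_smooth hg1 k (hb1 n) (hb2 n)).1
  have hbound : ∀ l, ∃ C, ∀ n z, |pdl l (u n) z| ≤ C := fun l => by
    obtain ⟨C, hC⟩ := hbd l
    refine ⟨C, fun n z => ?_⟩
    have hrs : HasCompactSupport fun x => (b n).normed volume (z - x) :=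
      (hb2 n).comp_homeomorph (Homeomorph.subLeft z)
    have hrc : ContDiff ℝ ∞ fun x => (b n).normed volume (z - x) :=
      (hb1 n).comp (contDiff_const.sub contDiff_id)
    have h := hC _ hrc hrs
    rw [hrep1 _ (pdl_smooth l hrc) (pdl_hasCompactSupport l hrs), pdl_reflect l (hb1 n),
      integral_sub_left_eq_self (fun x => |(b n).normed volume x|) volume z] at h
    simp_rw [abs_of_nonneg ((b n).nonneg_normed _), (b n).integral_normed, mul_one] at h
    rw [pdl_transl hg1 (hb1 n) (hb2 n), transl]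
    refine le_trans (le_of_eq ?_) h
    simp_rw [show ∀ x, g1 x * ((-1 : ℝ) ^ l.length * pdl l ((b n).normed volume) (z - x)) =
      (-1 : ℝ) ^ l.length * (g1 x * pdl l ((b n).normed volume) (z - x)) from fun x => by ring]
    rw [integral_const_mul, abs_mul, abs_pow]
    simp
  have hzero : ∀ n z, (∀ x ∈ tsupport χ, (b n).rOut < dist z x) → u n z = 0 := fun n z hz => by
    simp only [u, transl]
    refine integral_eq_zero_of_ae (ae_of_all _ fun x => ?_)
    show g1 x * _ = 0
    by_cases hx : x ∈ tsupport χ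
    · rw [image_eq_zero_of_notMem_tsupport (f := (b n).normed volume) (x := z - x) (by
        rw [(b n).tsupport_normed_eq]
        simp only [mem_closedBall, dist_zero_right, not_le]
        rw [← dist_eq_norm]
        exact hz x hx), mul_zero]
    · simp [g1, image_eq_zero_of_notMem_tsupport hx]
  choose Cl hCl using fun i : Fin 4 => hbound [i]
  set L := ∑ i, Cl i
  have hlip : ∀ n z z', |u n z - u n z'| ≤ L * ‖z - z'‖ := fun n z z' => by
    simpa using convex_univ.norm_image_sub_le_of_norm_fderiv_le (f := u n) (C := L)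
      (fun x _ => (hu n).differentiable (by simp) x)
      (fun x _ => norm_fderiv_le_of_partials fun i => hCl i n x) (mem_univ z') (mem_univ z)
  have hae : ∀ᵐ z, Tendsto (fun n => u n z) atTop (𝓝 (g1 z)) := by
    have := ContDiffBump.ae_convolution_tendsto_right_of_locallyIntegrable (φ := b) (K := 2)
      (g := g1) (μ := (volume : Measure R4)) (l := atTop) tendsto_one_div_add_atTop_nhds_zero_nat
      (Eventually.of_forall fun n => le_of_eq (by simp [b]; field_simp)) hg1.locallyIntegrable
    filter_upwards [this] with z hz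
    refine hz.congr fun n => ?_
    rw [convolution_eq_swap]
    simp only [u, transl, ContinuousLinearMap.lsmul_apply, smul_eq_mul]
    exact integral_congr_ae (ae_of_all _ fun x => mul_comm _ _)
  have hdense := Measure.dense_of_ae hae
  have hL0 : 0 ≤ L := Finset.sum_nonneg fun i _ => (abs_nonneg _).trans (hCl i 0 0)
  have hcau : ∀ ε > 0, ∃ N, ∀ n ≥ N, ∀ m ≥ N, ∀ z, |u n z - u m z| ≤ ε := by
    intro ε hε
    set r := ε / (3 * L + 1) with hr
    have hr0 : 0 < r := by positivity
    have hK : IsCompact (cthickening 1 (tsupport χ)) := hχs.cthickening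
    obtain ⟨t, htD, htf, hcov⟩ := hK.elim_finite_subcover_image
      (b := {z | Tendsto (fun n => u n z) atTop (𝓝 (g1 z))}) (c := fun d => ball d r)
      (fun d _ => isOpen_ball) fun z _ => by
        obtain ⟨d, hd1, hd2⟩ := hdense.exists_dist_lt z hr0
        exact mem_biUnion hd1 (mem_ball.2 hd2)
    have hN : ∀ d ∈ t, ∃ N, ∀ n ≥ N, ∀ m ≥ N, |u n d - u m d| ≤ ε / 3 := fun d hd => by
      obtain ⟨N, hN⟩ := Metric.cauchySeq_iff.1 (htD hd : Tendsto _ _ _).cauchySeq (ε / 3) (by positivity)
      exact ⟨N, fun n hn m hm => by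
        have := hN n hn m hm
        rw [Real.dist_eq] at this
        exact this.le⟩
    choose! N hN using hN
    refine ⟨∑ d ∈ htf.toFinset, N d, fun n hn m hm z => ?_⟩
    by_cases hz : z ∈ cthickening 1 (tsupport χ)
    · obtain ⟨d, hd, hzd⟩ := mem_iUnion₂.1 (hcov hz)
      have hNd : N d ≤ ∑ d ∈ htf.toFinset, N d :=
        Finset.single_le_sum (fun j _ => Nat.zero_le (N j)) (htf.mem_toFinset.2 hd)
      have h1 : ‖z - d‖ ≤ r := by rw [← dist_eq_norm]; exact (mem_ball.1 hzd).le
      have h2 : L * r ≤ ε / 3 := by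
        rw [hr, mul_div_assoc', div_le_iff₀ (by positivity)]
        nlinarith
      have a1 := (hlip n z d).trans (mul_le_mul_of_nonneg_left h1 hL0)
      have a2 := (hlip m z d).trans (mul_le_mul_of_nonneg_left h1 hL0)
      have a3 := hN d hd n (hNd.trans hn) m (hNd.trans hm)
      have a4 := abs_sub_le (u n z) (u n d) (u m z)
      have a5 := abs_sub_le (u n d) (u m d) (u m z)
      rw [abs_sub_comm (u m d) (u m z)] at a5
      linarith
    · have hz' : ∀ k, u k z = 0 := fun k => hzero k z fun x hx => by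
        have hlt : 1 < dist z x := not_le.1 fun h => hz (mem_cthickening_of_dist_le z x 1 _ hx h)
        have : (b k).rOut ≤ 1 := by
          show 1 / ((k : ℝ) + 1) ≤ 1
          rw [div_le_one (by positivity)]
          linarith [Nat.cast_nonneg (α := ℝ) k]
        linarith
      simp [hz', hε.le]
  have hlim : ∀ z, ∃ a, Tendsto (fun n => u n z) atTop (𝓝 a) := fun z => by
    refine cauchySeq_tendsto_of_complete (Metric.cauchySeq_iff.2 fun ε hε => ?_)
    obtain ⟨N, hN⟩ := hcau (ε / 2) (by positivity)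
    exact ⟨N, fun m hm n hn => by rw [Real.dist_eq]; linarith [hN m hm n hn z]⟩
  choose g hg using hlim
  refine ⟨g, smooth_limit hu hcau hbound hg, closure_minimal (fun z hz => ?_) (isClosed_tsupport χ),
    fun f hf hfs => ?_⟩
  · by_contra hzT
    obtain ⟨ρ, hρ, hρsub⟩ := Metric.isOpen_iff.1 (isClosed_tsupport χ).isOpen_compl z hzT
    refine hz (tendsto_nhds_unique (hg z) (tendsto_const_nhds.congr' ?_))
    filter_upwards [tendsto_one_div_add_atTop_nhds_zero_nat.eventually_lt_const hρ] with n hn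
    refine (hzero n z fun x hx => ?_).symm
    refine lt_of_lt_of_le (show (b n).rOut < ρ from hn) (not_lt.1 fun h => ?_)
    exact hρsub (mem_ball'.2 h) hx
  · rw [hrep1 f hf hfs]
    refine integral_congr_ae ?_
    filter_upwards [hae] with z hz
    rw [tendsto_nhds_unique hz (hg z)]

end Vale.Agent.P204.Full.Smooth
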