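import Vale.Agent.P204.Full.Smooth.NormBounds
import Vale.Agent.P204.Full.Smooth.Repr

/-!
The transpose of the averaged pull-back sends bounded functionals to smooth forms.
-/

open scoped ContDiff Topology Manifold
open MeasureTheory Set Metric Filter

noncomputable section

namespace Vale.Agent.P204.Full.Smooth

universe u

theorem exists_jet_uniform {W : Type} [NormedAddCommGroup W] [NormedSpace ℝ W] [FiniteDimensional ℝ W]
    [MeasurableSpace W] [BorelSpace W] (μ : Measure W) [μ.IsAddHaarMeasure] (Φ : Fam W) :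
    ∃ δ : ℝ, 0 < δ ∧ δ ≤ Φ.rad ∧ ∀ (j : ℕ) {V V' : Type} [NormedAddCommGroup V] [NormedSpace ℝ V]
      [NormedAddCommGroup V'] [NormedSpace ℝ V'] [CompleteSpace V'] (s : Sym Φ V V'), ∀ σ, 0 < σ →
      σ ≤ δ → ∃ C : ℝ, 0 ≤ C ∧ ∀ f : R4 → V, ContDiff ℝ ∞ f → HasCompactSupport f → ∀ y,
          ‖iteratedFDeriv ℝ j (avgOp μ s σ f) y‖ ≤ C * ∫ x, ‖f x‖ := by
  obtain ⟨C, R, δ, hC0, hR, hδ, hδr, hb⟩ := Φ.exists_avgOp_bound μ
  refine ⟨δ, hδ, hδr, fun j => ?_⟩
  induction j with
  | zero =>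
    intro V V' _ _ _ _ _ s σ hσ hσd
    obtain ⟨M, hM0, hM⟩ := s.exists_bound
    refine ⟨M * (C / σ ^ 4), by positivity, fun f hf hfs y => ?_⟩
    rw [norm_iteratedFDeriv_zero]
    refine (hb s σ M hσ hσd (fun y w => hM σ y w (by
      rw [abs_of_pos hσ]; linarith [Φ.rad_le])) f hf.continuous y).trans ?_
    exact mul_le_mul_of_nonneg_left (setIntegral_le_integral
      (hf.continuous.norm.integrable_of_hasCompactSupport hfs.norm)
      (ae_of_all _ fun x => norm_nonneg _)) (by positivity)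
  | succ j ih =>
    intro V V' _ _ _ _ _ s σ hσ hσd
    obtain ⟨D, hD0, hD⟩ := ih s.down σ hσ hσd
    refine ⟨D / σ, by positivity, fun f hf hfs y => ?_⟩
    have hσr : |σ| ≤ Φ.rad := by rw [abs_of_pos hσ]; linarith
    have := hD f hf hfs y
    rw [← smul_fderiv_avgOp s hσr hf, iteratedFDeriv_const_smul_apply
      (((avgOp_smooth μ s σ hf).fderiv_right (m := ∞) le_rfl).of_le (mod_cast le_top)).contDiffAt,
      norm_smul, norm_iteratedFDeriv_fderiv, Real.norm_eq_abs, abs_of_pos hσ] at this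
    rw [div_mul_eq_mul_div, le_div_iff₀' hσ]
    exact this

/-- A derivative of the argument can be moved onto the coefficient. -/
theorem exists_move_pdl {W : Type} [NormedAddCommGroup W] [NormedSpace ℝ W] [FiniteDimensional ℝ W]
    [MeasurableSpace W] [BorelSpace W] (μ : Measure W) [μ.IsAddHaarMeasure] {Φ : Fam W} {V' : Type}
    [NormedAddCommGroup V'] [NormedSpace ℝ V'] {σ : ℝ} (hσ : σ ≠ 0) (hσr : |σ| ≤ Φ.rad)
    (m : List (Fin 4)) : ∀ s : Sym Φ ℝ V', ∃ (c : ℝ) (t : Sym Φ ℝ V'), ∀ f : R4 → ℝ,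
      ContDiff ℝ ∞ f → avgOp μ s σ (pdl m f) = c • avgOp μ t σ f := by
  induction m with
  | nil => exact fun s => ⟨1, s, fun f _ => by simp [pdl]⟩
  | cons i m ih =>
    intro s
    let b : Sym Φ (R4 →L[ℝ] ℝ) V' :=
      s.mulRight (fun _ => ContinuousLinearMap.apply ℝ ℝ (bvec i)) contDiff_const
    obtain ⟨c, t, ht⟩ := ih b.red
    refine ⟨σ⁻¹ * c, t, fun f hf => ?_⟩
    have h1 : avgOp μ s σ (pdl (i :: m) f) = avgOp μ b σ (fderiv ℝ (pdl m f)) := rfl
    rw [h1, ← smul_smul, ← ht f hf, ← smul_avgOp_fderiv b hσr (pdl_smooth m hf), smul_smul,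
      inv_mul_cancel₀ hσ, one_smul]

/-- The dual of the pairing of `top22` on basis bivectors. -/
def dualPair (a b : Fin 4) : Bil :=
  if a = 0 ∧ b = 1 then wedgeCov (coord4 2) (coord4 3)
  else if a = 0 ∧ b = 2 then wedgeCov (coord4 3) (coord4 1)
  else if a = 0 ∧ b = 3 then wedgeCov (coord4 1) (coord4 2)
  else if a = 1 ∧ b = 0 then wedgeCov (coord4 3) (coord4 2)
  else if a = 1 ∧ b = 2 then wedgeCov (coord4 0) (coord4 3)
  else if a = 1 ∧ b = 3 then wedgeCov (coord4 2) (coord4 0)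
  else if a = 2 ∧ b = 0 then wedgeCov (coord4 1) (coord4 3)
  else if a = 2 ∧ b = 1 then wedgeCov (coord4 3) (coord4 0)
  else if a = 2 ∧ b = 3 then wedgeCov (coord4 0) (coord4 1)
  else if a = 3 ∧ b = 0 then wedgeCov (coord4 2) (coord4 1)
  else if a = 3 ∧ b = 1 then wedgeCov (coord4 0) (coord4 2)
  else if a = 3 ∧ b = 2 then wedgeCov (coord4 1) (coord4 0)
  else 0

theorem isAlt_ite {p : Prop} [Decidable p] {a b : Bil} (ha : IsAlt a) (hb : IsAlt b) :
    IsAlt (if p then a else b) := by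
  by_cases h : p <;> simp [h, ha, hb]

theorem isAlt_dualPair (a b : Fin 4) : IsAlt (dualPair a b) := by
  unfold dualPair
  repeat' (first | exact Base.isAlt_wedgeCov _ _ | exact isAlt_zero | apply isAlt_ite)

theorem top22_dualPair {b : Bil} (hb : IsAlt b) (i j : Fin 4) :
    top22 (dualPair i j) b = b (bvec i) (bvec j) := by
  have h := fun p q : Fin 4 => hb (bvec p) (bvec q)
  have hs : ∀ p : Fin 4, b (bvec p) (bvec p) = 0 := fun p => Base.isAlt_self hb _
  simp only [bvec] at h hs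
  fin_cases i <;> fin_cases j <;>
    simp [dualPair, top22, Base.wedgeCov_apply, coord4, bvec, PiLp.proj_apply, Pi.single_apply] <;>
    first
      | exact (hs _).symm
      | exact hs _
      | linarith [h 0 1, h 0 2, h 0 3, h 1 2, h 1 3, h 2 3, hs 0, hs 1, hs 2, hs 3]

theorem bil_decomp {b : Bil} (hb : IsAlt b) :
    b = ∑ p : Fin 4 × Fin 4, (2⁻¹ * b (bvec p.1) (bvec p.2)) • wedgeCov (coord4 p.1) (coord4 p.2) := by
  ext u v
  simp only [sum_apply, smul_apply, smul_eq_mul, Base.wedgeCov_apply]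
  rw [Base.alt_expand hb u v, Fintype.sum_prod_type]
  simp only [Fin.sum_univ_four, coord4, PiLp.proj_apply, Base.isAlt_self hb,
    hb (bvec 1) (bvec 0), hb (bvec 2) (bvec 0), hb (bvec 3) (bvec 0), hb (bvec 2) (bvec 1),
    hb (bvec 3) (bvec 1), hb (bvec 3) (bvec 2)]
  ring

variable {X : Type u} [TopologicalSpace X] [T2Space X] [CompactSpace X] [ChartedSpace R4 X]
  [IsManifold 𝓘(ℝ, R4) ∞ X] [MeasurableSpace X] [BorelSpace X] (G : Geo X)

omit [MeasurableSpace X] [BorelSpace X] in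
theorem hsum_le_sup (N : ℕ) : ∃ C : ℝ, 0 ≤ C ∧ ∀ η : X → Bil, Smooth2 η → ∀ B : ℝ,
    (∀ i, ∀ l, l ≤ N → ∀ y, ‖iteratedFDeriv ℝ l (Base.kv G i η) y‖ ≤ B) → G.hsum N η ≤ C * B := by
  set V := volume.real (closedBall (0 : R4) 3)
  refine ⟨∑ _l ∈ Finset.range (N + 1), ∑ _i : Fin G.n, Real.sqrt V, by positivity, fun η hη B hB => ?_⟩
  rw [Finset.sum_mul, Geo.hsum]
  refine Finset.sum_le_sum fun l hl => ?_
  rw [Base.hn_eq, Finset.sum_mul]
  refine Finset.sum_le_sum fun i _ => ?_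
  have hl' : l ≤ N := by have := Finset.mem_range.1 hl; omega
  have hB0 : 0 ≤ B := (norm_nonneg _).trans (hB i l hl' 0)
  have hsupp : ∀ y ∉ closedBall (0 : R4) 3, iteratedFDeriv ℝ l (Base.kv G i η) y = 0 := fun y hy => by
    by_contra h
    exact hy (Base.ts_kv G i η (support_iteratedFDeriv_subset l h))
  show Real.sqrt _ ≤ _
  rw [show Real.sqrt V * B = Real.sqrt (V * B ^ 2) by
    rw [Real.sqrt_mul measureReal_nonneg, Real.sqrt_sq hB0]]
  refine Real.sqrt_le_sqrt ?_
  rw [← setIntegral_eq_integral_of_forall_compl_eq_zero (s := closedBall (0 : R4) 3)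
    fun y hy => by simp [hsupp y hy]]
  refine le_trans (setIntegral_mono_on (g := fun _ => B ^ 2)
    ((Base.int_sq (Base.cd_kv G hη i) (Base.cs_kv G i η) l).integrableOn)
    (integrableOn_const (isCompact_closedBall _ _).measure_lt_top.ne) measurableSet_closedBall
    fun y _ => pow_le_pow_left₀ (norm_nonneg _) (hB i l hl' y) 2) (le_of_eq ?_)
  simp [V]

theorem pull_smul_add (A : Endo) (r : ℝ) (a b : Bil) :
    r • pullBil A (a + b) = r • pullBil A a + r • pullBil A b := by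
  rw [pullBil_add]
  exact smul_add (M := ℝ) (A := Bil) r _ _

theorem pull_smul_test (A : Endo) (r q k' t : ℝ) (E : Bil) :
    r • pullBil A ((k' * (q * t)) • E) = q • (r • pullBil A ((k' * t) • E)) := by
  rw [pullBil_smul, pullBil_smul, smul_smul, smul_smul, smul_smul]
  congr 1
  ring

/-- The scalar functional attached to a chart and a bivector. -/
def chartFun (L : (X → Bil) →ₗ[ℝ] ℝ) (T : (X → Bil) →ₗ[ℝ] (X → Bil)) (k : Fin G.n) (E : Bil) :
    (R4 → ℝ) →ₗ[ℝ] ℝ where
  toFun f := L (T fun x => G.rho k x • push2 (G.c k) (fun z => (kappaBump z * f z) • E) x)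
  map_add' f g := by
    rw [← map_add, ← map_add]
    congr 2
    funext x
    simp only [Pi.add_apply, push2]
    split_ifs
    · simp only [mul_add, add_smul]
      exact pull_smul_add _ _ _ _
    · simp
  map_smul' r f := by
    simp only [RingHom.id_apply]
    rw [← map_smul, ← map_smul]
    congr 2
    funext x
    simp only [Pi.smul_apply, push2]
    split_ifs
    · exact pull_smul_test _ _ _ _ _ _
    · simp

omit [CompactSpace X] [MeasurableSpace X] [BorelSpace X] in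
theorem push_smooth (k : Fin G.n) {h : R4 → Bil} (hh : ContDiff ℝ ∞ h)
    (hsupp : ∀ z, z ∉ closedBall (0 : R4) 3 → h z = 0) (halt : ∀ z, IsAlt (h z)) :
    Smooth2 (push2 (G.c k) h) ∧ ∀ y ∈ (G.c k).target, view2 (G.c k) (push2 (G.c k) h) y = h y := by
  have hts : tsupport h ⊆ closedBall (0 : R4) 3 :=
    closure_minimal (fun z hz => by_contra fun hn => hz (hsupp z hn)) isClosed_closedBall
  exact Base.push2_smooth (G.c_mem k) halt hh
    ((isCompact_closedBall _ _).of_isClosed_subset (isClosed_tsupport h) hts)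
    (hts.trans (closedBall_subset_target G k (by norm_num)))

omit [MeasurableSpace X] [BorelSpace X] in
theorem test_smooth (k : Fin G.n) {E : Bil} (hE : IsAlt E) {f : R4 → ℝ} (hf : ContDiff ℝ ∞ f) :
    Smooth2 (push2 (G.c k) fun z => (kappaBump z * f z) • E) ∧
      ∀ y ∈ (G.c k).target, view2 (G.c k) (push2 (G.c k) fun z => (kappaBump z * f z) • E) y =
        (kappaBump y * f y) • E :=
  push_smooth G k (ContDiff.smul (F := Bil) (kappaBump.contDiff.mul hf) contDiff_const)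
    (fun z hz => by simp [Base.kappa_zero hz]) fun z => hE.smul _

/-- The coefficient of the scalar functional in the chart `i`. -/
def testSym (i k : Fin G.n) (E : Bil) : Sym (fam G i k) ℝ Bil :=
  (baseSym G i k).mulRight
    (fun p => (rhoView G k ((fam G i k).F (p.2.1, p.1 • p.2.2)) *
      (kappaBump ((fam G i k).F (p.2.1, p.1 • p.2.2)) * kappaBump ((fam G i k).F (p.2.1, p.1 • p.2.2)))) •
        (ContinuousLinearMap.id ℝ ℝ).smulRight E)
    (ContDiff.smul (F := ℝ →L[ℝ] Bil) (((rhoView_smooth G k).comp ((fam G i k).F_smooth.comp contDiff_scaled)).mul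
      ((kappaBump.contDiff.comp ((fam G i k).F_smooth.comp contDiff_scaled)).mul
        (kappaBump.contDiff.comp ((fam G i k).F_smooth.comp contDiff_scaled)))) contDiff_const)

theorem coef_apply (A : Bil →L[ℝ] Bil) (r t : ℝ) (E : Bil) :
    (A.comp (r • (ContinuousLinearMap.id ℝ ℝ).smulRight E)) t = A ((r * t) • E) := by
  show A (r • (t • E)) = _
  rw [smul_smul]

omit [MeasurableSpace X] [BorelSpace X] in
theorem piece_test (k : Fin G.n) {E : Bil} (hE : IsAlt E) {f : R4 → ℝ} (hf : ContDiff ℝ ∞ f) (z : R4) :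
    piece G k (push2 (G.c k) fun w => (kappaBump w * f w) • E) z =
      (rhoView G k z * (kappaBump z * kappaBump z) * f z) • E := by
  by_cases hz : z ∈ closedBall (0 : R4) 3
  · rw [piece, Base.kv, (test_smooth G k hE hf).2 z (closedBall_subset_target G k (by norm_num) hz),
      smul_smul, smul_smul]
    congr 1
    ring
  · simp [piece, Base.kv, Base.kappa_zero hz]

omit [MeasurableSpace X] [BorelSpace X] in
theorem kv_test (i k : Fin G.n) {σ : ℝ} (hσL : |σ| ≤ sLoc G) {E : Bil} (hE : IsAlt E) {f : R4 → ℝ}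
    (hf : ContDiff ℝ ∞ f) :
    Base.kv G i (avg2 G σ fun x => G.rho k x • push2 (G.c k) (fun z => (kappaBump z * f z) • E) x) =
      avgOp volume (testSym G i k E) σ f := by
  rw [kv_avg_piece G i k hσL (test_smooth G k hE hf).1]
  funext y
  rw [avgOp, avgOp]
  refine integral_congr_ae (ae_of_all _ fun w => ?_)
  dsimp only
  rw [piece_test G k hE hf]
  exact (coef_apply ((baseSym G i k).a (σ, y, w)) _ _ E).symm

theorem chartFun_bound (T : (X → Bil) →ₗ[ℝ] (X → Bil)) (L : (X → Bil) →ₗ[ℝ] ℝ) {σ : ℝ} (hσ : 0 < σ)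
    (hσL : |σ| ≤ sLoc G) (hT : ∀ θ, Smooth2 θ → T θ = avg2 G σ θ) {N : ℕ} {CL : ℝ}
    (hCL : ∀ θ, Smooth2 θ → |L θ| ≤ CL * G.hsum N θ) (k : Fin G.n) {E : Bil} (hE : IsAlt E)
    (l : List (Fin 4))
    (hjet : ∀ (i : Fin G.n) (m : ℕ) (s : Sym (fam G i k) ℝ Bil), ∃ C : ℝ, 0 ≤ C ∧
      ∀ f : R4 → ℝ, ContDiff ℝ ∞ f → HasCompactSupport f → ∀ y,
        ‖iteratedFDeriv ℝ m (avgOp volume s σ f) y‖ ≤ C * ∫ x, ‖f x‖) :
    ∃ C, ∀ f : R4 → ℝ, ContDiff ℝ ∞ f → HasCompactSupport f →
      |chartFun G L T k E (pdl l f)| ≤ C * ∫ x, |f x| := by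
  obtain ⟨CS, hCS0, hCS⟩ := hsum_le_sup G N
  choose c t ht using fun i : Fin G.n => exists_move_pdl (volume : Measure (Par G)) hσ.ne'
    (hσL.trans (sLoc_le_rad G i k)) l (testSym G i k E)
  choose C hC0 hC using fun q : Fin G.n × Fin (N + 1) => hjet q.1 q.2 (t q.1)
  set S := ∑ q : Fin G.n × Fin (N + 1), |c q.1| * C q
  refine ⟨max CL 0 * (CS * S), fun f hf hfs => ?_⟩
  have hs := (test_smooth G k hE (pdl_smooth l hf)).1
  have hsr := Base.smul2 (Base.rho_smooth G k) hs
  show |L (T _)| ≤ _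
  rw [hT _ hsr]
  refine (hCL _ (avg2_smooth G σ hsr)).trans ?_
  refine (mul_le_mul_of_nonneg_right (le_max_left CL 0) (hsum_nonneg G N _)).trans ?_
  rw [mul_assoc, mul_assoc]
  refine mul_le_mul_of_nonneg_left (hCS _ (avg2_smooth G σ hsr) _ fun i m hm y => ?_) (le_max_right _ _)
  rw [kv_test G i k hσL hE (pdl_smooth l hf), ht i f hf, iteratedFDeriv_const_smul_apply
    ((avgOp_smooth volume (t i) σ hf).of_le (mod_cast le_top)).contDiffAt, norm_smul, Real.norm_eq_abs]
  refine (mul_le_mul_of_nonneg_left (hC (i, ⟨m, by omega⟩) f hf hfs y) (abs_nonneg _)).trans ?_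
  rw [← mul_assoc]
  refine mul_le_mul_of_nonneg_right ?_ (integral_nonneg fun _ => norm_nonneg _)
  exact Finset.single_le_sum (f := fun q : Fin G.n × Fin (N + 1) => |c q.1| * C q)
    (fun q _ => mul_nonneg (abs_nonneg _) (hC0 q)) (Finset.mem_univ (i, ⟨m, by omega⟩))

/-- The pairing of one pushed piece with a form. -/
theorem pair_piece (T : (X → Bil) →ₗ[ℝ] (X → Bil)) (L : (X → Bil) →ₗ[ℝ] ℝ) (k : Fin G.n) {θ : X → Bil}
    (hθ : Smooth2 θ) (g : Fin 4 × Fin 4 → R4 → ℝ) (hg : ∀ p, ContDiff ℝ ∞ (g p))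
    (hgr : ∀ p (f : R4 → ℝ), ContDiff ℝ ∞ f → HasCompactSupport f →
      chartFun G L T k (wedgeCov (coord4 p.1) (coord4 p.2)) f = ∫ x, g p x * f x)
    (h : R4 → Bil) (hh : ContDiff ℝ ∞ h) (hh0 : ∀ z, z ∉ closedBall (0 : R4) 3 → h z = 0)
    (hha : ∀ z, IsAlt (h z))
    (hh' : ∀ y, h y = ∑ p : Fin 4 × Fin 4, (2⁻¹ * (g p y * kappaBump y)) • dualPair p.1 p.2) :
    ∫ x, G.W x (push2 (G.c k) h x) (θ x) ∂G.vol = L (T fun x => G.rho k x • θ x) := by
  have hpush := push_smooth G k hh hh0 hha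
  have hint : Integrable (fun x => G.W x (push2 (G.c k) h x) (θ x)) G.vol :=
    Base.pair_integrable G (Base.smooth_cont hpush.1) (Base.smooth_cont hθ)
  have hsupp : ∀ x, G.W x (push2 (G.c k) (h) x) (θ x) ≠ 0 → x ∈ (G.c k).source := fun x hx =>
    by_contra fun hn => hx (by
      have h0 : push2 (G.c k) (h) x = 0 := if_neg hn
      simp [h0, Geo.W, top22])
  rw [(Base.vol_chart G k (hint) hsupp).2]
  have hval : ∀ y ∈ (G.c k).target,
      G.W ((G.c k).symm y) (push2 (G.c k) (h) ((G.c k).symm y)) (θ ((G.c k).symm y)) * Base.D G k y =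
        top22 (h y) (view2 (G.c k) θ y) := fun y hy => by
    obtain ⟨hne, heq⟩ := Base.W_view G (G.c_mem k) (push2 (G.c k) (h)) θ hpush.1.1 hθ.1 hy
    rw [heq, hpush.2 y hy]
    exact div_mul_cancel₀ _ hne
  rw [setIntegral_congr_fun (G.c k).open_target.measurableSet hval,
    setIntegral_eq_integral_of_forall_compl_eq_zero fun y hy => by
      rw [hh0 y fun hy' => hy (closedBall_subset_target G k (by norm_num) hy')]
      simp [top22]]
  let c : Fin 4 × Fin 4 → R4 → ℝ := fun p y => 2⁻¹ * Base.kv G k θ y (bvec p.1) (bvec p.2)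
  have hc : ∀ p, ContDiff ℝ ∞ (c p) := fun p =>
    contDiff_const.mul (((Base.cd_kv G hθ k).clm_apply contDiff_const).clm_apply contDiff_const)
  have hcs : ∀ p, HasCompactSupport (c p) := fun p =>
    HasCompactSupport.intro (isCompact_closedBall (0 : R4) 3) fun y hy => by
      simp [c, Base.kv, Base.kappa_zero hy]
  have htop : ∀ y, top22 (h y) (view2 (G.c k) θ y) = ∑ p, g p y * c p y := by
    intro y
    have halt : IsAlt (view2 (G.c k) θ y) := Base.isAlt_view2 hθ.1 _ _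
    let f : Bil →+ ℝ := AddMonoidHom.mk' (fun b => top22 b (view2 (G.c k) θ y))
      fun a b => top22_add_left a b _
    show f (h y) = _
    rw [hh' y, map_sum]
    refine Finset.sum_congr rfl fun p _ => ?_
    show top22 ((2⁻¹ * (g p y * kappaBump y)) • dualPair p.1 p.2) (view2 (G.c k) θ y) = _
    rw [top22_smul_left, top22_dualPair halt]
    simp only [c, Base.kv, smul_apply, smul_eq_mul]
    ring
  simp only [htop]
  have hi : ∀ p, Integrable fun y => g p y * c p y := fun p =>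
    ((hg p).continuous.mul (hc p).continuous).integrable_of_hasCompactSupport (hcs p).mul_left
  rw [integral_finsetSum _ fun p _ => hi p]
  simp only [← fun p => hgr p (c p) (hc p) (hcs p)]
  show ∑ p, L (T _) = _
  rw [← map_sum, ← map_sum]
  congr 2
  funext x
  simp only [Finset.sum_apply, ← Finset.smul_sum]
  by_cases hρ : G.rho k x = 0
  · simp [hρ]
  congr 1
  obtain ⟨hx, hx2⟩ := Base.rho_supp G k x hρ
  have hx2' : G.c k x ∈ closedBall (0 : R4) 2 := by simpa using hx2.le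
  simp only [Base.push2_pos _ hx]
  let P : Bil →+ Bil := AddMonoidHom.mk' (pullBil (Base.dchart (G.c k) x)) fun a b => rfl
  show ∑ p, P _ = _
  rw [← map_sum]
  show pullBil _ _ = _
  have hdec := bil_decomp (Base.isAlt_view2 hθ.1 (G.c k) (G.c k x))
  have hsum : ∑ p, (kappaBump (G.c k x) * c p (G.c k x)) • wedgeCov (coord4 p.1) (coord4 p.2) = view2 (G.c k) θ (G.c k x) := by
    conv_rhs => rw [hdec]
    simp only [c, Base.kv, Base.kappa_one hx2', one_mul]
    rw [one_smul]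
  rw [hsum, view2, (G.c k).left_inv hx, ← Base.pullBil_comp, Base.dsymm_comp_dchart (G.c_mem k) hx]
  rfl

theorem exists_transpose : ∃ δ : ℝ, 0 < δ ∧ δ ≤ sLoc G ∧ ∀ σ, 0 < σ → σ ≤ δ →
    ∀ T : (X → Bil) →ₗ[ℝ] (X → Bil), (∀ θ, Smooth2 θ → T θ = avg2 G σ θ) →
      ∀ L : (X → Bil) →ₗ[ℝ] ℝ,
        (∃ (N : ℕ) (C : ℝ), ∀ θ, Smooth2 θ → |L θ| ≤ C * G.hsum N θ) →
          ∃ F, Smooth2 F ∧ ∀ θ, Smooth2 θ → G.pair F θ = L (T θ) := by
  choose d hd hdr hjet using fun p : Fin G.n × Fin G.n =>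
    exists_jet_uniform (volume : Measure (Par G)) (fam G p.1 p.2)
  obtain ⟨D, hD⟩ := Finite.exists_le fun p => (d p)⁻¹
  refine ⟨min (max D 1)⁻¹ (sLoc G), lt_min (by positivity) (sLoc_pos G), min_le_right _ _,
    fun σ hσ hσd T hT L hL => ?_⟩
  obtain ⟨N, CL, hCL⟩ := hL
  have hσL : |σ| ≤ sLoc G := by rw [abs_of_pos hσ]; exact hσd.trans (min_le_right _ _)
  have hσp : ∀ p, σ ≤ d p := fun p => by
    refine (hσd.trans (min_le_left _ _)).trans ?_
    rw [inv_le_comm₀ (by positivity) (hd p)]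
    exact (hD p).trans (le_max_left _ _)
  let E : Fin 4 × Fin 4 → Bil := fun p => wedgeCov (coord4 p.1) (coord4 p.2)
  have hE : ∀ p, IsAlt (E p) := fun p => Base.isAlt_wedgeCov _ _
  let Λ := fun k p => chartFun G L T k (E p)
  have hbound : ∀ k p l, ∃ C, ∀ f : R4 → ℝ, ContDiff ℝ ∞ f → HasCompactSupport f →
      |Λ k p (pdl l f)| ≤ C * ∫ x, |f x| := fun k p l =>
    chartFun_bound G T L hσ hσL hT hCL k (hE p) l fun i m s => hjet (i, k) m s σ hσ (hσp _)
  have hloc : ∀ k p (f : R4 → ℝ), ContDiff ℝ ∞ f → HasCompactSupport f →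
      Λ k p f = Λ k p fun x => kappaBump x * f x := by
    intro k p f _ _
    show L (T _) = L (T _)
    congr 2
    funext x
    by_cases hρ : G.rho k x = 0
    · simp [hρ]
    obtain ⟨hx, hx2⟩ := Base.rho_supp G k x hρ
    rw [Base.push2_pos _ hx, Base.push2_pos _ hx]
    dsimp only
    rw [Base.kappa_one (show G.c k x ∈ closedBall (0 : R4) 2 by simpa using hx2.le), one_mul, one_mul]
  choose g hg hgs hgr using fun k p =>
    exists_smooth_density (Λ k p) kappaBump.contDiff kappaBump.hasCompactSupport (hloc k p) (hbound k p)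
  let h : Fin G.n → R4 → Bil := fun k z =>
    ∑ p : Fin 4 × Fin 4, (2⁻¹ * (g k p z * kappaBump z)) • dualPair p.1 p.2
  have hh : ∀ k, ContDiff ℝ ∞ (h k) := fun k => ContDiff.sum (F := Bil) fun p _ =>
    ContDiff.smul (F := Bil) (contDiff_const.mul ((hg k p).mul kappaBump.contDiff)) contDiff_const
  have hh0 : ∀ k z, z ∉ closedBall (0 : R4) 3 → h k z = 0 := fun k z hz =>
    Finset.sum_eq_zero fun p _ => by simp [Base.kappa_zero hz]
  have hha : ∀ k z, IsAlt (h k z) := fun k z => by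
    intro u v
    simp only [h, sum_apply, smul_apply, smul_eq_mul]
    rw [← Finset.sum_neg_distrib]
    exact Finset.sum_congr rfl fun p _ => by rw [isAlt_dualPair p.1 p.2 u v, mul_neg]
  have hpush := fun k => push_smooth G k (hh k) (hh0 k) (hha k)
  refine ⟨fun x => ∑ k, push2 (G.c k) (h k) x, ?_, fun θ hθ => ?_⟩
  · have : ∀ s : Finset (Fin G.n), Smooth2 fun x => ∑ k ∈ s, push2 (G.c k) (h k) x := by
      intro s
      induction s using Finset.induction_on with
      | empty =>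
        simp only [Finset.sum_empty]
        exact Smooth2.zero
      | insert a s ha ih =>
        simp only [Finset.sum_insert ha]
        exact (hpush a).1.add ih
    exact this _
  have hW : ∀ x, G.W x (∑ k, push2 (G.c k) (h k) x) (θ x) =
      ∑ k, G.W x (push2 (G.c k) (h k) x) (θ x) := fun x => by
    let f : Bil →+ ℝ := AddMonoidHom.mk' (fun b => G.W x b (θ x)) fun a b => G.W_add_left x a b (θ x)
    exact map_sum f _ _
  have hint : ∀ k, Integrable (fun x => G.W x (push2 (G.c k) (h k) x) (θ x)) G.vol := fun k =>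
    Base.pair_integrable G (Base.smooth_cont (hpush k).1) (Base.smooth_cont hθ)
  have hterm : ∀ k, ∫ x, G.W x (push2 (G.c k) (h k) x) (θ x) ∂G.vol =
      L (T fun x => G.rho k x • θ x) := fun k =>
    pair_piece G T L k hθ (g k) (hg k) (hgr k) (h k) (hh k) (hh0 k) (hha k) fun y => rfl
  show ∫ x, G.W x (∑ k, push2 (G.c k) (h k) x) (θ x) ∂G.vol = _
  simp only [hW]
  rw [integral_finsetSum _ fun k _ => hint k]
  simp only [hterm]
  rw [← map_sum, ← map_sum]
  congr 2
  funext x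
  simp only [Finset.sum_apply]
  rw [← Finset.sum_smul, Base.rho_sum, one_smul]

end Vale.Agent.P204.Full.Smooth
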