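import Vale.Agent.P204.Full.Interfaces
import Vale.Agent.P204.Full.Smooth.Positivity
import Vale.Agent.P204.Full.Smooth.Transpose

/-!
The smoothing operators: a `Smoother` exists for every choice of geometric data.
-/

open scoped ContDiff Topology Manifold
open MeasureTheory Set Metric Filter

noncomputable section

namespace Vale.Agent.P204.Full.Smooth

universe u

variable {X : Type u} [TopologicalSpace X] [T2Space X] [CompactSpace X] [ChartedSpace R4 X]
  [IsManifold 𝓘(ℝ, R4) ∞ X] [MeasurableSpace X] [BorelSpace X] (G : Geo X)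

/-- The smooth two-forms, as a subspace. -/
def smoothForms : Submodule ℝ (X → Bil) where
  carrier := {θ | Smooth2 θ}
  add_mem' h k := Smooth2.add h k
  zero_mem' := Smooth2.zero
  smul_mem' t _ h := Smooth2.smul h t

omit [MeasurableSpace X] [BorelSpace X] in
theorem exists_extension (σ : ℝ) :
    ∃ T : (X → Bil) →ₗ[ℝ] (X → Bil), ∀ θ, Smooth2 θ → T θ = avg2 G σ θ := by
  let f : smoothForms (X := X) →ₗ[ℝ] (X → Bil) :=
    { toFun := fun θ => avg2 G σ θ.1
      map_add' := fun a b => avg2_add G σ a.2 b.2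
      map_smul' := fun t a => avg2_smul G σ t a.1 }
  obtain ⟨T, hT⟩ := f.exists_extend
  exact ⟨T, fun θ hθ => LinearMap.congr_fun hT ⟨θ, hθ⟩⟩

/-- Enlarging the radius costs a constant factor. -/
theorem avg_le_avg {f : X → ℝ} (hf : Continuous f) (h0 : ∀ z, 0 ≤ f z) {a b σ : ℝ} (ha : 0 < a)
    (hab : a ≤ b) (hσ : 0 < σ) (x : X) :
    G.avg (a * σ) f x ≤ (b / a) ^ 4 * G.avg (b * σ) f x := by
  have hsub : G.near (a * σ) x ⊆ G.near (b * σ) x := by
    rintro z ⟨i, h1, h2, h3, h4, h5⟩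
    exact ⟨i, h1, h2, h3, h4, h5.trans (mul_le_mul_of_nonneg_right hab hσ.le)⟩
  have hm : ∫ z in G.near (a * σ) x, f z ∂G.vol ≤ ∫ z in G.near (b * σ) x, f z ∂G.vol :=
    setIntegral_mono_set (Base.integrable_cont G hf).integrableOn (ae_of_all _ h0) hsub.eventuallyLE
  have hb : 0 < b := ha.trans_le hab
  rw [Geo.avg, Geo.avg, div_pow, mul_pow, mul_pow]
  refine (mul_le_mul_of_nonneg_left hm (by positivity)).trans (le_of_eq ?_)
  field_simp

theorem avg_nonneg {f : X → ℝ} (h0 : ∀ z, 0 ≤ f z) (r : ℝ) (x : X) : 0 ≤ G.avg r f x :=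
  mul_nonneg (inv_nonneg.2 (Even.pow_nonneg (by decide) r)) (integral_nonneg h0)

/-- The smoothing operators exist. -/
theorem exists_smoother : Nonempty (Smoother G) := by
  choose T hT using exists_extension G
  obtain ⟨C1, K1, d1, hK1, hd1, hd1s, hp1⟩ := pt_bound_avg G
  obtain ⟨C2, K2, d2, hK2, hd2, hd2s, hp2⟩ := pt_pos_avg G
  obtain ⟨d3, hd3, hd3s, htr⟩ := exists_transpose G
  set K := max K1 K2
  set s0 := min d1 (min d2 d3)
  have hs0 : 0 < s0 := lt_min hd1 (lt_min hd2 hd3)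
  have hs01 : ∀ {s : ℝ}, s ≤ s0 → s ≤ d1 := fun h => h.trans (min_le_left _ _)
  have hs02 : ∀ {s : ℝ}, s ≤ s0 → s ≤ d2 := fun h =>
    h.trans ((min_le_right _ _).trans (min_le_left _ _))
  have hs03 : ∀ {s : ℝ}, s ≤ s0 → s ≤ d3 := fun h =>
    h.trans ((min_le_right _ _).trans (min_le_right _ _))
  have hsL : ∀ {s : ℝ}, s ≤ s0 → s ≤ sLoc G := fun h => (hs01 h).trans hd1s
  have habs : ∀ {s : ℝ}, 0 < s → s ≤ s0 → |s| ≤ sLoc G := fun h0 h => by
    rw [abs_of_pos h0]; exact hsL h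
  have hn0 : ∀ (θ : X → Bil) z, 0 ≤ G.nrm2 θ z := fun θ z =>
    Finset.sum_nonneg fun i _ => mul_nonneg (Base.rho_nonneg G i z) (norm_nonneg _)
  have hnc : ∀ {θ : X → Bil}, Smooth2 θ → Continuous (G.nrm2 θ) := fun hθ =>
    Base.nrm2_cont G (Base.smooth_cont hθ)
  have havg : ∀ {a s C : ℝ}, 1 ≤ a → a ≤ K → 0 < s → ∀ {θ : X → Bil}, Smooth2 θ → ∀ x,
      C * G.avg (a * s) (G.nrm2 θ) x ≤ max C 0 * (K / a) ^ 4 * G.avg (K * s) (G.nrm2 θ) x := by
    intro a s C ha haK hs θ hθ x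
    refine (mul_le_mul_of_nonneg_right (le_max_left C 0) (avg_nonneg G (hn0 θ) _ x)).trans ?_
    rw [mul_assoc]
    exact mul_le_mul_of_nonneg_left (avg_le_avg G (hnc hθ) (hn0 θ) (zero_lt_one.trans_le ha) haK hs x)
      (le_max_right _ _)
  refine ⟨{
    s0 := s0
    s0_pos := hs0
    s0_le := (hsL le_rfl).trans (sLoc_le_one G)
    K := K
    K_one := hK1.trans (le_max_left _ _)
    ST := T
    smooth := fun s _ _ θ hθ => by rw [hT s θ hθ]; exact avg2_smooth G s hθ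
    closed := fun s _ _ θ hθ => by rw [hT s θ hθ.1]; exact avg2_closed G s hθ
    exact := fun s _ _ α hα =>
      ⟨avg1 G s α, avg1_smooth G s hα, by rw [hT s _ (Base.smooth_extD1 hα), avg2_extD1 G s hα]⟩
    hsum_bound := ?_
    hsum_approx := ?_
    sk_bound := ?_
    sk_gain := ?_
    pt_bound := ?_
    pt_inv := ?_
    pt_anti := ?_
    pt_pos := ?_
    transpose := fun s hs hs' L hL => htr s hs (hs03 hs') (T s) (hT s) L hL }⟩
  · intro j
    obtain ⟨C, hC⟩ := hsum_avg_le G j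
    exact ⟨C, fun s hs hs' θ hθ => by rw [hT s θ hθ]; exact hC s (habs hs hs') θ hθ⟩
  · intro j
    obtain ⟨C, hC⟩ := hsum_sub_le G j
    exact ⟨C, fun s hs hs' θ hθ => by rw [hT s θ hθ]; exact hC s hs.le (hsL hs') θ hθ⟩
  · intro k
    obtain ⟨C, hC⟩ := sk_avg_le G k
    exact ⟨C, fun s hs hs' θ hθ => by rw [hT s θ hθ]; exact hC s hs.le (hsL hs') θ hθ⟩
  · intro k
    obtain ⟨C, hC⟩ := sk_gain_le G k
    exact ⟨C, fun s hs hs' θ hθ hi => by rw [hT s θ hθ]; exact hC s hs.le (hsL hs') θ hθ hi⟩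
  · refine ⟨max C1 0 * (K / K1) ^ 4, fun s hs hs' θ hθ x => ?_⟩
    rw [hT s θ hθ]
    exact (hp1 s hs (hs01 hs') θ hθ x).1.trans (havg hK1 (le_max_left _ _) hs hθ x)
  · refine ⟨max C1 0 * (K / K1) ^ 4, fun s hs hs' θ hθ hi x => ?_⟩
    rw [hT s θ hθ]
    refine ((hp1 s hs (hs01 hs') θ hθ x).2.1 hi).trans ?_
    rw [mul_right_comm C1, mul_right_comm (max C1 0 * (K / K1) ^ 4)]
    exact mul_le_mul_of_nonneg_right (havg hK1 (le_max_left _ _) hs hθ x) hs.le
  · refine ⟨max C1 0 * (K / K1) ^ 4, fun s hs hs' θ hθ hi x => ?_⟩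
    rw [hT s θ hθ]
    refine ((hp1 s hs (hs01 hs') θ hθ x).2.2 hi).trans ?_
    rw [mul_right_comm C1, mul_right_comm (max C1 0 * (K / K1) ^ 4)]
    exact mul_le_mul_of_nonneg_right (havg hK1 (le_max_left _ _) hs hθ x) hs.le
  · refine ⟨max C2 0 * (K / K2) ^ 4, fun s hs hs' θ hθ hi hsp x v => ?_⟩
    rw [hT s θ hθ]
    refine le_trans (neg_le_neg ?_) (hp2 s hs (hs02 hs') θ hθ hi hsp x v)
    refine mul_le_mul_of_nonneg_right ?_ ?_
    · rw [mul_right_comm C2, mul_right_comm (max C2 0 * (K / K2) ^ 4)]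
      exact mul_le_mul_of_nonneg_right (havg hK2 (le_max_right _ _) hs hθ x) (sq_nonneg s)
    · obtain rfl | hv := eq_or_ne v 0
      · simp [Geo.metric]
      · exact (G.omega_pos x v hv).le

end Vale.Agent.P204.Full.Smooth

namespace Vale.Agent.P204.Full

universe u

/-- The smoothing module's theorem. -/
theorem smootherStatement : SmootherStatement.{u} := fun _ _ _ _ _ _ _ _ G => Smooth.exists_smoother G

end Vale.Agent.P204.Full
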