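import Vale.Agent.P204.Full.Base.Main
import Vale.Agent.P204.Full.Smooth.Gain

/-!
Sobolev bounds for the averaged pull-back.
-/

open scoped ContDiff Topology Manifold
open MeasureTheory Set Metric Filter

noncomputable section

namespace Vale.Agent.P204.Full.Smooth

universe u

theorem T2_eq {j : ℕ} {f : R4 → Bil} : Base.T2 j f = Real.sqrt (sqn j f) := rfl

theorem contDiff_neg_sub {V : Type} [NormedAddCommGroup V] [NormedSpace ℝ V] {f g : R4 → V}
    (hf : ContDiff ℝ ∞ f) (hg : ContDiff ℝ ∞ g) : ContDiff ℝ ∞ ((-1 : ℝ) • (f - g)) :=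
  (hf.sub hg).const_smul (-1 : ℝ)

theorem contDiff_fsub {V : Type} [NormedAddCommGroup V] [NormedSpace ℝ V] {f g : R4 → V}
    (hf : ContDiff ℝ ∞ f) (hg : ContDiff ℝ ∞ g) : ContDiff ℝ ∞ (f - g) := hf.sub hg

theorem sqrt_sum_le {ι : Type} (s : Finset ι) (a : ι → ℝ) (ha : ∀ i, 0 ≤ a i) :
    Real.sqrt (∑ i ∈ s, a i) ≤ ∑ i ∈ s, Real.sqrt (a i) := by
  rw [Real.sqrt_le_iff]
  refine ⟨Finset.sum_nonneg fun i _ => Real.sqrt_nonneg _, ?_⟩
  calc ∑ i ∈ s, a i = ∑ i ∈ s, Real.sqrt (a i) ^ 2 :=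
        Finset.sum_congr rfl fun i _ => (Real.sq_sqrt (ha i)).symm
    _ ≤ (∑ i ∈ s, Real.sqrt (a i)) ^ 2 :=
        Finset.sum_sq_le_sq_sum_of_nonneg fun i _ => Real.sqrt_nonneg _

theorem T2_sum_le {ι : Type} (s : Finset ι) {g : ι → R4 → Bil} (hg : ∀ i, ContDiff ℝ ∞ (g i))
    (hs : ∀ i, HasCompactSupport (g i)) (l : ℕ) :
    Base.T2 l (fun y => ∑ i ∈ s, g i y) ≤ ∑ i ∈ s, Base.T2 l (g i) := by
  classical
  induction s using Finset.induction_on with
  | empty =>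
    simp [Base.T2]
  | insert a s ha ih =>
    simp only [Finset.sum_insert ha]
    have hc : HasCompactSupport fun y => ∑ i ∈ s, g i y := by
      have : ∀ t : Finset ι, HasCompactSupport fun y => ∑ i ∈ t, g i y := by
        intro t
        induction t using Finset.induction_on with
        | empty => exact HasCompactSupport.intro isCompact_empty fun y _ => by simp
        | insert b t hb iht =>
          simp only [Finset.sum_insert hb]
          exact (hs b).add iht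
      exact this s
    exact (Base.T2_add (hg a) (hs a) (ContDiff.sum (F := Bil) fun i _ => hg i) hc l).trans
      (add_le_add le_rfl ih)

variable {X : Type u} [TopologicalSpace X] [T2Space X] [CompactSpace X] [ChartedSpace R4 X]
  [IsManifold 𝓘(ℝ, R4) ∞ X] [MeasurableSpace X] [BorelSpace X] (G : Geo X)

omit [MeasurableSpace X] [BorelSpace X] in
theorem T2_piece_le (l : ℕ) : ∃ C : ℝ, 0 ≤ C ∧ ∀ k θ, Smooth2 θ →
    Base.T2 l (piece G k θ) ≤ C * G.hsum l θ := by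
  have h : ∀ k, ∃ C : ℝ, 0 ≤ C ∧ ∀ g : R4 → Bil, ContDiff ℝ ∞ g → HasCompactSupport g →
      Base.T2 l (fun y => (rhoView G k y • ContinuousLinearMap.id ℝ Bil) (g y)) ≤
        C * ∑ m ∈ Finset.range (l + 1), Base.T2 m g := fun k =>
    Base.T2_clm (E := Bil) (L := fun y => rhoView G k y • ContinuousLinearMap.id ℝ Bil)
      (ContDiff.smul (F := Bil →L[ℝ] Bil) (rhoView_smooth G k) contDiff_const)
      (HasCompactSupport.intro (isCompact_closedBall (0 : R4) (7 / 2)) fun y hy => by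
        simp [rhoView, Base.wideBump_zero hy]) l
  choose C hC0 hC using h
  refine ⟨∑ k, C k, Finset.sum_nonneg fun k _ => hC0 k, fun k θ hθ => ?_⟩
  have h0 : ∀ j, 0 ≤ G.hn j θ := fun j => Base.hn_nonneg G j θ
  refine le_trans ?_ (mul_le_mul_of_nonneg_right
    (Finset.single_le_sum (fun j _ => hC0 j) (Finset.mem_univ k)) (Finset.sum_nonneg fun j _ => h0 j))
  refine (hC k _ (Base.cd_kv G hθ k) (Base.cs_kv G k θ)).trans (mul_le_mul_of_nonneg_left ?_ (hC0 k))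
  exact Finset.sum_le_sum fun m _ => Base.T2_le_hn G k m θ

omit [MeasurableSpace X] [BorelSpace X] in
theorem kv_avg_fun (i : Fin G.n) {σ : ℝ} (hσ : |σ| ≤ sLoc G) {θ : X → Bil} (hθ : Smooth2 θ) :
    Base.kv G i (avg2 G σ θ) = fun y => ∑ k, avgOp volume (baseSym G i k) σ (piece G k θ) y :=
  funext fun y => kv_avg G i hσ hθ y

omit [MeasurableSpace X] [BorelSpace X] in
theorem hn_avg_le (l : ℕ) : ∃ C : ℝ, 0 ≤ C ∧ ∀ σ, |σ| ≤ sLoc G → ∀ θ, Smooth2 θ →
    G.hn l (avg2 G σ θ) ≤ C * G.hsum l θ := by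
  choose C hC0 hC using fun p : Fin G.n × Fin G.n =>
    exists_sqn_avgOp_le (volume : Measure (Par G)) l (baseSym G p.1 p.2)
  choose D hD0 hD using fun m : ℕ => T2_piece_le G m
  set S := ∑ m ∈ Finset.range (l + 1), D m
  refine ⟨∑ i : Fin G.n, ∑ k : Fin G.n, Real.sqrt (C (i, k)) * S, by
    have : 0 ≤ S := Finset.sum_nonneg fun m _ => hD0 m
    positivity, fun σ hσ θ hθ => ?_⟩
  rw [Base.hn_eq, Finset.sum_mul]
  refine Finset.sum_le_sum fun i _ => ?_
  rw [kv_avg_fun G i hσ hθ, Finset.sum_mul]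
  refine (T2_sum_le _ (fun k => avgOp_smooth _ _ σ (piece_smooth G k hθ))
    (fun k => avgOp_hasCompactSupport _ _ σ _) l).trans (Finset.sum_le_sum fun k _ => ?_)
  have hr : |σ| ≤ (fam G i k).rad := hσ.trans (sLoc_le_rad G i k)
  rw [T2_eq]
  refine (Real.sqrt_le_sqrt (hC (i, k) σ hr _ (piece_smooth G k hθ) (piece_compact G k θ))).trans ?_
  rw [Real.sqrt_mul (hC0 _), mul_assoc]
  refine mul_le_mul_of_nonneg_left ?_ (Real.sqrt_nonneg _)
  refine (sqrt_sum_le _ _ fun m => sqn_nonneg m _).trans ?_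
  rw [Finset.sum_mul]
  refine Finset.sum_le_sum fun m hm => ?_
  rw [← T2_eq]
  refine (hD m k θ hθ).trans (mul_le_mul_of_nonneg_left ?_ (hD0 m))
  exact Finset.sum_le_sum_of_subset_of_nonneg
    (Finset.range_mono (by have := Finset.mem_range.1 hm; omega)) fun j _ _ => Base.hn_nonneg G j θ

omit [MeasurableSpace X] [BorelSpace X] in
theorem hn_sub_le (l : ℕ) : ∃ C : ℝ, 0 ≤ C ∧ ∀ σ, 0 ≤ σ → σ ≤ sLoc G → ∀ θ, Smooth2 θ →
    G.hn l (θ - avg2 G σ θ) ≤ C * σ * G.hsum (l + 1) θ := by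
  choose C hC0 hC using fun p : Fin G.n × Fin G.n =>
    exists_sqn_sub_le (volume : Measure (Par G)) l (baseSym G p.1 p.2)
  choose D hD0 hD using fun m : ℕ => T2_piece_le G m
  set S := ∑ m ∈ Finset.range (l + 2), D m
  refine ⟨∑ i : Fin G.n, ∑ k : Fin G.n, Real.sqrt (C (i, k)) * S, by
    have : 0 ≤ S := Finset.sum_nonneg fun m _ => hD0 m
    positivity, fun σ hσ0 hσ θ hθ => ?_⟩
  have hσ' : |σ| ≤ sLoc G := by rwa [abs_of_nonneg hσ0]
  rw [Base.hn_eq, Finset.sum_mul, Finset.sum_mul]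
  refine Finset.sum_le_sum fun i _ => ?_
  have hkv : Base.kv G i (θ - avg2 G σ θ) = fun y => ∑ k,
      ((-1 : ℝ) • (avgOp volume (baseSym G i k) σ (piece G k θ) -
        avgOp volume (baseSym G i k) 0 (piece G k θ))) y := by
    funext y
    simp only [Pi.smul_apply, Pi.sub_apply, neg_one_smul, Pi.neg_apply, Finset.sum_neg_distrib, Finset.sum_sub_distrib]
    rw [← kv_avg G i hσ' hθ y, ← kv_avg G i (by simpa using (sLoc_pos G).le) hθ y, avg2_zero, neg_sub]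
    simp only [Base.kv, view2_sub, Pi.sub_apply]
    exact smul_sub (M := ℝ) (A := Bil) _ _ _
  rw [hkv, Finset.sum_mul, Finset.sum_mul]
  have hd : ∀ k, ContDiff ℝ ∞ ((-1 : ℝ) • (avgOp volume (baseSym G i k) σ (piece G k θ) -
      avgOp volume (baseSym G i k) 0 (piece G k θ))) := fun k =>
    contDiff_neg_sub (V := Bil) (avgOp_smooth _ _ σ (piece_smooth G k hθ))
      (avgOp_smooth _ _ 0 (piece_smooth G k hθ))
  have hs : ∀ k, HasCompactSupport ((-1 : ℝ) • (avgOp volume (baseSym G i k) σ (piece G k θ) -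
      avgOp volume (baseSym G i k) 0 (piece G k θ))) := fun k =>
    HasCompactSupport.intro (fam G i k).K_compact fun y hy => by
      simp [avgOp_zero_of_notMem _ _ _ _ hy]
  refine (T2_sum_le _ hd hs l).trans (Finset.sum_le_sum fun k _ => ?_)
  have hr : |σ| ≤ (fam G i k).rad := hσ'.trans (sLoc_le_rad G i k)
  rw [T2_eq, sqn_smul l _ (contDiff_fsub (V := Bil) (avgOp_smooth _ _ σ (piece_smooth G k hθ))
      (avgOp_smooth _ _ 0 (piece_smooth G k hθ)))]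
  norm_num only [neg_sq, one_pow, one_mul]
  refine (Real.sqrt_le_sqrt (hC (i, k) σ hr _ (piece_smooth G k hθ) (piece_compact G k θ))).trans ?_
  rw [Real.sqrt_mul (mul_nonneg (hC0 _) (sq_nonneg σ)), Real.sqrt_mul (hC0 _), Real.sqrt_sq hσ0,
    show Real.sqrt (C (i, k)) * S * σ * G.hsum (l + 1) θ =
      Real.sqrt (C (i, k)) * σ * (S * G.hsum (l + 1) θ) by ring]
  refine mul_le_mul_of_nonneg_left ?_ (mul_nonneg (Real.sqrt_nonneg _) hσ0)
  refine (sqrt_sum_le _ _ fun m => sqn_nonneg m _).trans ?_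
  rw [Finset.sum_mul]
  refine Finset.sum_le_sum fun m hm => ?_
  rw [← T2_eq]
  refine (hD m k θ hθ).trans (mul_le_mul_of_nonneg_left ?_ (hD0 m))
  exact Finset.sum_le_sum_of_subset_of_nonneg
    (Finset.range_mono (by have := Finset.mem_range.1 hm; omega)) fun j _ _ => Base.hn_nonneg G j θ

omit [CompactSpace X] in
theorem hsum_nonneg (j : ℕ) (θ : X → Bil) : 0 ≤ G.hsum j θ :=
  Finset.sum_nonneg fun l _ => Base.hn_nonneg G l θ

theorem hsum_avg_le (j : ℕ) : ∃ C : ℝ, ∀ σ, |σ| ≤ sLoc G → ∀ θ, Smooth2 θ →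
    G.hsum j (avg2 G σ θ) ≤ C * G.hsum j θ := by
  choose C hC0 hC using fun l => hn_avg_le G l
  refine ⟨∑ l ∈ Finset.range (j + 1), C l, fun σ hσ θ hθ => ?_⟩
  rw [Finset.sum_mul, Geo.hsum]
  exact Finset.sum_le_sum fun l hl => (hC l σ hσ θ hθ).trans (mul_le_mul_of_nonneg_left
    (Finset.sum_le_sum_of_subset_of_nonneg (Finset.range_mono (by
      have := Finset.mem_range.1 hl; omega)) fun m _ _ => Base.hn_nonneg G m θ) (hC0 l))

theorem hsum_sub_le (j : ℕ) : ∃ C : ℝ, ∀ σ, 0 ≤ σ → σ ≤ sLoc G → ∀ θ, Smooth2 θ →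
    G.hsum j (θ - avg2 G σ θ) ≤ C * σ * G.hsum (j + 1) θ := by
  choose C hC0 hC using fun l => hn_sub_le G l
  refine ⟨∑ l ∈ Finset.range (j + 1), C l, fun σ hσ0 hσ θ hθ => ?_⟩
  rw [Finset.sum_mul, Finset.sum_mul, Geo.hsum]
  exact Finset.sum_le_sum fun l hl => (hC l σ hσ0 hσ θ hθ).trans (mul_le_mul_of_nonneg_left
    (Finset.sum_le_sum_of_subset_of_nonneg (Finset.range_mono (by
      have := Finset.mem_range.1 hl; omega)) fun m _ _ => Base.hn_nonneg G m θ)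
    (mul_nonneg (hC0 l) hσ0))

theorem T2_piece_l2 : ∃ C : ℝ, 0 ≤ C ∧ ∀ k θ, Smooth2 θ → Base.T2 0 (piece G k θ) ≤ C * G.l2 θ := by
  obtain ⟨C1, hC10, h1⟩ := T2_piece_le G 0
  obtain ⟨C2, h2⟩ := (base_facts G).l2_hn
  refine ⟨C1 * max C2 0, by positivity, fun k θ hθ => ?_⟩
  refine (h1 k θ hθ).trans ?_
  rw [mul_assoc]
  refine mul_le_mul_of_nonneg_left ?_ hC10
  simp only [Geo.hsum, Finset.sum_range_one, zero_add]
  exact (h2 θ hθ).2.trans (mul_le_mul_of_nonneg_right (le_max_left _ _) (Real.sqrt_nonneg _))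

theorem sk_avg_le (k : ℕ) : ∃ C : ℝ, ∀ σ, 0 ≤ σ → σ ≤ sLoc G → ∀ θ, Smooth2 θ →
    G.sk k σ (avg2 G σ θ) ≤ C * G.l2 θ := by
  choose C hC0 hC using fun p : ℕ × Fin G.n × Fin G.n =>
    exists_sqn_avgOp_down (volume : Measure (Par G)) p.1 (baseSym G p.2.1 p.2.2)
  obtain ⟨D, hD0, hD⟩ := T2_piece_l2 G
  refine ⟨∑ l ∈ Finset.range (k + 1), ∑ i : Fin G.n, ∑ m : Fin G.n, Real.sqrt (C (l, i, m)) * D,
    fun σ hσ0 hσ θ hθ => ?_⟩
  have hσ' : |σ| ≤ sLoc G := by rwa [abs_of_nonneg hσ0]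
  rw [Finset.sum_mul, Geo.sk]
  refine Finset.sum_le_sum fun l _ => ?_
  rw [Base.hn_eq, Finset.mul_sum, Finset.sum_mul]
  refine Finset.sum_le_sum fun i _ => ?_
  rw [kv_avg_fun G i hσ' hθ, Finset.sum_mul]
  refine (mul_le_mul_of_nonneg_left (T2_sum_le _ (fun m => avgOp_smooth _ _ σ (piece_smooth G m hθ))
    (fun m => avgOp_hasCompactSupport _ _ σ _) l) (pow_nonneg hσ0 l)).trans ?_
  rw [Finset.mul_sum]
  refine Finset.sum_le_sum fun m _ => ?_
  have hr : |σ| ≤ (fam G i m).rad := hσ'.trans (sLoc_le_rad G i m)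
  have h := Real.sqrt_le_sqrt
    ((hC (l, i, m) σ hr _ (piece_smooth G m hθ) (piece_compact G m θ)).1)
  rw [Real.sqrt_mul (sq_nonneg _), Real.sqrt_sq (pow_nonneg hσ0 l), Real.sqrt_mul (hC0 _)] at h
  rw [T2_eq, mul_assoc]
  refine h.trans (mul_le_mul_of_nonneg_left ?_ (Real.sqrt_nonneg _))
  rw [← T2_eq]
  exact hD m θ hθ

theorem sk_gain_le (k : ℕ) : ∃ C : ℝ, ∀ σ, 0 ≤ σ → σ ≤ sLoc G → ∀ θ, Smooth2 θ → G.Inv θ →
    G.sk k σ (G.p20 (avg2 G σ θ)) ≤ C * σ * G.l2 θ := by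
  choose C hC0 hC using fun p : ℕ × Fin G.n × Fin G.n =>
    exists_sqn_avgOp_down (volume : Measure (Par G)) p.1 (gainSym G 1 p.2.1 p.2.2)
  obtain ⟨D, hD0, hD⟩ := T2_piece_l2 G
  refine ⟨∑ l ∈ Finset.range (k + 1), ∑ i : Fin G.n, ∑ m : Fin G.n, Real.sqrt (C (l, i, m)) * D,
    fun σ hσ0 hσ θ hθ hinv => ?_⟩
  have hσ' : |σ| ≤ sLoc G := by rwa [abs_of_nonneg hσ0]
  have hfix : ∀ x, pullBil (G.J x) (θ x) = (1 : ℝ) • θ x := fun x => by
    rw [one_smul]; exact G.inv_pull hinv x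
  rw [Finset.sum_mul, Finset.sum_mul, Geo.sk]
  refine Finset.sum_le_sum fun l _ => ?_
  rw [Base.hn_eq, Finset.mul_sum, Finset.sum_mul, Finset.sum_mul]
  refine Finset.sum_le_sum fun i _ => ?_
  have hkv : Base.kv G i (G.p20 (avg2 G σ θ)) =
      fun y => ∑ m, avgOp volume (gainSym G 1 i m) σ (piece G m θ) y := by
    funext y
    rw [← kv_avg_proj G (by norm_num) i hσ' hθ hfix y, projL_neg_one, Base.kv, Base.kv]
    by_cases hy : y ∈ closedBall (0 : R4) 3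
    · rw [JT_eq G i (show ‖y‖ ≤ 3 by simpa using hy),
        Base.view2_p20 G _ (G.c_mem i) (closedBall_subset_target G i (by norm_num) hy),
        anti20_smul]
    · simp [Base.kappa_zero hy, anti20, pullBil_zero]
  rw [hkv, Finset.sum_mul, Finset.sum_mul]
  refine (mul_le_mul_of_nonneg_left (T2_sum_le _ (fun m => avgOp_smooth _ _ σ (piece_smooth G m hθ))
    (fun m => avgOp_hasCompactSupport _ _ σ _) l) (pow_nonneg hσ0 l)).trans ?_
  rw [Finset.mul_sum]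
  refine Finset.sum_le_sum fun m _ => ?_
  have hr : |σ| ≤ (fam G i m).rad := hσ'.trans (sLoc_le_rad G i m)
  have h := Real.sqrt_le_sqrt
    ((hC (l, i, m) σ hr _ (piece_smooth G m hθ) (piece_compact G m θ)).2
      (gainSym_van G (by norm_num) i m))
  rw [Real.sqrt_mul (sq_nonneg _), Real.sqrt_sq (pow_nonneg hσ0 l),
    Real.sqrt_mul (mul_nonneg (hC0 _) (sq_nonneg σ)), Real.sqrt_mul (hC0 _), Real.sqrt_sq hσ0] at h
  rw [T2_eq]
  refine h.trans ?_
  rw [← T2_eq, show Real.sqrt (C (l, i, m)) * D * σ * G.l2 θ =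
    Real.sqrt (C (l, i, m)) * σ * (D * G.l2 θ) by ring]
  exact mul_le_mul_of_nonneg_left (hD m θ hθ) (mul_nonneg (Real.sqrt_nonneg _) hσ0)

end Vale.Agent.P204.Full.Smooth
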