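import Vale.Agent.P204.Full.Smooth.NormBounds

/-!
Pointwise bounds for the averaged pull-back.
-/

open scoped ContDiff Topology Manifold
open MeasureTheory Set Metric Filter

noncomputable section

namespace Vale.Agent.P204.Full.Smooth

universe u

variable {X : Type u} [TopologicalSpace X] [T2Space X] [CompactSpace X] [ChartedSpace R4 X]
  [IsManifold 𝓘(ℝ, R4) ∞ X] [MeasurableSpace X] [BorelSpace X] (G : Geo X)

omit [CompactSpace X] [MeasurableSpace X] [BorelSpace X] in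
theorem piece_ne_norm {k : Fin G.n} {θ : X → Bil} {z : R4} (h : piece G k θ z ≠ 0) :
    ‖z‖ ≤ 2 ∧ G.rho k ((G.c k).symm z) ≠ 0 := by
  have h1 : rhoView G k z ≠ 0 := fun h0 => h (by simp [piece, h0])
  have h2 : z ∈ closedBall (0 : R4) 3 := by
    by_contra hz
    exact h (by simp [piece, Base.kv, Base.kappa_zero hz])
  have hρ : G.rho k ((G.c k).symm z) ≠ 0 := right_ne_zero_of_mul h1
  have h3 := (Base.rho_supp G k _ hρ).2
  rw [(G.c k).right_inv (closedBall_subset_target G k (r := 3) (by norm_num) h2)] at h3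
  exact ⟨h3.le, hρ⟩

theorem piece_ball_le : ∃ C : ℝ, 0 ≤ C ∧ ∀ (k : Fin G.n) (θ : X → Bil), Smooth2 θ → ∀ x,
    x ∈ (G.c k).source → ‖G.c k x‖ ≤ 3 → ∀ r : ℝ,
      ∫ z in closedBall (G.c k x) r, ‖piece G k θ z‖ ≤ C * ∫ z in G.near r x, G.nrm2 θ z ∂G.vol := by
  obtain ⟨A, hA1, hA⟩ := Base.nrm2_view G
  obtain ⟨m, M, hm, -, hD⟩ := Base.D_bounds G
  refine ⟨A / m, by positivity, fun k θ hθ x hx hx3 r => ?_⟩
  have hc : Continuous (G.nrm2 θ) := Base.nrm2_cont G (Base.smooth_cont hθ)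
  have hn0 : ∀ z, 0 ≤ G.nrm2 θ z := fun z => Finset.sum_nonneg fun i _ =>
    mul_nonneg (Base.rho_nonneg G i z) (norm_nonneg _)
  set A' : Set X := G.near r x ∩ Base.K G k 2 with hA'
  have hms : MeasurableSet A' :=
    (Base.near_measurableSet G r x).inter (Base.isClosed_K G k (by norm_num)).measurableSet
  have hi : Integrable (A'.indicator (G.nrm2 θ)) G.vol := (Base.integrable_cont G hc).indicator hms
  obtain ⟨hI, hval⟩ := Base.vol_chart G k hi fun z hz =>
    ((Base.mem_K G (by norm_num)).1 (mem_of_indicator_ne_zero hz).2).1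
  have hle : ∫ z, A'.indicator (G.nrm2 θ) z ∂G.vol ≤ ∫ z in G.near r x, G.nrm2 θ z ∂G.vol := by
    rw [integral_indicator hms]
    exact setIntegral_mono_set (Base.integrable_cont G hc).integrableOn (ae_of_all _ hn0)
      inter_subset_left.eventuallyLE
  refine le_trans ?_ (mul_le_mul_of_nonneg_left hle (by positivity))
  rw [hval, ← integral_const_mul, ← integral_indicator measurableSet_closedBall,
    ← integral_indicator (G.c k).open_target.measurableSet]
  refine integral_mono_of_nonneg (ae_of_all _ fun z => indicator_nonneg (fun _ _ => norm_nonneg _) z)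
    ((integrable_indicator_iff (G.c k).open_target.measurableSet).2 (hI.const_mul _))
    (ae_of_all _ fun z => ?_)
  show (closedBall (G.c k x) r).indicator (fun w => ‖piece G k θ w‖) z ≤
    (G.c k).target.indicator
      (fun w => A / m * (A'.indicator (G.nrm2 θ) ((G.c k).symm w) * Base.D G k w)) z
  have hR : 0 ≤ (G.c k).target.indicator
      (fun w => A / m * (A'.indicator (G.nrm2 θ) ((G.c k).symm w) * Base.D G k w)) z :=
    indicator_nonneg (fun w hw => mul_nonneg (by positivity)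
      (mul_nonneg (indicator_nonneg (fun a _ => hn0 a) _) (Base.D_pos G hw).le)) z
  by_cases hz : z ∈ closedBall (G.c k x) r
  swap
  · rwa [indicator_of_notMem hz]
  by_cases hp : piece G k θ z = 0
  · rw [indicator_of_mem hz, hp, norm_zero]
    exact hR
  obtain ⟨hz2, -⟩ := piece_ne_norm G hp
  have hzt : z ∈ (G.c k).target :=
    closedBall_subset_target G k (r := 2) (by norm_num) (by simpa using hz2)
  have hzx : (G.c k).symm z ∈ A' := by
    refine ⟨⟨k, hx, (G.c k).map_target hzt, hx3, ?_, ?_⟩,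
      mem_image_of_mem _ (by simpa using hz2)⟩
    · rw [(G.c k).right_inv hzt]; linarith
    · rw [(G.c k).right_inv hzt, norm_sub_rev]; simpa [dist_eq_norm] using hz
  rw [indicator_of_mem hz, indicator_of_mem hzt, indicator_of_mem hzx]
  have h1 : ‖piece G k θ z‖ ≤ ‖view2 (G.c k) θ z‖ := by
    rw [piece_eq G k θ hzt, norm_smul, Real.norm_eq_abs, abs_of_nonneg (Base.rho_nonneg G k _)]
    refine mul_le_of_le_one_left (norm_nonneg _) ?_
    rw [← Base.rho_sum G ((G.c k).symm z)]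
    exact Finset.single_le_sum (fun j _ => Base.rho_nonneg G j _) (Finset.mem_univ k)
  refine h1.trans ((hA k θ z (hz2.trans (by norm_num))).1.trans ?_)
  have hDz := (hD k z (by simp only [mem_closedBall, dist_zero_right]; linarith)).1
  calc A * G.nrm2 θ ((G.c k).symm z) = A / m * (G.nrm2 θ ((G.c k).symm z) * m) := by field_simp
    _ ≤ _ := mul_le_mul_of_nonneg_left (mul_le_mul_of_nonneg_left hDz (hn0 _)) (by positivity)

theorem avgTerm_le : ∃ C K δ : ℝ, 0 ≤ C ∧ 1 ≤ K ∧ 0 < δ ∧ δ ≤ sLoc G ∧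
    ∀ (i k : Fin G.n) (s : Sym (fam G i k) Bil Bil) (σ M : ℝ), 0 < σ → σ ≤ δ →
      (∀ y w, ‖s.a (σ, y, w)‖ ≤ M) → ∀ θ, Smooth2 θ → ∀ x, x ∈ (G.c i).source →
        ‖avgOp volume s σ (piece G k θ) (G.c i x)‖ ≤ M * C * G.avg (K * σ) (G.nrm2 θ) x := by
  choose C R d hC0 hR hd hdr hb using fun p : Fin G.n × Fin G.n =>
    (fam G p.1 p.2).exists_avgOp_bound (volume : Measure (Par G))
  obtain ⟨B, hB0, hball⟩ := piece_ball_le G
  obtain ⟨K, hK⟩ := Finite.exists_le R
  obtain ⟨Cm, hCm⟩ := Finite.exists_le C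
  obtain ⟨D, hD⟩ := Finite.exists_le fun p => (d p)⁻¹
  set K' := max K 1
  have hK' : 1 ≤ K' := le_max_right _ _
  refine ⟨max Cm 0 * B * K' ^ 4, K', min (max D 1)⁻¹ (sLoc G), by positivity, hK',
    lt_min (by positivity) (sLoc_pos G), min_le_right _ _, fun i k s σ M hσ hσd hM θ hθ x hx => ?_⟩
  have hM0 : 0 ≤ M := (norm_nonneg _).trans (hM (G.c i x) 0)
  have hnear : 0 ≤ ∫ z in G.near (K' * σ) x, G.nrm2 θ z ∂G.vol :=
    integral_nonneg fun z => Finset.sum_nonneg fun j _ =>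
      mul_nonneg (Base.rho_nonneg G j z) (norm_nonneg _)
  have hav : 0 ≤ G.avg (K' * σ) (G.nrm2 θ) x := mul_nonneg (by positivity) hnear
  by_cases hy : G.c i x ∈ (fam G i k).K
  swap
  · rw [avgOp_zero_of_notMem _ s σ _ hy, norm_zero]
    positivity
  rw [fam_K] at hy
  obtain ⟨-, hxk, hxk3⟩ := (mem_pieceSet G).1 hy
  rw [(G.c i).left_inv hx] at hxk hxk3
  have hσd' : σ ≤ d (i, k) := by
    have h1 : σ ≤ (max D 1)⁻¹ := hσd.trans (min_le_left _ _)
    refine h1.trans ?_
    rw [inv_le_comm₀ (by positivity) (hd _)]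
    exact (hD (i, k)).trans (le_max_left _ _)
  have hF : (fam G i k).F (G.c i x, 0) = G.c k x := by
    rw [fam_F_zero G hy, Base.trans, (G.c i).left_inv hx]
  have h := hb (i, k) s σ M hσ hσd' hM (piece G k θ) (piece_smooth G k hθ).continuous (G.c i x)
  refine h.trans ?_
  rw [hF]
  have hsub : ∫ z in closedBall (G.c k x) (R (i, k) * σ), ‖piece G k θ z‖ ≤
      B * ∫ z in G.near (K' * σ) x, G.nrm2 θ z ∂G.vol := by
    refine le_trans ?_ (hball k θ hθ x hxk hxk3 (K' * σ))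
    exact setIntegral_mono_set ((piece_smooth G k hθ).continuous.norm.continuousOn.integrableOn_compact
      (isCompact_closedBall _ _)) (ae_of_all _ fun z => norm_nonneg _)
      (closedBall_subset_closedBall (mul_le_mul_of_nonneg_right ((hK _).trans (le_max_left _ _))
        hσ.le)).eventuallyLE
  have hCle : C (i, k) / σ ^ 4 ≤ max Cm 0 / σ ^ 4 := by
    gcongr
    exact (hCm _).trans (le_max_left _ _)
  calc M * (C (i, k) / σ ^ 4) * ∫ z in closedBall (G.c k x) (R (i, k) * σ), ‖piece G k θ z‖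
      ≤ M * (max Cm 0 / σ ^ 4) * (B * ∫ z in G.near (K' * σ) x, G.nrm2 θ z ∂G.vol) :=
        mul_le_mul (mul_le_mul_of_nonneg_left hCle hM0) hsub
          (integral_nonneg fun z => norm_nonneg _) (by positivity)
    _ = _ := by
      rw [Geo.avg, mul_pow]
      field_simp

omit [CompactSpace X] [MeasurableSpace X] [BorelSpace X] in
theorem kv_centre (i : Fin G.n) (η : X → Bil) {x : X} (hx1 : ‖G.c i x‖ ≤ 1) :
    Base.kv G i η (G.c i x) = view2 (G.c i) η (G.c i x) := by
  rw [Base.kv, Base.kappa_one (by simp only [mem_closedBall, dist_zero_right]; linarith)]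
  exact one_smul ℝ (_ : Bil)

theorem pt_bound_avg : ∃ C K δ : ℝ, 1 ≤ K ∧ 0 < δ ∧ δ ≤ sLoc G ∧ ∀ σ, 0 < σ → σ ≤ δ →
    ∀ θ, Smooth2 θ → ∀ x,
      G.nrm2 (avg2 G σ θ) x ≤ C * G.avg (K * σ) (G.nrm2 θ) x ∧
        (G.Inv θ → G.nrm2 (G.p20 (avg2 G σ θ)) x ≤ C * σ * G.avg (K * σ) (G.nrm2 θ) x) ∧
        (G.Anti θ → G.nrm2 (G.p11 (avg2 G σ θ)) x ≤ C * σ * G.avg (K * σ) (G.nrm2 θ) x) := by
  obtain ⟨C, K, δ, hC0, hK, hδ, hδs, hterm⟩ := avgTerm_le G
  obtain ⟨A, hA1, hA⟩ := Base.nrm2_view G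
  choose M0 hM00 hM0 using fun p : Fin G.n × Fin G.n => (baseSym G p.1 p.2).exists_bound
  choose M1 hM10 hM1 using fun p : Fin G.n × Fin G.n =>
    (gainSym_van G (ε := 1) (by norm_num) p.1 p.2).exists_bound
  choose M2 hM20 hM2 using fun p : Fin G.n × Fin G.n =>
    (gainSym_van G (ε := -1) (by norm_num) p.1 p.2).exists_bound
  set S := ∑ p, (M0 p + M1 p + M2 p)
  have hS : ∀ p, M0 p + M1 p + M2 p ≤ S := fun p =>
    Finset.single_le_sum (f := fun q => M0 q + M1 q + M2 q)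
      (fun q _ => by linarith [hM00 q, hM10 q, hM20 q]) (Finset.mem_univ p)
  refine ⟨A * (G.n * (S * C)), K, δ, hK, hδ, hδs, fun σ hσ hσd θ hθ x => ?_⟩
  obtain ⟨i, hxi, hx1⟩ := G.c_cover x
  have hx3 : ‖G.c i x‖ ≤ 3 := hx1.trans (by norm_num)
  have hσ1 : |σ| ≤ 1 := by
    rw [abs_of_pos hσ]; linarith [sLoc_le_one G]
  have hσL : |σ| ≤ sLoc G := by rw [abs_of_pos hσ]; linarith
  have hnrm : ∀ η : X → Bil, G.nrm2 η x ≤ A * ‖view2 (G.c i) η (G.c i x)‖ := fun η => by
    have h := (hA i η (G.c i x) hx3).2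
    rwa [(G.c i).left_inv hxi] at h
  have hsum : ∀ (s : ∀ k, Sym (fam G i k) Bil Bil) (t : ℝ), 0 ≤ t →
      (∀ k y w, ‖(s k).a (σ, y, w)‖ ≤ S * t) →
      A * ‖∑ k, avgOp volume (s k) σ (piece G k θ) (G.c i x)‖ ≤
        A * (G.n * (S * C)) * t * G.avg (K * σ) (G.nrm2 θ) x := by
    intro s t ht hs
    calc A * ‖∑ k, avgOp volume (s k) σ (piece G k θ) (G.c i x)‖
        ≤ A * ∑ _k : Fin G.n, S * t * C * G.avg (K * σ) (G.nrm2 θ) x := by
          refine mul_le_mul_of_nonneg_left ((norm_sum_le _ _).trans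
            (Finset.sum_le_sum fun k _ => ?_)) (by linarith)
          exact hterm i k (s k) σ (S * t) hσ hσd (hs k) θ hθ x hxi
      _ = _ := by simp only [Finset.sum_const, Finset.card_univ, Fintype.card_fin, nsmul_eq_mul]; ring
  have hproj : ∀ ε : ℝ, ε * ε = 1 → (∀ z, pullBil (G.J z) (θ z) = ε • θ z) →
      projL (-ε) (Base.viewJ G.J (G.c i) (G.c i x)) (view2 (G.c i) (avg2 G σ θ) (G.c i x)) =
        ∑ k, avgOp volume (gainSym G ε i k) σ (piece G k θ) (G.c i x) := fun ε hε hfix => by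
    rw [← kv_avg_proj G hε i hσL hθ hfix, kv_centre G i _ hx1, JT_eq G i hx3]
  refine ⟨?_, fun hinv => ?_, fun hanti => ?_⟩
  · refine (hnrm _).trans ?_
    rw [← kv_centre G i _ hx1, kv_avg G i hσL hθ]
    have := hsum (fun k => baseSym G i k) 1 zero_le_one fun k y w => by
      rw [mul_one]
      exact (hM0 (i, k) σ y w hσ1).trans (by linarith [hS (i, k), hM10 (i, k), hM20 (i, k)])
    simpa using this
  · have hfix : ∀ z, pullBil (G.J z) (θ z) = (1 : ℝ) • θ z := fun z => by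
      rw [one_smul]; exact G.inv_pull hinv z
    refine (hnrm _).trans ?_
    rw [Base.view2_p20 G _ (G.c_mem i) ((G.c i).map_source hxi), ← projL_neg_one,
      hproj 1 (by norm_num) hfix]
    exact hsum (fun k => gainSym G 1 i k) σ hσ.le fun k y w =>
      (hM1 (i, k) σ y w hσ1).trans (by
        rw [abs_of_pos hσ]
        exact mul_le_mul_of_nonneg_right (by linarith [hS (i, k), hM00 (i, k), hM20 (i, k)]) hσ.le)
  · have hfix : ∀ z, pullBil (G.J z) (θ z) = (-1 : ℝ) • θ z := fun z => by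
      rw [neg_one_smul]; exact G.anti_pull hanti z
    refine (hnrm _).trans ?_
    have h := hproj (-1) (by norm_num) hfix
    rw [neg_neg, projL_one] at h
    rw [Base.view2_p11 G _ (G.c_mem i) ((G.c i).map_source hxi), h]
    exact hsum (fun k => gainSym G (-1) i k) σ hσ.le fun k y w =>
      (hM2 (i, k) σ y w hσ1).trans (by
        rw [abs_of_pos hσ]
        exact mul_le_mul_of_nonneg_right (by linarith [hS (i, k), hM00 (i, k), hM10 (i, k)]) hσ.le)

end Vale.Agent.P204.Full.Smooth
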