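import Vale.Agent.P204.Full.Smooth.Bounds

/-!
The kernel bound `|A f(y)| ≤ C σ⁻⁴ ∫_{B(F(y,0),Rσ)} |f|`, without computing the kernel.
-/

open scoped ContDiff Topology
open MeasureTheory Set Metric

noncomputable section

namespace Vale.Agent.P204.Full.Smooth

theorem exists_det_near_id : ∃ c : ℝ, 0 < c ∧ ∀ T : R4 →L[ℝ] R4,
    ‖T - ContinuousLinearMap.id ℝ R4‖ ≤ 1 / 2 → c ≤ |T.det| := by
  obtain ⟨T, hT, hmin⟩ := (isCompact_closedBall (ContinuousLinearMap.id ℝ R4) (1 / 2)).exists_isMinOn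
    (nonempty_closedBall.2 (by norm_num)) (f := fun T : R4 →L[ℝ] R4 => |T.det|)
    ContinuousLinearMap.continuous_det.abs.continuousOn
  refine ⟨|T.det|, abs_pos.2 fun h => ?_, fun T' hT' => hmin (mem_closedBall_iff_norm.2 hT')⟩
  obtain ⟨v, hv, hv0⟩ := (Submodule.ne_bot_iff _).1 (LinearMap.bot_lt_ker_of_det_eq_zero h).ne'
  rw [LinearMap.mem_ker] at hv
  have h1 := (T - ContinuousLinearMap.id ℝ R4).le_opNorm v
  have h2 : (T - ContinuousLinearMap.id ℝ R4) v = -v := by
    have : T v = 0 := hv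
    simp [this]
  rw [h2, norm_neg] at h1
  have h3 : 0 < ‖v‖ := norm_pos_iff.2 hv0
  nlinarith [mem_closedBall_iff_norm.1 hT]

variable {W : Type} [NormedAddCommGroup W] [NormedSpace ℝ W] [FiniteDimensional ℝ W] {Φ : Fam W}

theorem Fam.exists_ball_data (Φ : Fam W) :
    ∃ Γ Λ δ : ℝ, 1 ≤ Γ ∧ 1 ≤ Λ ∧ 0 < δ ∧ δ ≤ Φ.rad ∧ ∀ y ∈ Φ.K,
      ‖Φ.G (y, 0)‖ ≤ Γ ∧ ∀ u : W, ‖u‖ ≤ δ →
        ‖Φ.F (y, u) - Φ.F (y, 0)‖ ≤ Λ * ‖u‖ ∧
          ‖(Φ.Dw (y, u)).comp (Φ.G (y, 0)) - ContinuousLinearMap.id ℝ R4‖ ≤ 1 / 2 := by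
  obtain ⟨Γ, hΓ⟩ := Φ.K_compact.exists_bound_of_continuousOn
    (Φ.G_smooth.continuous.comp (continuous_id.prodMk (continuous_const : Continuous fun _ : R4 => (0 : W)))).continuousOn
  obtain ⟨Λ, hΛ⟩ := (Φ.K_compact.prod (isCompact_closedBall (0 : W) Φ.rad)).exists_bound_of_continuousOn
    Φ.Dw_smooth.continuous.continuousOn
  have hcont : Continuous fun p : R4 × W =>
      ‖(Φ.Dw p).comp (Φ.G (p.1, 0)) - ContinuousLinearMap.id ℝ R4‖ :=
    ((Φ.Dw_smooth.continuous.clm_comp (Φ.G_smooth.continuous.comp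
      (continuous_fst.prodMk continuous_const))).sub continuous_const).norm
  have hopen : IsOpen {p : R4 × W |
      ‖(Φ.Dw p).comp (Φ.G (p.1, 0)) - ContinuousLinearMap.id ℝ R4‖ < 1 / 2} :=
    isOpen_lt hcont continuous_const
  obtain ⟨δ, hδ, hsub⟩ := (Φ.K_compact.prod (isCompact_singleton (x := (0 : W)))).exists_thickening_subset_open
    hopen (fun p hp => by
      obtain ⟨hy, h0⟩ := hp
      rw [mem_singleton_iff] at h0
      have := Φ.right p.1 hy 0 (by simpa using Φ.rad_pos.le)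
      rw [show p = (p.1, 0) by ext <;> simp [h0]]
      simp only [mem_setOf_eq]
      rw [show (Φ.Dw (p.1, 0)).comp (Φ.G (p.1, 0)) = _ from this, sub_self, norm_zero]
      norm_num)
  refine ⟨max Γ 1, max Λ 1, min (δ / 2) Φ.rad, le_max_right _ _, le_max_right _ _,
    lt_min (by positivity) Φ.rad_pos, min_le_right _ _, fun y hy =>
      ⟨(hΓ y hy).trans (le_max_left _ _), fun u hu => ⟨?_, ?_⟩⟩⟩
  · have h := (convex_closedBall (0 : W) Φ.rad).norm_image_sub_le_of_norm_hasFDerivWithin_le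
      (f := fun v => Φ.F (y, v)) (f' := fun v => Φ.Dw (y, v)) (C := max Λ 1)
      (fun v _ => (Φ.hasFDerivAt_par y v).hasFDerivWithinAt)
      (fun v hv => (hΛ (y, v) ⟨hy, hv⟩).trans (le_max_left _ _))
      (x := 0) (y := u) (by simpa using Φ.rad_pos.le)
      (by simpa using hu.trans (min_le_right _ _))
    simpa using h
  · refine (hsub (mem_thickening_iff.2 ⟨(y, 0), ⟨hy, mem_singleton _⟩, ?_⟩)).le
    simp only [Prod.dist_eq, dist_self, dist_zero_right]
    exact max_lt hδ ((hu.trans (min_le_left _ _)).trans_lt (half_lt_self hδ))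

variable [MeasurableSpace W] [BorelSpace W] (μ : Measure W) [μ.IsAddHaarMeasure]

theorem Fam.exists_ball_bound (Φ : Fam W) :
    ∃ C R δ : ℝ, 0 ≤ C ∧ 1 ≤ R ∧ 0 < δ ∧ δ ≤ Φ.rad ∧ ∀ σ, 0 < σ → σ ≤ δ → ∀ y ∈ Φ.K,
      ∀ g : R4 → ℝ, Continuous g → (∀ x, 0 ≤ g x) →
        ∫ w in closedBall (0 : W) 1, g (Φ.F (y, σ • w)) ∂μ ≤
          C / σ ^ 4 * ∫ x in closedBall (Φ.F (y, 0)) (R * σ), g x := by
  obtain ⟨c, hc, hdet⟩ := exists_det_near_id
  obtain ⟨Γ, Λ, δ, hΓ, hΛ, hδ, hδr, hdata⟩ := Φ.exists_ball_data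
  set r0 : ℝ := Γ⁻¹
  set V0 : ℝ := volume.real (closedBall (0 : R4) r0)
  have hV0 : 0 < V0 :=
    ENNReal.toReal_pos (measure_closedBall_pos _ _ (by positivity)).ne'
      (isCompact_closedBall _ _).measure_lt_top.ne
  refine ⟨μ.real (closedBall (0 : W) 2) / (V0 * c), 3 * Λ, δ / 3, by positivity, by linarith,
    by positivity, by linarith, fun σ hσ hσδ y hy g hg hg0 => ?_⟩
  obtain ⟨hL, hu⟩ := hdata y hy
  set L : R4 →L[ℝ] W := Φ.G (y, 0)
  set I := ∫ x in closedBall (Φ.F (y, 0)) (3 * Λ * σ), g x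
  have hLv : ∀ v ∈ closedBall (0 : R4) r0, ‖L v‖ ≤ 1 := fun v hv => by
    have hv' : ‖v‖ ≤ Γ⁻¹ := by simpa using hv
    calc ‖L v‖ ≤ Γ * Γ⁻¹ := (L.le_opNorm v).trans (mul_le_mul hL hv' (norm_nonneg _) (by linarith))
      _ = 1 := mul_inv_cancel₀ (by linarith)
  have hsmall : ∀ w ∈ closedBall (0 : W) 2, ∀ v ∈ closedBall (0 : R4) r0,
      ‖σ • (w + L v)‖ ≤ 3 * σ := fun w hw v hv => by
    rw [norm_smul, Real.norm_eq_abs, abs_of_pos hσ]
    have hw' : ‖w‖ ≤ 2 := by simpa using hw
    nlinarith [norm_add_le w (L v), hLv v hv]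
  let h : W → ℝ := fun w => g (Φ.F (y, σ • w))
  have hh : Continuous h :=
    hg.comp (Φ.F_smooth.continuous.comp (continuous_const.prodMk (continuous_const_smul σ)))
  -- the bound for a fixed `w`
  have inner : ∀ w ∈ closedBall (0 : W) 2,
      ∫ v in closedBall (0 : R4) r0, h (w + L v) ≤ (c * σ ^ 4)⁻¹ * I := by
    intro w hw
    let ψ : R4 → R4 := fun v => Φ.F (y, σ • (w + L v))
    let ψ' : R4 → R4 →L[ℝ] R4 := fun v => σ • (Φ.Dw (y, σ • (w + L v))).comp L
    have hψ : ∀ v, HasFDerivAt ψ (ψ' v) v := fun v => by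
      have h1 : HasFDerivAt (fun v => σ • (w + L v)) (σ • L) v :=
        ((L.hasFDerivAt).const_add w).const_smul σ
      refine ((Φ.hasFDerivAt_par y _).comp v h1).congr_fderiv ?_
      simp [ψ']
    have hclose : ∀ v ∈ closedBall (0 : R4) r0,
        ‖(Φ.Dw (y, σ • (w + L v))).comp L - ContinuousLinearMap.id ℝ R4‖ ≤ 1 / 2 :=
      fun v hv => (hu _ ((hsmall w hw v hv).trans (by linarith))).2
    have hinj : InjOn ψ (closedBall (0 : R4) r0) := by
      intro a ha b hb hab
      have hb' := (convex_closedBall (0 : R4) r0).norm_image_sub_le_of_norm_hasFDerivWithin_le'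
        (f := ψ) (f' := ψ') (φ := σ • ContinuousLinearMap.id ℝ R4) (C := σ * (1 / 2))
        (fun v _ => (hψ v).hasFDerivWithinAt) (fun v hv => by
          simp only [ψ', ← smul_sub, norm_smul, Real.norm_eq_abs, abs_of_pos hσ]
          exact mul_le_mul_of_nonneg_left (hclose v hv) hσ.le) ha hb
      rw [hab] at hb'
      simp only [sub_self, zero_sub, norm_neg, smul_apply, ContinuousLinearMap.id_apply, norm_smul,
        Real.norm_eq_abs, abs_of_pos hσ] at hb'
      by_contra hne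
      have : 0 < ‖b - a‖ := norm_pos_iff.2 (sub_ne_zero.2 (Ne.symm hne))
      nlinarith
    have hdetψ : ∀ v ∈ closedBall (0 : R4) r0, c * σ ^ 4 ≤ |(ψ' v).det| := fun v hv => by
      have hd : (ψ' v).det = σ ^ 4 * ((Φ.Dw (y, σ • (w + L v))).comp L).det := by
        simp [ψ', ContinuousLinearMap.det, LinearMap.det_smul, finrank_euclideanSpace]
      rw [hd, abs_mul, abs_of_pos (pow_pos hσ 4), mul_comm c]
      exact mul_le_mul_of_nonneg_left (hdet _ (hclose v hv)) (pow_pos hσ 4).le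
    have himg : ψ '' closedBall (0 : R4) r0 ⊆ closedBall (Φ.F (y, 0)) (3 * Λ * σ) := by
      rintro _ ⟨v, hv, rfl⟩
      rw [mem_closedBall_iff_norm]
      calc ‖ψ v - Φ.F (y, 0)‖ ≤ Λ * ‖σ • (w + L v)‖ :=
            (hu _ ((hsmall w hw v hv).trans (by linarith))).1
        _ ≤ Λ * (3 * σ) := mul_le_mul_of_nonneg_left (hsmall w hw v hv) (by linarith)
        _ = 3 * Λ * σ := by ring
    have hc' : (0 : ℝ) < c * σ ^ 4 := by positivity
    have hψc : Continuous ψ := continuous_iff_continuousAt.2 fun v => (hψ v).continuousAt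
    have hψ'c : Continuous ψ' :=
      ((Φ.Dw_smooth.continuous.comp (continuous_const.prodMk
        ((continuous_const.add L.continuous).const_smul σ))).clm_comp continuous_const).const_smul σ
    rw [← div_le_iff₀' (inv_pos.2 hc'), div_inv_eq_mul, mul_comm]
    calc c * σ ^ 4 * ∫ v in closedBall (0 : R4) r0, h (w + L v)
        ≤ ∫ v in closedBall (0 : R4) r0, |(ψ' v).det| • g (ψ v) := by
          rw [← integral_const_mul]
          exact setIntegral_mono_on
            ((continuous_const.mul (hg.comp hψc)).continuousOn.integrableOn_compact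
              (isCompact_closedBall _ _))
            (((ContinuousLinearMap.continuous_det.comp hψ'c).abs.smul
              (hg.comp hψc)).continuousOn.integrableOn_compact (isCompact_closedBall _ _))
            isClosed_closedBall.measurableSet
            fun v hv => mul_le_mul_of_nonneg_right (hdetψ v hv) (hg0 _)
      _ = ∫ x in ψ '' closedBall (0 : R4) r0, g x :=
          (integral_image_eq_integral_abs_det_fderiv_smul volume isClosed_closedBall.measurableSet
            (fun v _ => (hψ v).hasFDerivWithinAt) hinj g).symm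
      _ ≤ I := setIntegral_mono_set (hg.continuousOn.integrableOn_compact (isCompact_closedBall _ _))
          (ae_of_all _ hg0) himg.eventuallyLE
  -- averaging over translations
  have h01 : Integrable ((closedBall (0 : W) 1).indicator h) μ :=
    (integrable_indicator_iff isClosed_closedBall.measurableSet).2
      (hh.continuousOn.integrableOn_compact (isCompact_closedBall _ _))
  let q : R4 × W → ℝ := fun p => h (p.2 + L p.1)
  have hq : Continuous q := hh.comp (continuous_snd.add (L.continuous.comp continuous_fst))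
  have hint : Integrable q ((volume.restrict (closedBall (0 : R4) r0)).prod
      (μ.restrict (closedBall (0 : W) 2))) := by
    rw [Measure.prod_restrict]
    exact hq.continuousOn.integrableOn_compact ((isCompact_closedBall _ _).prod (isCompact_closedBall _ _))
  have trans1 : ∀ v ∈ closedBall (0 : R4) r0,
      ∫ w in closedBall (0 : W) 1, h w ∂μ ≤ ∫ w in closedBall (0 : W) 2, q (v, w) ∂μ := by
    intro v hv
    rw [← integral_indicator isClosed_closedBall.measurableSet, ← integral_indicator isClosed_closedBall.measurableSet,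
      ← integral_add_right_eq_self (fun w => (closedBall (0 : W) 1).indicator h w) (L v)]
    refine integral_mono (h01.comp_add_right (L v))
      ((integrable_indicator_iff isClosed_closedBall.measurableSet).2
        ((hq.comp (continuous_const.prodMk continuous_id)).continuousOn.integrableOn_compact
          (isCompact_closedBall _ _))) fun w => ?_
    by_cases hw : w + L v ∈ closedBall (0 : W) 1
    · have hw2 : w ∈ closedBall (0 : W) 2 := by
        have h1 : ‖w + L v‖ ≤ 1 := by simpa using hw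
        have h2 : w = (w + L v) - L v := by abel
        simp only [mem_closedBall, dist_zero_right]
        rw [h2]
        linarith [norm_sub_le (w + L v) (L v), hLv v hv]
      simp [indicator_of_mem hw, indicator_of_mem hw2, q]
    · rw [indicator_of_notMem hw]
      exact indicator_nonneg (fun x _ => hg0 _) _
  have step : V0 * ∫ w in closedBall (0 : W) 1, h w ∂μ ≤
      μ.real (closedBall (0 : W) 2) * ((c * σ ^ 4)⁻¹ * I) := by
    calc V0 * ∫ w in closedBall (0 : W) 1, h w ∂μ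
        = ∫ _v in closedBall (0 : R4) r0, ∫ w in closedBall (0 : W) 1, h w ∂μ := by
          simp [V0, smul_eq_mul]
      _ ≤ ∫ v in closedBall (0 : R4) r0, ∫ w in closedBall (0 : W) 2, q (v, w) ∂μ :=
          setIntegral_mono_on (integrableOn_const (isCompact_closedBall _ _).measure_lt_top.ne)
            hint.integral_prod_left isClosed_closedBall.measurableSet trans1
      _ = ∫ w in closedBall (0 : W) 2, (∫ v in closedBall (0 : R4) r0, h (w + L v)) ∂μ :=
          integral_integral_swap (f := fun v w => q (v, w)) hint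
      _ ≤ ∫ _w in closedBall (0 : W) 2, (c * σ ^ 4)⁻¹ * I ∂μ :=
          setIntegral_mono_on hint.integral_prod_right
            (integrableOn_const (isCompact_closedBall _ _).measure_lt_top.ne)
            isClosed_closedBall.measurableSet inner
      _ = _ := by simp [smul_eq_mul]
  calc ∫ w in closedBall (0 : W) 1, g (Φ.F (y, σ • w)) ∂μ
      = V0⁻¹ * (V0 * ∫ w in closedBall (0 : W) 1, h w ∂μ) := by field_simp; rfl
    _ ≤ V0⁻¹ * (μ.real (closedBall (0 : W) 2) * ((c * σ ^ 4)⁻¹ * I)) :=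
        mul_le_mul_of_nonneg_left step (by positivity)
    _ = _ := by simp only [I]; field_simp

/-- Pointwise kernel bound with uniform radius. -/
theorem Fam.exists_avgOp_bound (Φ : Fam W) :
    ∃ C R δ : ℝ, 0 ≤ C ∧ 1 ≤ R ∧ 0 < δ ∧ δ ≤ Φ.rad ∧ ∀ {V V' : Type} [NormedAddCommGroup V]
      [NormedSpace ℝ V] [NormedAddCommGroup V'] [NormedSpace ℝ V'] (s : Sym Φ V V') (σ M : ℝ),
      0 < σ → σ ≤ δ → (∀ y w, ‖s.a (σ, y, w)‖ ≤ M) → ∀ f : R4 → V, Continuous f → ∀ y,
        ‖avgOp μ s σ f y‖ ≤ M * (C / σ ^ 4) * ∫ x in closedBall (Φ.F (y, 0)) (R * σ), ‖f x‖ := by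
  obtain ⟨C, R, δ, hC0, hR, hδ, hδr, hb⟩ := Φ.exists_ball_bound μ
  refine ⟨C, R, δ, hC0, hR, hδ, hδr, fun {V V'} _ _ _ _ s σ M hσ hσδ hM f hf y => ?_⟩
  have hM0 : 0 ≤ M := (norm_nonneg _).trans (hM y 0)
  by_cases hy : y ∈ Φ.K
  · rw [mul_assoc]
    exact (norm_avgOp_le s hM hf y).trans
      (mul_le_mul_of_nonneg_left (hb σ hσ hσδ y hy _ hf.norm fun x => norm_nonneg _) hM0)
  · rw [avgOp_zero_of_notMem μ s σ f hy, norm_zero]
    positivity

variable {μ}

/-- Derivatives of an average are bounded by the mass of `f`. -/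
theorem exists_jet_bound (Φ : Fam W) (j : ℕ) :
    ∀ {V V' : Type} [NormedAddCommGroup V] [NormedSpace ℝ V] [NormedAddCommGroup V']
      [NormedSpace ℝ V'] [CompleteSpace V'] (s : Sym Φ V V'),
      ∃ C δ : ℝ, 0 ≤ C ∧ 0 < δ ∧ δ ≤ Φ.rad ∧ ∀ σ, 0 < σ → σ ≤ δ → ∀ f : R4 → V, ContDiff ℝ ∞ f →
        HasCompactSupport f → ∀ y,
          ‖iteratedFDeriv ℝ j (avgOp μ s σ f) y‖ ≤ C / σ ^ (4 + j) * ∫ x, ‖f x‖ := by
  induction j with
  | zero =>
    intro V V' _ _ _ _ _ s
    obtain ⟨C, R, δ, hC0, hR, hδ, hδr, hb⟩ := Φ.exists_avgOp_bound μ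
    obtain ⟨M, hM0, hM⟩ := s.exists_bound
    refine ⟨M * C, δ, by positivity, hδ, hδr, fun σ hσ hσδ f hf hfs y => ?_⟩
    rw [norm_iteratedFDeriv_zero]
    refine (hb s σ M hσ hσδ (fun y w => hM σ y w (by
      rw [abs_of_pos hσ]; linarith [Φ.rad_le])) f hf.continuous y).trans ?_
    rw [← mul_div_assoc, Nat.add_zero]
    exact mul_le_mul_of_nonneg_left (setIntegral_le_integral
      (hf.continuous.norm.integrable_of_hasCompactSupport hfs.norm)
      (ae_of_all _ fun x => norm_nonneg _)) (by positivity)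
  | succ j ih =>
    intro V V' _ _ _ _ _ s
    obtain ⟨C, δ, hC0, hδ, hδr, hb⟩ := ih s.down
    refine ⟨C, δ, hC0, hδ, hδr, fun σ hσ hσδ f hf hfs y => ?_⟩
    have hσr : |σ| ≤ Φ.rad := by rw [abs_of_pos hσ]; linarith
    have := hb σ hσ hσδ f hf hfs y
    rw [← smul_fderiv_avgOp s hσr hf, iteratedFDeriv_const_smul_apply
      (((avgOp_smooth μ s σ hf).fderiv_right (m := ∞) le_rfl).of_le (mod_cast le_top)).contDiffAt, norm_smul,
      norm_iteratedFDeriv_fderiv, Real.norm_eq_abs, abs_of_pos hσ] at this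
    rw [← le_div_iff₀' hσ] at this
    refine this.trans (le_of_eq ?_)
    rw [← add_assoc, pow_succ]
    field_simp

end Vale.Agent.P204.Full.Smooth
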